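import Vale.Agent.P237.Petty.Cor.Grid.Tiny.N17.Cert

/-!
# P237: a cell down to zero in dimension 17, subdivisions
-/

namespace Vale.Agent.P237.Petty.Cor.Grid.Tiny.N17

def covers0 : cell.Covers Vale.Agent.P237.Petty.Cor.Grid.N17.table row0.1 :=
  ⟨(.cut .d 0 (.cut .v 16777216 (.cut .v 8388608 (.cut .v 4194304 (.cut .v 2097152 (.void 6 ⟨⟨0, 0, 100000, 0, 0, 0, 0, 0, 0, ⟨0, 0⟩, 0⟩, 0, 0⟩ 0 0) (.pos 7 .mm ⟨⟨0, 0, 0, 0, 125416, 188098, 0, 0, 0, ⟨0, 0⟩, 0⟩, 0, 0⟩ 0 0)) (.pos 5 .mm ⟨⟨0, 0, 0, 0, 0, 0, 0, 0, 0, ⟨0, 0⟩, 0⟩, 0, 0⟩ 0 0)) (.cut .v 12582912 (.cut .d (-8388608) (.pos 8 .mm ⟨⟨0, 0, 0, 0, 0, 2293774, 0, 0, 0, ⟨0, 0⟩, 0⟩, 0,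 0⟩ 0 0) (.pos 8 .mm ⟨⟨0, 0, 0, 0, 0, 340356, 0, 0, 0, ⟨0, 0⟩, 0⟩, 0, 0⟩ 0 0)) (.cut .d (-8388608) (.pos 9 .mm ⟨⟨0, 0, 0, 0, 0, 3147508, 0, 0, 0, ⟨0, 0⟩, 0⟩, 0, 0⟩ 0 0) (.cut .d (-4194304) (.cut .v 14680064 (.pos 12 .mm ⟨⟨0, 0, 0, 0, 0, 1498046, 0, 0, 0, ⟨0, 0⟩, 0⟩, 0, 0⟩ 0 0) (.pos 13 .mm ⟨⟨0, 0, 0, 0, 0, 1865592, 0, 0, 0, ⟨0, 0⟩, 0⟩, 0, 0⟩ 0 0)) (.cut .v 14680064 (.pos 12 .mm ⟨⟨0, 0, 0, 0, 0, 390300, 0, 0, 0, ⟨0, 0⟩, 0⟩, 0, 0⟩ 0 0) (.cut .d (-2097152) (.pos 13 .mm ⟨⟨0, 0, 0, 0, 0, 904342, 0, 0, 0, ⟨0, 0⟩, 0⟩, 0, 0⟩ 0 0) (.pos 13 .mm ⟨⟨0, 0, 0, 0, 0, 415479, 0, 0, 0, ⟨0, 0⟩, 0⟩, 0, 0⟩ 0 0))))))) (.cut .v 25165824 (.cut .v 20971520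 (.cut .v 18874368 (.cut .d (-8388608) (.pos 21 .mp ⟨⟨0, 0, 0, 0, 0, 5736445, 0, 0, 0, ⟨0, 0⟩, 0⟩, 0, 0⟩ 0 0) (.cut .s 851968 (.pos 21 .mp ⟨⟨1653787, 0, 0, 0, 0, 8913, 52477, 0, 0, ⟨0, 0⟩, 0⟩, 0, 0⟩ 0 0) (.cut .s 1277952 (.pos 21 .mp ⟨⟨1667884, 0, 0, 0, 0, 0, 0, 0, 0, ⟨0, 0⟩, 0⟩, 0, 0⟩ 0 0) (.cut .d (-4194304) (.void 21 ⟨⟨0, 0, 0, 0, 0, 100000, 0, 0, 0, ⟨0, 0⟩, 0⟩, 0, 0⟩ 0 0) (.pos 21 .mp ⟨⟨1515562, 0, 0, 0, 0, 0, 0, 0, 0, ⟨0, 0⟩, 0⟩, 0, 0⟩ 0 0))))) (.void 22 ⟨⟨0, 0, 0, 0, 0, 0, 100000, 0, 0, ⟨0, 0⟩, 0⟩, 0, 0⟩ 0 0)) (.void 20 ⟨⟨0, 0, 0, 0, 0, 0, 100000, 0, 0, ⟨0, 0⟩, 0⟩, 0, 0⟩ 0 0)) (.void 18 ⟨⟨0, 0, 0, 0, 0, 0, 100000, 0, 0, ⟨0,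 0⟩, 0⟩, 0, 0⟩ 0 0))) (.cut .v 16777216 (.cut .v 8388608 (.cut .v 4194304 (.cut .v 2097152 (.void 6 ⟨⟨0, 0, 100000, 0, 0, 0, 0, 0, 0, ⟨0, 0⟩, 0⟩, 0, 0⟩ 0 0) (.pos 7 .pm ⟨⟨0, 0, 0, 0, 863193, 0, 0, 0, 0, ⟨0, 0⟩, 0⟩, 0, 0⟩ 0 0)) (.pos 5 .pm ⟨⟨0, 0, 0, 0, 856407, 0, 0, 0, 0, ⟨0, 0⟩, 0⟩, 0, 0⟩ 0 0)) (.cut .v 12582912 (.pos 8 .pm ⟨⟨0, 0, 0, 0, 878013, 0, 0, 0, 0, ⟨0, 0⟩, 0⟩, 0, 0⟩ 0 0) (.pos 9 .pm ⟨⟨0, 0, 0, 0, 0, 0, 0, 0, 0, ⟨0, 0⟩, 0⟩, 0, 495462⟩ 0 0))) (.cut .v 25165824 (.cut .v 20971520 (.cut .v 18874368 (.cut .v 17825792 (.cut .d 362969 (.cut .v 17301504 (.cut .v 17039360 (.cut .s 851968 (.pos 27 .pp ⟨⟨1026044, 0, 0, 0, 0, 0, 322194,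 0, 0, ⟨0, 0⟩, 0⟩, 0, 63303⟩ 0 0) (.cut .s 1277952 (.pos 27 .pp ⟨⟨1553269, 0, 0, 0, 0, 0, 0, 0, 0, ⟨0, 0⟩, 0⟩, 0, 153871⟩ 0 0) (.cut .s 1490944 (.pos 27 .pp ⟨⟨1380425, 0, 0, 0, 0, 0, 0, 0, 0, ⟨0, 0⟩, 0⟩, 0, 172222⟩ 0 0) (.pos 27 .pp ⟨⟨1230179, 0, 0, 0, 0, 0, 0, 0, 0, ⟨0, 0⟩, 0⟩, 0, 178437⟩ 0 0)))) (.void 28 ⟨⟨90690, 0, 0, 0, 0, 0, 0, 0, 0, ⟨0, 0⟩, 0⟩, 0, 9310⟩ 0 0)) (.void 26 ⟨⟨0, 0, 0, 0, 0, 0, 100000, 0, 0, ⟨0, 0⟩, 0⟩, 0, 0⟩ 0 0)) (.pos 23 .pp ⟨⟨0, 0, 0, 0, 0, 0, 845809, 0, 0, ⟨0, 0⟩, 0⟩, 0, 860273⟩ 0 0)) (.void 24 ⟨⟨0, 0, 0, 0, 0, 0, 100000, 0, 0, ⟨0, 0⟩, 0⟩, 0, 0⟩ 0 0)) (.void 22 ⟨⟨0, 0, 0, 0, 0, 0, 0, 0, 0, ⟨0, 0⟩, 0⟩, 100000,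 0⟩ 0 0)) (.void 20 ⟨⟨0, 0, 0, 0, 0, 0, 0, 0, 0, ⟨0, 0⟩, 0⟩, 100000, 0⟩ 0 0)) (.void 18 ⟨⟨0, 0, 0, 0, 0, 0, 0, 0, 0, ⟨0, 0⟩, 0⟩, 100000, 0⟩ 0 0)))),
    by decide +kernel⟩

def covers1 : cell.Covers Vale.Agent.P237.Petty.Cor.Grid.N17.table row1.1 :=
  ⟨(.cut .d 0 (.cut .v 16777216 (.cut .v 8388608 (.void 2 ⟨⟨0, 0, 0, 0, 50000, 50000, 0, 0, 0, ⟨0, 0⟩, 0⟩, 0, 0⟩ 0 0) (.cut .v 12582912 (.void 8 ⟨⟨0, 0, 0, 0, 50000, 50000, 0, 0, 0, ⟨0, 0⟩, 0⟩, 0, 0⟩ 0 0) (.cut .d (-8388608) (.void 9 ⟨⟨0, 0, 0, 0, 0, 100000, 0, 0, 0, ⟨0, 0⟩, 0⟩, 0, 0⟩ 0 0) (.cut .d (-4194304) (.void 9 ⟨⟨0, 0, 0, 0, 0, 100000, 0, 0, 0, ⟨0, 0⟩, 0⟩, 0, 0⟩ 0 0) (.cut .d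 (-2097152) (.void 9 ⟨⟨0, 0, 0, 0, 0, 100000, 0, 0, 0, ⟨0, 0⟩, 0⟩, 0, 0⟩ 0 0) (.cut .v 14680064 (.pos 12 .mm ⟨⟨0, 0, 0, 0, 0, 1948228, 0, 0, 0, ⟨0, 0⟩, 0⟩, 0, 0⟩ 0 0) (.cut .d (-1048576) (.void 13 ⟨⟨0, 0, 0, 0, 0, 100000, 0, 0, 0, ⟨0, 0⟩, 0⟩, 0, 0⟩ 0 0) (.cut .d (-524288) (.void 13 ⟨⟨0, 0, 0, 0, 0, 100000, 0, 0, 0, ⟨0, 0⟩, 0⟩, 0, 0⟩ 0 0) (.pos 13 .mm ⟨⟨0, 0, 0, 0, 0, 747678, 0, 0, 0, ⟨0, 0⟩, 0⟩, 0, 0⟩ 0 0))))))))) (.cut .v 25165824 (.cut .d (-8388608) (.void 17 ⟨⟨0, 0, 0, 0, 0, 100000, 0, 0, 0, ⟨0, 0⟩, 0⟩, 0, 0⟩ 0 0) (.cut .d (-4194304) (.void 17 ⟨⟨0, 0, 0, 0, 0, 100000, 0, 0, 0, ⟨0, 0⟩, 0⟩, 0, 0⟩ 0 0) (.cut .v 20971520 (.cut .d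 (-2097152) (.void 19 ⟨⟨0, 0, 0, 0, 0, 100000, 0, 0, 0, ⟨0, 0⟩, 0⟩, 0, 0⟩ 0 0) (.cut .d (-1048576) (.void 19 ⟨⟨0, 0, 0, 0, 0, 100000, 0, 0, 0, ⟨0, 0⟩, 0⟩, 0, 0⟩ 0 0) (.cut .v 18874368 (.cut .d (-524288) (.void 21 ⟨⟨0, 0, 0, 0, 0, 100000, 0, 0, 0, ⟨0, 0⟩, 0⟩, 0, 0⟩ 0 0) (.cut .s 2359296 (.pos 21 .mp ⟨⟨1314032, 0, 0, 0, 0, 0, 0, 0, 0, ⟨0, 0⟩, 0⟩, 0, 0⟩ 0 0) (.cut .d (-262144) (.pos 21 .mp ⟨⟨993095, 0, 0, 0, 0, 835609, 0, 0, 0, ⟨0, 0⟩, 0⟩, 0, 0⟩ 0 0) (.pos 21 .mp ⟨⟨979169, 0, 0, 0, 0, 60306, 0, 0, 0, ⟨0, 0⟩, 0⟩, 0, 0⟩ 0 0)))) (.void 22 ⟨⟨0, 0, 0, 0, 0, 0, 100000, 0, 0, ⟨0, 0⟩, 0⟩, 0, 0⟩ 0 0)))) (.void 20 ⟨⟨0, 0, 0, 0, 0, 0, 100000,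 0, 0, ⟨0, 0⟩, 0⟩, 0, 0⟩ 0 0)))) (.void 18 ⟨⟨0, 0, 0, 0, 0, 0, 100000, 0, 0, ⟨0, 0⟩, 0⟩, 0, 0⟩ 0 0))) (.cut .v 16777216 (.cut .v 8388608 (.void 2 ⟨⟨0, 0, 0, 0, 100000, 0, 0, 0, 0, ⟨0, 0⟩, 0⟩, 0, 0⟩ 0 0) (.cut .v 12582912 (.void 8 ⟨⟨0, 0, 0, 0, 67738, 0, 0, 0, 32262, ⟨0, 0⟩, 13128881⟩, 0, 0⟩ 0 0) (.cut .v 14680064 (.void 12 ⟨⟨0, 0, 0, 0, 0, 0, 0, 0, 100000, ⟨0, 0⟩, 15100357⟩, 0, 0⟩ 0 0) (.cut .d 886791 (.cut .d 443395 (.pos 13 .pm ⟨⟨0, 0, 0, 0, 0, 0, 0, 0, 0, ⟨0, 0⟩, 0⟩, 0, 298091⟩ 0 0) (.void 13 ⟨⟨0, 0, 0, 0, 0, 0, 0, 0, 0, ⟨0, 0⟩, 0⟩, 0, 100000⟩ 0 0)) (.void 13 ⟨⟨0, 0, 0, 0, 0, 0, 0, 0, 0, ⟨0, 0⟩, 0⟩, 0, 100000⟩ 0 0))))) (.cut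 .v 25165824 (.cut .v 20971520 (.cut .v 18874368 (.cut .d 886791 (.cut .d 443395 (.cut .v 17825792 (.cut .v 17301504 (.cut .s 2359296 (.cut .s 2031616 (.cut .d 221697 (.cut .v 17039360 (.cut .s 1867776 (.pos 27 .pp ⟨⟨1127061, 0, 0, 0, 0, 0, 0, 0, 0, ⟨0, 0⟩, 0⟩, 0, 181948⟩ 0 0) (.pos 27 .pp ⟨⟨1015071, 0, 0, 0, 0, 0, 0, 0, 0, ⟨0, 0⟩, 0⟩, 0, 193867⟩ 0 0)) (.pos 28 .pp ⟨⟨1537507, 0, 0, 0, 0, 0, 0, 0, 0, ⟨0, 0⟩, 0⟩, 0, 0⟩ 0 0)) (.pos 25 .pp ⟨⟨969564, 0, 0, 0, 0, 0, 0, 0, 0, ⟨0, 0⟩, 0⟩, 0, 353884⟩ 0 0)) (.cut .d 221697 (.cut .v 17039360 (.cut .l 108558 (.cut .d 110848 (.cut .s 2195456 (.pos 27 .pp ⟨⟨929664, 0, 0, 0, 0, 0, 0, 0, 0, ⟨0,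 0⟩, 0⟩, 0, 184593⟩ 0 0) (.pos 27 .pp ⟨⟨833952, 0, 0, 0, 0, 0, 0, 0, 0, ⟨0, 0⟩, 0⟩, 0, 184503⟩ 0 0)) (.pos 27 .pp ⟨⟨764599, 0, 0, 0, 0, 0, 0, 0, 0, ⟨0, 0⟩, 0⟩, 0, 320564⟩ 0 0)) (.pos 27 .pp ⟨⟨746939, 0, 0, 0, 0, 0, 0, 0, 0, ⟨0, 0⟩, 0⟩, 0, 202074⟩ 0 0)) (.pos 28 .pp ⟨⟨939829, 0, 0, 0, 0, 0, 0, 0, 0, ⟨0, 0⟩, 0⟩, 0, 225586⟩ 0 0)) (.pos 25 .pp ⟨⟨733311, 0, 0, 0, 0, 0, 0, 0, 0, ⟨0, 0⟩, 0⟩, 0, 361319⟩ 0 0))) (.cut .d 221697 (.cut .v 17039360 (.cut .s 2686976 (.cut .d 110848 (.cut .s 2523136 (.pos 27 .pp ⟨⟨743155, 0, 0, 0, 0, 0, 0, 0, 0, ⟨0, 0⟩, 0⟩, 0, 183245⟩ 0 0) (.pos 27 .pp ⟨⟨653489, 0, 0, 0, 0, 0, 0, 0, 0, ⟨0, 0⟩, 0⟩, 0, 179238⟩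 0 0)) (.pos 27 .pp ⟨⟨543834, 0, 0, 0, 0, 0, 0, 0, 0, ⟨0, 0⟩, 0⟩, 0, 266756⟩ 0 0)) (.cut .d 110848 (.cut .s 2850816 (.pos 27 .pp ⟨⟨567361, 0, 0, 0, 0, 0, 0, 0, 0, ⟨0, 0⟩, 0⟩, 0, 173809⟩ 0 0) (.pos 27 .pp ⟨⟨484981, 0, 0, 0, 0, 0, 0, 0, 0, ⟨0, 0⟩, 0⟩, 0, 167205⟩ 0 0)) (.pos 27 .pp ⟨⟨310303, 0, 0, 0, 0, 0, 0, 0, 0, ⟨0, 0⟩, 0⟩, 0, 274252⟩ 0 0))) (.pos 28 .pp ⟨⟨717657, 0, 0, 0, 0, 0, 0, 0, 0, ⟨0, 0⟩, 0⟩, 0, 210538⟩ 0 0)) (.cut .v 17039360 (.pos 27 .pp ⟨⟨0, 0, 0, 0, 0, 0, 0, 0, 0, ⟨0, 0⟩, 0⟩, 0, 509077⟩ 0 0) (.pos 28 .pp ⟨⟨444914, 0, 0, 0, 0, 0, 0, 0, 0, ⟨0, 0⟩, 0⟩, 0, 492528⟩ 0 0)))) (.void 26 ⟨⟨84598, 0, 0, 0, 0, 0, 0, 0, 0, ⟨0, 0⟩,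 0⟩, 0, 15402⟩ 0 0)) (.void 24 ⟨⟨0, 0, 0, 0, 0, 0, 0, 0, 0, ⟨0, 0⟩, 0⟩, 100000, 0⟩ 0 0)) (.void 21 ⟨⟨0, 0, 0, 0, 0, 0, 640, 0, 0, ⟨0, 0⟩, 0⟩, 0, 99360⟩ 0 0)) (.void 21 ⟨⟨0, 0, 0, 0, 0, 0, 640, 0, 0, ⟨0, 0⟩, 0⟩, 0, 99360⟩ 0 0)) (.void 22 ⟨⟨0, 0, 0, 0, 0, 0, 100000, 0, 0, ⟨0, 0⟩, 0⟩, 0, 0⟩ 0 0)) (.void 20 ⟨⟨0, 0, 0, 0, 0, 0, 0, 0, 0, ⟨0, 0⟩, 0⟩, 100000, 0⟩ 0 0)) (.void 18 ⟨⟨0, 0, 0, 0, 0, 0, 0, 0, 0, ⟨0, 0⟩, 0⟩, 100000, 0⟩ 0 0)))),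
    by decide +kernel⟩

def covers2 : cell.Covers Vale.Agent.P237.Petty.Cor.Grid.N17.table row2.1 :=
  ⟨(.cut .d 0 (.cut .v 16777216 (.cut .v 8388608 (.void 2 ⟨⟨0, 0, 0, 0, 50000, 50000, 0, 0, 0, ⟨0, 0⟩, 0⟩, 0, 0⟩ 0 0) (.cut .v 12582912 (.void 8 ⟨⟨0, 0, 0, 0, 0, 61015, 0, 0, 38985, ⟨0, 0⟩, 13128881⟩, 0, 0⟩ 0 0) (.cut .d (-8388608) (.void 9 ⟨⟨0, 0, 0, 0, 0, 100000, 0, 0, 0, ⟨0, 0⟩, 0⟩, 0, 0⟩ 0 0) (.cut .d (-4194304) (.void 9 ⟨⟨0, 0, 0, 0, 0, 100000, 0, 0, 0, ⟨0, 0⟩, 0⟩, 0, 0⟩ 0 0) (.cut .d (-2097152) (.void 9 ⟨⟨0, 0, 0, 0, 0, 100000, 0, 0, 0, ⟨0, 0⟩, 0⟩, 0, 0⟩ 0 0) (.cut .v 14680064 (.pos 12 .mm ⟨⟨0, 0, 0, 0, 0, 3497661, 0, 0,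 0, ⟨0, 0⟩, 0⟩, 0, 0⟩ 0 0) (.cut .d (-1048576) (.void 13 ⟨⟨0, 0, 0, 0, 0, 100000, 0, 0, 0, ⟨0, 0⟩, 0⟩, 0, 0⟩ 0 0) (.cut .d (-524288) (.void 13 ⟨⟨0, 0, 0, 0, 0, 100000, 0, 0, 0, ⟨0, 0⟩, 0⟩, 0, 0⟩ 0 0) (.cut .d (-262144) (.void 13 ⟨⟨0, 0, 0, 0, 0, 100000, 0, 0, 0, ⟨0, 0⟩, 0⟩, 0, 0⟩ 0 0) (.cut .s 3407872 (.pos 13 .mm ⟨⟨0, 0, 0, 0, 0, 677896, 0, 0, 0, ⟨0, 0⟩, 0⟩, 0, 0⟩ 0 0) (.cut .s 3604480 (.pos 13 .mm ⟨⟨0, 0, 0, 0, 0, 793999, 0, 0, 0, ⟨0, 0⟩, 0⟩, 0, 0⟩ 0 0) (.cut .v 15728640 (.pos 14 .mm ⟨⟨0, 0, 0, 0, 0, 378154, 0, 0, 0, ⟨0, 0⟩, 0⟩, 0, 0⟩ 0 0) (.pos 15 .mm ⟨⟨0, 0, 0, 0, 0, 952411, 0, 0, 0, ⟨0, 0⟩, 0⟩, 0, 0⟩ 0 0))))))))))))) (.cut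 .v 25165824 (.cut .d (-8388608) (.void 17 ⟨⟨0, 0, 0, 0, 0, 100000, 0, 0, 0, ⟨0, 0⟩, 0⟩, 0, 0⟩ 0 0) (.cut .d (-4194304) (.void 17 ⟨⟨0, 0, 0, 0, 0, 100000, 0, 0, 0, ⟨0, 0⟩, 0⟩, 0, 0⟩ 0 0) (.cut .d (-2097152) (.void 17 ⟨⟨0, 0, 0, 0, 0, 100000, 0, 0, 0, ⟨0, 0⟩, 0⟩, 0, 0⟩ 0 0) (.cut .v 20971520 (.cut .d (-1048576) (.void 19 ⟨⟨0, 0, 0, 0, 0, 100000, 0, 0, 0, ⟨0, 0⟩, 0⟩, 0, 0⟩ 0 0) (.cut .d (-524288) (.void 19 ⟨⟨0, 0, 0, 0, 0, 100000, 0, 0, 0, ⟨0, 0⟩, 0⟩, 0, 0⟩ 0 0) (.cut .v 18874368 (.cut .d (-262144) (.void 21 ⟨⟨0, 0, 0, 0, 0, 100000, 0, 0, 0, ⟨0, 0⟩, 0⟩, 0, 0⟩ 0 0) (.cut .v 17825792 (.cut .d (-131072) (.pos 23 .mp ⟨⟨401003, 0, 0,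 0, 0, 916339, 0, 0, 0, ⟨0, 0⟩, 0⟩, 0, 0⟩ 0 0) (.pos 23 .mp ⟨⟨363002, 0, 0, 0, 0, 501881, 0, 0, 0, ⟨0, 0⟩, 0⟩, 0, 0⟩ 0 0)) (.void 24 ⟨⟨100000, 0, 0, 0, 0, 0, 0, 0, 0, ⟨0, 0⟩, 0⟩, 0, 0⟩ 0 0))) (.void 22 ⟨⟨0, 0, 0, 0, 0, 0, 100000, 0, 0, ⟨0, 0⟩, 0⟩, 0, 0⟩ 0 0)))) (.void 20 ⟨⟨0, 0, 0, 0, 0, 0, 100000, 0, 0, ⟨0, 0⟩, 0⟩, 0, 0⟩ 0 0))))) (.void 18 ⟨⟨0, 0, 0, 0, 0, 0, 100000, 0, 0, ⟨0, 0⟩, 0⟩, 0, 0⟩ 0 0))) (.cut .v 16777216 (.cut .v 8388608 (.void 2 ⟨⟨0, 0, 0, 0, 100000, 0, 0, 0, 0, ⟨0, 0⟩, 0⟩, 0, 0⟩ 0 0) (.cut .v 12582912 (.void 8 ⟨⟨0, 0, 0, 0, 0, 0, 0, 0, 100000, ⟨0, 0⟩, 13128881⟩, 0, 0⟩ 0 0) (.cut .d 1388638 (.cut .v 14680064 (.pos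 12 .pm ⟨⟨0, 0, 0, 0, 0, 0, 0, 0, 0, ⟨0, 0⟩, 0⟩, 0, 1668554⟩ 0 0) (.cut .d 694319 (.cut .d 347159 (.cut .v 15728640 (.pos 14 .pm ⟨⟨0, 0, 0, 0, 0, 0, 0, 0, 0, ⟨0, 0⟩, 0⟩, 0, 468484⟩ 0 0) (.cut .s 3407872 (.pos 15 .pm ⟨⟨0, 0, 0, 0, 0, 0, 0, 0, 0, ⟨0, 0⟩, 0⟩, 0, 275169⟩ 0 0) (.cut .d 173579 (.pos 15 .pm ⟨⟨0, 0, 0, 0, 0, 0, 0, 0, 0, ⟨0, 0⟩, 0⟩, 0, 159395⟩ 0 0) (.cut .v 16252928 (.pos 31 .pm ⟨⟨0, 0, 0, 0, 0, 0, 0, 0, 0, ⟨0, 0⟩, 0⟩, 0, 548581⟩ 0 0) (.pos 32 .pm ⟨⟨0, 0, 0, 0, 0, 0, 0, 0, 0, ⟨0, 0⟩, 0⟩, 0, 507281⟩ 0 0))))) (.void 13 ⟨⟨0, 0, 0, 0, 0, 0, 0, 0, 0, ⟨0, 0⟩, 0⟩, 0, 100000⟩ 0 0)) (.void 13 ⟨⟨0, 0, 0, 0, 0, 0, 0, 0, 0, ⟨0, 0⟩,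 0⟩, 0, 100000⟩ 0 0))) (.void 9 ⟨⟨0, 0, 0, 0, 0, 0, 0, 0, 0, ⟨0, 0⟩, 0⟩, 0, 100000⟩ 0 0)))) (.cut .v 25165824 (.cut .v 20971520 (.cut .d 1388638 (.cut .v 18874368 (.cut .d 694319 (.cut .d 347159 (.cut .v 17825792 (.cut .v 17301504 (.cut .d 173579 (.cut .s 3407872 (.pos 25 .pp ⟨⟨362560, 0, 0, 0, 0, 0, 0, 0, 0, ⟨0, 0⟩, 0⟩, 0, 189642⟩ 0 0) (.pos 25 .pp ⟨⟨286338, 0, 0, 0, 0, 0, 0, 0, 0, ⟨0, 0⟩, 0⟩, 0, 187748⟩ 0 0)) (.pos 25 .pp ⟨⟨0, 0, 0, 0, 0, 0, 0, 0, 0, ⟨0, 0⟩, 0⟩, 0, 322824⟩ 0 0)) (.void 26 ⟨⟨81373, 0, 0, 0, 0, 0, 0, 0, 0, ⟨0, 0⟩, 0⟩, 0, 18627⟩ 0 0)) (.void 24 ⟨⟨0, 0, 0, 0, 0, 0, 0, 0, 0, ⟨0, 0⟩, 0⟩, 100000, 0⟩ 0 0)) (.void 21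 ⟨⟨3430, 0, 0, 0, 0, 0, 0, 0, 0, ⟨0, 0⟩, 0⟩, 0, 96570⟩ 0 0)) (.void 21 ⟨⟨0, 0, 0, 0, 0, 0, 1578, 0, 0, ⟨0, 0⟩, 0⟩, 0, 98422⟩ 0 0)) (.void 22 ⟨⟨0, 0, 0, 0, 0, 0, 0, 0, 0, ⟨0, 0⟩, 0⟩, 19062, 80938⟩ 0 0)) (.void 19 ⟨⟨0, 0, 0, 0, 0, 0, 1578, 0, 0, ⟨0, 0⟩, 0⟩, 0, 98422⟩ 0 0)) (.void 20 ⟨⟨0, 0, 0, 0, 0, 0, 0, 0, 0, ⟨0, 0⟩, 0⟩, 19062, 80938⟩ 0 0)) (.void 18 ⟨⟨0, 0, 0, 0, 0, 0, 0, 0, 0, ⟨0, 0⟩, 0⟩, 100000, 0⟩ 0 0)))),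
    by decide +kernel⟩

def covers3 : cell.Covers Vale.Agent.P237.Petty.Cor.Grid.N17.table row3.1 :=
  ⟨(.cut .d 0 (.cut .v 16777216 (.cut .v 8388608 (.void 2 ⟨⟨0, 0, 0, 0, 50000, 50000, 0, 0, 0, ⟨0, 0⟩, 0⟩, 0, 0⟩ 0 0) (.cut .v 12582912 (.void 8 ⟨⟨0, 0, 0, 0, 0, 61015, 0, 0, 38985, ⟨0, 0⟩, 13128881⟩, 0, 0⟩ 0 0) (.cut .d (-8388608) (.void 9 ⟨⟨0, 0, 0, 0, 0, 100000, 0, 0, 0, ⟨0, 0⟩, 0⟩, 0, 0⟩ 0 0) (.cut .d (-4194304) (.void 9 ⟨⟨0, 0, 0, 0, 0, 100000, 0, 0, 0, ⟨0, 0⟩, 0⟩, 0, 0⟩ 0 0) (.cut .d (-2097152) (.void 9 ⟨⟨0, 0, 0, 0, 0, 100000, 0, 0, 0, ⟨0, 0⟩, 0⟩, 0, 0⟩ 0 0) (.cut .d (-1048576) (.void 9 ⟨⟨0, 0, 0, 0, 0, 100000, 0, 0, 0,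 ⟨0, 0⟩, 0⟩, 0, 0⟩ 0 0) (.cut .v 14680064 (.pos 12 .mm ⟨⟨0, 0, 0, 0, 0, 2808752, 0, 0, 0, ⟨0, 0⟩, 0⟩, 0, 0⟩ 0 0) (.cut .d (-524288) (.void 13 ⟨⟨0, 0, 0, 0, 0, 100000, 0, 0, 0, ⟨0, 0⟩, 0⟩, 0, 0⟩ 0 0) (.cut .d (-262144) (.void 13 ⟨⟨0, 0, 0, 0, 0, 100000, 0, 0, 0, ⟨0, 0⟩, 0⟩, 0, 0⟩ 0 0) (.cut .d (-131072) (.pos 13 .mm ⟨⟨0, 0, 0, 0, 0, 2736732, 0, 0, 0, ⟨0, 0⟩, 0⟩, 0, 0⟩ 0 0) (.cut .v 15728640 (.pos 14 .mm ⟨⟨0, 0, 0, 0, 0, 532144, 0, 0, 0, ⟨0, 0⟩, 0⟩, 0, 0⟩ 0 0) (.cut .s 4161536 (.pos 15 .mm ⟨⟨0, 0, 0, 0, 0, 1051268, 0, 0, 0, ⟨0, 0⟩, 0⟩, 0, 0⟩ 0 0) (.cut .s 4341760 (.pos 15 .mm ⟨⟨0, 0, 0, 0, 0, 1303927, 0, 0, 0, ⟨0, 0⟩, 0⟩, 0, 0⟩ 0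 0) (.cut .s 4431872 (.pos 15 .mm ⟨⟨0, 0, 0, 0, 0, 1473794, 0, 0, 0, ⟨0, 0⟩, 0⟩, 0, 0⟩ 0 0) (.pos 15 .mm ⟨⟨0, 0, 0, 0, 0, 1610124, 0, 0, 0, ⟨0, 0⟩, 0⟩, 0, 0⟩ 0 0))))))))))))))) (.cut .v 25165824 (.cut .d (-8388608) (.void 17 ⟨⟨0, 0, 0, 0, 0, 100000, 0, 0, 0, ⟨0, 0⟩, 0⟩, 0, 0⟩ 0 0) (.cut .d (-4194304) (.void 17 ⟨⟨0, 0, 0, 0, 0, 100000, 0, 0, 0, ⟨0, 0⟩, 0⟩, 0, 0⟩ 0 0) (.cut .d (-2097152) (.void 17 ⟨⟨0, 0, 0, 0, 0, 100000, 0, 0, 0, ⟨0, 0⟩, 0⟩, 0, 0⟩ 0 0) (.cut .v 20971520 (.cut .d (-1048576) (.void 19 ⟨⟨0, 0, 0, 0, 0, 100000, 0, 0, 0, ⟨0, 0⟩, 0⟩, 0, 0⟩ 0 0) (.cut .d (-524288) (.void 19 ⟨⟨0, 0, 0, 0, 0, 100000, 0, 0, 0, ⟨0, 0⟩, 0⟩,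 0, 0⟩ 0 0) (.cut .d (-262144) (.void 19 ⟨⟨0, 0, 0, 0, 0, 100000, 0, 0, 0, ⟨0, 0⟩, 0⟩, 0, 0⟩ 0 0) (.cut .v 18874368 (.cut .v 17825792 (.cut .v 17301504 (.cut .d (-131072) (.pos 25 .mp ⟨⟨266005, 0, 0, 0, 0, 2710329, 0, 0, 0, ⟨0, 0⟩, 0⟩, 0, 0⟩ 0 0) (.cut .v 17039360 (.cut .v 16908288 (.cut .s 4161536 (.cut .s 3981312 (.pos 29 .mp ⟨⟨445464, 0, 0, 0, 0, 671441, 0, 0, 0, ⟨0, 0⟩, 0⟩, 0, 0⟩ 0 0) (.pos 29 .mp ⟨⟨268690, 0, 0, 0, 0, 930468, 0, 0, 0, ⟨0, 0⟩, 0⟩, 0, 0⟩ 0 0)) (.cut .d (-65536) (.pos 29 .mp ⟨⟨119623, 0, 0, 0, 0, 1646279, 0, 0, 0, ⟨0, 0⟩, 0⟩, 0, 0⟩ 0 0) (.cut .s 4341760 (.pos 29 .mp ⟨⟨381549, 0, 0, 0, 0, 974064, 0, 0, 0, ⟨0,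 0⟩, 0⟩, 0, 0⟩ 0 0) (.pos 29 .mp ⟨⟨335837, 0, 0, 0, 0, 1226545, 0, 0, 0, ⟨0, 0⟩, 0⟩, 0, 0⟩ 0 0)))) (.pos 30 .mp ⟨⟨2252519, 0, 0, 0, 0, 0, 0, 0, 0, ⟨0, 0⟩, 0⟩, 0, 0⟩ 0 0)) (.void 28 ⟨⟨100000, 0, 0, 0, 0, 0, 0, 0, 0, ⟨0, 0⟩, 0⟩, 0, 0⟩ 0 0))) (.void 26 ⟨⟨100000, 0, 0, 0, 0, 0, 0, 0, 0, ⟨0, 0⟩, 0⟩, 0, 0⟩ 0 0)) (.void 24 ⟨⟨100000, 0, 0, 0, 0, 0, 0, 0, 0, ⟨0, 0⟩, 0⟩, 0, 0⟩ 0 0)) (.void 22 ⟨⟨100000, 0, 0, 0, 0, 0, 0, 0, 0, ⟨0, 0⟩, 0⟩, 0, 0⟩ 0 0))))) (.void 20 ⟨⟨0, 0, 0, 0, 0, 0, 100000, 0, 0, ⟨0, 0⟩, 0⟩, 0, 0⟩ 0 0))))) (.void 18 ⟨⟨0, 0, 0, 0, 0, 0, 100000, 0, 0, ⟨0, 0⟩, 0⟩, 0, 0⟩ 0 0))) (.cut .v 16777216 (.cut .v 8388608 (.void 2 ⟨⟨0,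 0, 0, 0, 100000, 0, 0, 0, 0, ⟨0, 0⟩, 0⟩, 0, 0⟩ 0 0) (.cut .v 12582912 (.void 8 ⟨⟨0, 0, 0, 0, 0, 0, 0, 0, 100000, ⟨0, 0⟩, 13128881⟩, 0, 0⟩ 0 0) (.cut .d 1916533 (.cut .d 958266 (.cut .d 479133 (.cut .v 14680064 (.pos 12 .pm ⟨⟨0, 0, 0, 0, 0, 0, 0, 0, 0, ⟨0, 0⟩, 0⟩, 0, 832550⟩ 0 0) (.cut .v 15728640 (.cut .d 239566 (.pos 14 .pm ⟨⟨0, 0, 0, 0, 0, 0, 0, 0, 0, ⟨0, 0⟩, 0⟩, 0, 249815⟩ 0 0) (.cut .s 4161536 (.pos 14 .pm ⟨⟨0, 0, 0, 0, 0, 0, 0, 0, 0, ⟨0, 0⟩, 0⟩, 0, 907550⟩ 0 0) (.pos 14 .pm ⟨⟨0, 0, 0, 0, 0, 0, 0, 0, 0, ⟨0, 0⟩, 0⟩, 0, 904605⟩ 0 0))) (.cut .d 239566 (.cut .s 4161536 (.pos 15 .pm ⟨⟨0, 0, 0, 0, 0, 0, 0, 0, 0, ⟨0, 0⟩, 0⟩, 0, 257995⟩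 0 0) (.pos 15 .pm ⟨⟨0, 0, 0, 0, 0, 0, 0, 0, 0, ⟨0, 0⟩, 0⟩, 0, 195560⟩ 0 0)) (.cut .d 359349 (.cut .l 108558 (.void 15 ⟨⟨0, 0, 0, 0, 0, 0, 0, 0, 0, ⟨0, 0⟩, 0⟩, 0, 100000⟩ 0 0) (.cut .l 162837 (.pos 15 .pm ⟨⟨0, 0, 0, 0, 0, 0, 0, 0, 0, ⟨0, 0⟩, 0⟩, 0, 4937371⟩ 0 0) (.cut .v 16252928 (.cut .s 4161536 (.cut .s 3981312 (.pos 31 .pm ⟨⟨0, 0, 0, 0, 0, 0, 0, 0, 0, ⟨0, 0⟩, 0⟩, 0, 666897⟩ 0 0) (.pos 31 .pm ⟨⟨0, 0, 0, 0, 0, 0, 0, 0, 0, ⟨0, 0⟩, 0⟩, 0, 678745⟩ 0 0)) (.pos 31 .pm ⟨⟨0, 0, 0, 0, 0, 0, 0, 0, 0, ⟨0, 0⟩, 0⟩, 0, 687160⟩ 0 0)) (.cut .s 4161536 (.pos 32 .pm ⟨⟨0, 0, 0, 0, 0, 0, 0, 0, 0, ⟨0, 0⟩, 0⟩, 0, 644765⟩ 0 0) (.pos 32 .pm ⟨⟨0, 0,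 0, 0, 0, 0, 0, 0, 0, ⟨0, 0⟩, 0⟩, 0, 633011⟩ 0 0))))) (.void 15 ⟨⟨0, 0, 0, 0, 0, 0, 0, 0, 0, ⟨0, 0⟩, 0⟩, 0, 100000⟩ 0 0))))) (.void 9 ⟨⟨0, 0, 0, 0, 0, 0, 0, 0, 0, ⟨0, 0⟩, 0⟩, 0, 100000⟩ 0 0)) (.void 9 ⟨⟨0, 0, 0, 0, 0, 0, 0, 0, 0, ⟨0, 0⟩, 0⟩, 0, 100000⟩ 0 0)) (.void 9 ⟨⟨0, 0, 0, 0, 0, 0, 0, 0, 0, ⟨0, 0⟩, 0⟩, 0, 100000⟩ 0 0)))) (.cut .v 25165824 (.cut .v 20971520 (.cut .d 1916533 (.cut .d 958266 (.cut .v 18874368 (.cut .d 479133 (.cut .v 17825792 (.cut .d 239566 (.pos 23 .pp ⟨⟨347911, 0, 0, 0, 0, 0, 0, 0, 0, ⟨0, 0⟩, 0⟩, 0, 195979⟩ 0 0) (.pos 23 .pp ⟨⟨0, 0, 0, 0, 0, 0, 0, 0, 0, ⟨0, 0⟩, 0⟩, 0, 708977⟩ 0 0)) (.void 24 ⟨⟨78531, 0, 0,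 0, 0, 0, 0, 0, 0, ⟨0, 0⟩, 0⟩, 0, 21469⟩ 0 0)) (.void 21 ⟨⟨0, 0, 0, 0, 0, 0, 3754, 0, 0, ⟨0, 0⟩, 0⟩, 0, 96246⟩ 0 0)) (.void 22 ⟨⟨0, 0, 0, 0, 0, 0, 0, 0, 0, ⟨0, 0⟩, 0⟩, 18936, 81064⟩ 0 0)) (.void 19 ⟨⟨0, 0, 0, 0, 0, 0, 0, 0, 0, ⟨0, 0⟩, 0⟩, 376, 99624⟩ 0 0)) (.void 19 ⟨⟨0, 0, 0, 0, 0, 0, 0, 0, 0, ⟨0, 0⟩, 0⟩, 0, 100000⟩ 0 0)) (.void 20 ⟨⟨0, 0, 0, 0, 0, 0, 0, 0, 0, ⟨0, 0⟩, 0⟩, 18936, 81064⟩ 0 0)) (.void 18 ⟨⟨0, 0, 0, 0, 0, 0, 0, 0, 0, ⟨0, 0⟩, 0⟩, 18936, 81064⟩ 0 0)))),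
    by decide +kernel⟩

def covers4 : cell.Covers Vale.Agent.P237.Petty.Cor.Grid.N17.table row4.1 :=
  ⟨(.cut .d 0 (.cut .v 16777216 (.cut .v 8388608 (.void 2 ⟨⟨0, 0, 0, 0, 50000, 50000, 0, 0, 0, ⟨0, 0⟩, 0⟩, 0, 0⟩ 0 0) (.cut .d (-8388608) (.void 3 ⟨⟨0, 0, 0, 0, 0, 100000, 0, 0, 0, ⟨0, 0⟩, 0⟩, 0, 0⟩ 0 0) (.cut .v 12582912 (.pos 8 .mm ⟨⟨0, 0, 0, 0, 0, 26492609, 0, 0, 0, ⟨0, 0⟩, 0⟩, 0, 0⟩ 0 0) (.cut .d (-4194304) (.void 9 ⟨⟨0, 0, 0, 0, 0, 100000, 0, 0, 0, ⟨0, 0⟩, 0⟩, 0, 0⟩ 0 0) (.cut .d (-2097152) (.void 9 ⟨⟨0, 0, 0, 0, 0, 100000, 0, 0, 0, ⟨0, 0⟩, 0⟩, 0, 0⟩ 0 0) (.cut .d (-1048576) (.void 9 ⟨⟨0, 0, 0, 0, 0, 100000, 0, 0, 0, ⟨0, 0⟩,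 0⟩, 0, 0⟩ 0 0) (.cut .v 14680064 (.pos 12 .mm ⟨⟨0, 0, 0, 0, 0, 4928898, 0, 0, 0, ⟨0, 0⟩, 0⟩, 0, 0⟩ 0 0) (.cut .d (-524288) (.void 13 ⟨⟨0, 0, 0, 0, 0, 100000, 0, 0, 0, ⟨0, 0⟩, 0⟩, 0, 0⟩ 0 0) (.cut .d (-262144) (.void 13 ⟨⟨0, 0, 0, 0, 0, 100000, 0, 0, 0, ⟨0, 0⟩, 0⟩, 0, 0⟩ 0 0) (.cut .d (-131072) (.void 13 ⟨⟨0, 0, 0, 0, 0, 100000, 0, 0, 0, ⟨0, 0⟩, 0⟩, 0, 0⟩ 0 0) (.cut .v 15728640 (.pos 14 .mm ⟨⟨0, 0, 0, 0, 0, 1075719, 0, 0, 0, ⟨0, 0⟩, 0⟩, 0, 0⟩ 0 0) (.cut .v 16252928 (.pos 31 .mm ⟨⟨0, 0, 0, 0, 0, 1917598, 0, 0, 0, ⟨0, 0⟩, 0⟩, 0, 0⟩ 0 0) (.cut .s 4882432 (.cut .d (-65536) (.pos 32 .mm ⟨⟨0, 0, 0, 0, 0, 2362669, 0, 0, 0, ⟨0, 0⟩, 0⟩,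 0, 0⟩ 0 0) (.cut .s 4702208 (.pos 32 .mm ⟨⟨0, 0, 0, 0, 0, 1751700, 0, 0, 0, ⟨0, 0⟩, 0⟩, 0, 0⟩ 0 0) (.pos 32 .mm ⟨⟨0, 0, 0, 0, 0, 2123939, 0, 0, 0, ⟨0, 0⟩, 0⟩, 0, 0⟩ 0 0))) (.cut .d (-65536) (.pos 32 .mm ⟨⟨0, 0, 0, 0, 0, 3453756, 0, 0, 0, ⟨0, 0⟩, 0⟩, 0, 0⟩ 0 0) (.cut .v 16515072 (.pos 39 .mm ⟨⟨0, 0, 0, 0, 0, 2284256, 0, 0, 0, ⟨0, 0⟩, 0⟩, 0, 0⟩ 0 0) (.cut .v 16646144 (.pos 41 .mm ⟨⟨0, 0, 0, 0, 0, 2622201, 0, 0, 0, ⟨0, 0⟩, 0⟩, 0, 0⟩ 0 0) (.cut .l 108558 (.cut .d (-32768) (.pos 42 .mm ⟨⟨0, 0, 0, 0, 0, 3271786, 0, 0, 0, ⟨0, 0⟩, 0⟩, 0, 0⟩ 0 0) (.cut .s 5062656 (.pos 42 .mm ⟨⟨0, 0, 0, 0, 0, 2532486, 0, 0, 0, ⟨0, 0⟩, 0⟩, 0, 0⟩ 0 0) (.pos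 42 .mm ⟨⟨0, 0, 0, 0, 0, 3080225, 0, 0, 0, ⟨0, 0⟩, 0⟩, 0, 0⟩ 0 0))) (.pos 42 .mm ⟨⟨0, 0, 0, 0, 0, 2361083, 0, 0, 0, ⟨0, 0⟩, 0⟩, 0, 0⟩ 0 0)))))))))))))))))) (.cut .d (-8388608) (.void 16 ⟨⟨0, 0, 0, 0, 0, 100000, 0, 0, 0, ⟨0, 0⟩, 0⟩, 0, 0⟩ 0 0) (.cut .v 25165824 (.cut .d (-4194304) (.void 17 ⟨⟨0, 0, 0, 0, 0, 100000, 0, 0, 0, ⟨0, 0⟩, 0⟩, 0, 0⟩ 0 0) (.cut .d (-2097152) (.void 17 ⟨⟨0, 0, 0, 0, 0, 100000, 0, 0, 0, ⟨0, 0⟩, 0⟩, 0, 0⟩ 0 0) (.cut .v 20971520 (.cut .d (-1048576) (.void 19 ⟨⟨0, 0, 0, 0, 0, 100000, 0, 0, 0, ⟨0, 0⟩, 0⟩, 0, 0⟩ 0 0) (.cut .d (-524288) (.void 19 ⟨⟨0, 0, 0, 0, 0, 100000, 0, 0, 0, ⟨0, 0⟩, 0⟩, 0, 0⟩ 0 0) (.cut .d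 (-262144) (.void 19 ⟨⟨0, 0, 0, 0, 0, 100000, 0, 0, 0, ⟨0, 0⟩, 0⟩, 0, 0⟩ 0 0) (.cut .v 18874368 (.cut .d (-131072) (.void 21 ⟨⟨0, 0, 0, 0, 0, 100000, 0, 0, 0, ⟨0, 0⟩, 0⟩, 0, 0⟩ 0 0) (.cut .v 17825792 (.cut .v 17301504 (.cut .v 17039360 (.cut .v 16908288 (.cut .s 4882432 (.cut .d (-65536) (.cut .s 4702208 (.pos 29 .mp ⟨⟨276386, 0, 0, 0, 0, 1915492, 0, 0, 0, ⟨0, 0⟩, 0⟩, 0, 0⟩ 0 0) (.pos 29 .mp ⟨⟨374543, 0, 0, 0, 0, 2324340, 0, 0, 0, ⟨0, 0⟩, 0⟩, 0, 0⟩ 0 0)) (.cut .v 16842752 (.cut .l 108558 (.cut .d (-32768) (.pos 33 .mp ⟨⟨229985, 0, 0, 0, 0, 2145742, 0, 0, 0, ⟨0, 0⟩, 0⟩, 0, 0⟩ 0 0) (.cut .s 4702208 (.pos 33 .mp ⟨⟨466981, 0, 0, 0,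 0, 1365310, 0, 0, 0, ⟨0, 0⟩, 0⟩, 0, 0⟩ 0 0) (.pos 33 .mp ⟨⟨520782, 0, 0, 0, 0, 1684982, 0, 0, 0, ⟨0, 0⟩, 0⟩, 0, 0⟩ 0 0))) (.pos 33 .mp ⟨⟨564643, 0, 0, 0, 0, 1207421, 0, 0, 0, ⟨0, 0⟩, 0⟩, 0, 0⟩ 0 0)) (.pos 34 .mp ⟨⟨2684506, 0, 0, 0, 0, 0, 0, 0, 0, ⟨0, 0⟩, 0⟩, 0, 0⟩ 0 0))) (.cut .d (-65536) (.cut .s 5062656 (.pos 29 .mp ⟨⟨551179, 0, 0, 0, 0, 2731338, 0, 0, 0, ⟨0, 0⟩, 0⟩, 0, 0⟩ 0 0) (.pos 29 .mp ⟨⟨779740, 0, 0, 0, 0, 3162340, 0, 0, 0, ⟨0, 0⟩, 0⟩, 0, 0⟩ 0 0)) (.cut .v 16842752 (.cut .s 5062656 (.cut .s 4972544 (.pos 33 .mp ⟨⟨722681, 0, 0, 0, 0, 1933940, 0, 0, 0, ⟨0, 0⟩, 0⟩, 0, 0⟩ 0 0) (.pos 33 .mp ⟨⟨816501, 0, 0, 0, 0, 2112605, 0,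 0, 0, ⟨0, 0⟩, 0⟩, 0, 0⟩ 0 0)) (.cut .s 5152768 (.pos 33 .mp ⟨⟨952865, 0, 0, 0, 0, 2279501, 0, 0, 0, ⟨0, 0⟩, 0⟩, 0, 0⟩ 0 0) (.cut .s 5197824 (.pos 33 .mp ⟨⟨1269971, 0, 0, 0, 0, 2266068, 0, 0, 0, ⟨0, 0⟩, 0⟩, 0, 0⟩ 0 0) (.pos 33 .mp ⟨⟨1353875, 0, 0, 0, 0, 2352393, 0, 0, 0, ⟨0, 0⟩, 0⟩, 0, 0⟩ 0 0)))) (.pos 34 .mp ⟨⟨3802133, 0, 0, 0, 0, 0, 0, 0, 0, ⟨0, 0⟩, 0⟩, 0, 0⟩ 0 0)))) (.pos 30 .mp ⟨⟨4192959, 0, 0, 0, 0, 0, 0, 0, 0, ⟨0, 0⟩, 0⟩, 0, 0⟩ 0 0)) (.void 28 ⟨⟨100000, 0, 0, 0, 0, 0, 0, 0, 0, ⟨0, 0⟩, 0⟩, 0, 0⟩ 0 0)) (.void 26 ⟨⟨100000, 0, 0, 0, 0, 0, 0, 0, 0, ⟨0, 0⟩, 0⟩, 0, 0⟩ 0 0)) (.void 24 ⟨⟨100000, 0, 0, 0, 0, 0, 0, 0, 0, ⟨0, 0⟩, 0⟩,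 0, 0⟩ 0 0))) (.void 22 ⟨⟨100000, 0, 0, 0, 0, 0, 0, 0, 0, ⟨0, 0⟩, 0⟩, 0, 0⟩ 0 0))))) (.void 20 ⟨⟨100000, 0, 0, 0, 0, 0, 0, 0, 0, ⟨0, 0⟩, 0⟩, 0, 0⟩ 0 0)))) (.void 18 ⟨⟨0, 0, 0, 0, 0, 0, 100000, 0, 0, ⟨0, 0⟩, 0⟩, 0, 0⟩ 0 0)))) (.cut .v 16777216 (.cut .v 8388608 (.void 2 ⟨⟨0, 0, 0, 0, 100000, 0, 0, 0, 0, ⟨0, 0⟩, 0⟩, 0, 0⟩ 0 0) (.cut .d 2541025 (.cut .v 12582912 (.pos 8 .pm ⟨⟨0, 0, 0, 0, 0, 0, 0, 0, 0, ⟨0, 0⟩, 0⟩, 0, 3595111⟩ 0 0) (.cut .d 1270512 (.cut .d 635256 (.cut .v 14680064 (.pos 12 .pm ⟨⟨0, 0, 0, 0, 0, 0, 0, 0, 0, ⟨0, 0⟩, 0⟩, 0, 915921⟩ 0 0) (.cut .d 317628 (.cut .v 15728640 (.pos 14 .pm ⟨⟨0, 0, 0, 0, 0, 0, 0, 0, 0, ⟨0, 0⟩,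 0⟩, 0, 253887⟩ 0 0) (.pos 15 .pm ⟨⟨0, 0, 0, 0, 0, 0, 0, 0, 0, ⟨0, 0⟩, 0⟩, 0, 148452⟩ 0 0)) (.cut .v 15728640 (.pos 14 .pm ⟨⟨0, 0, 0, 0, 0, 0, 0, 0, 0, ⟨0, 0⟩, 0⟩, 0, 1231277⟩ 0 0) (.pos 15 .pm ⟨⟨0, 0, 0, 0, 0, 0, 0, 0, 0, ⟨0, 0⟩, 0⟩, 0, 1155301⟩ 0 0)))) (.void 9 ⟨⟨0, 0, 0, 0, 0, 0, 0, 0, 0, ⟨0, 0⟩, 0⟩, 0, 100000⟩ 0 0)) (.void 9 ⟨⟨0, 0, 0, 0, 0, 0, 0, 0, 0, ⟨0, 0⟩, 0⟩, 0, 100000⟩ 0 0))) (.void 3 ⟨⟨0, 0, 0, 0, 0, 0, 0, 0, 0, ⟨0, 0⟩, 0⟩, 0, 100000⟩ 0 0))) (.cut .v 25165824 (.cut .v 20971520 (.cut .d 2541025 (.cut .d 1270512 (.cut .v 18874368 (.cut .d 635256 (.cut .v 17825792 (.cut .d 317628 (.cut .s 4882432 (.pos 23 .pp ⟨⟨752361,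 0, 0, 0, 0, 0, 0, 0, 0, ⟨0, 0⟩, 0⟩, 0, 180438⟩ 0 0) (.pos 23 .pp ⟨⟨1423339, 0, 0, 0, 0, 0, 0, 0, 0, ⟨0, 0⟩, 0⟩, 0, 146598⟩ 0 0)) (.pos 23 .pp ⟨⟨0, 0, 0, 0, 0, 0, 0, 0, 0, ⟨0, 0⟩, 0⟩, 0, 999814⟩ 0 0)) (.void 24 ⟨⟨75849, 0, 0, 0, 0, 0, 0, 0, 0, ⟨0, 0⟩, 0⟩, 0, 24151⟩ 0 0)) (.void 21 ⟨⟨0, 0, 0, 0, 0, 0, 0, 0, 0, ⟨0, 0⟩, 0⟩, 0, 100000⟩ 0 0)) (.void 22 ⟨⟨0, 0, 0, 0, 0, 0, 0, 0, 0, ⟨0, 0⟩, 0⟩, 18476, 81524⟩ 0 0)) (.void 19 ⟨⟨0, 0, 0, 0, 0, 0, 0, 0, 0, ⟨0, 0⟩, 0⟩, 471, 99529⟩ 0 0)) (.void 19 ⟨⟨0, 0, 0, 0, 0, 0, 0, 0, 0, ⟨0, 0⟩, 0⟩, 0, 100000⟩ 0 0)) (.void 20 ⟨⟨0, 0, 0, 0, 0, 0, 0, 0, 0, ⟨0, 0⟩, 0⟩, 18476, 81524⟩ 0 0)) (.void 18 ⟨⟨0, 0,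 0, 0, 0, 0, 0, 0, 0, ⟨0, 0⟩, 0⟩, 18476, 81524⟩ 0 0)))),
    by decide +kernel⟩

def covers5 : cell.Covers Vale.Agent.P237.Petty.Cor.Grid.N17.table row5.1 :=
  ⟨(.cut .d 0 (.cut .v 16777216 (.cut .d (-8388608) (.void 1 ⟨⟨0, 0, 0, 0, 0, 100000, 0, 0, 0, ⟨0, 0⟩, 0⟩, 0, 0⟩ 0 0) (.cut .d (-4194304) (.void 1 ⟨⟨0, 0, 0, 0, 0, 100000, 0, 0, 0, ⟨0, 0⟩, 0⟩, 0, 0⟩ 0 0) (.cut .d (-2097152) (.void 1 ⟨⟨0, 0, 0, 0, 0, 100000, 0, 0, 0, ⟨0, 0⟩, 0⟩, 0, 0⟩ 0 0) (.cut .d (-1048576) (.void 1 ⟨⟨0, 0, 0, 0, 0, 100000, 0, 0, 0, ⟨0, 0⟩, 0⟩, 0, 0⟩ 0 0) (.cut .d (-524288) (.void 1 ⟨⟨0, 0, 0, 0, 0, 100000, 0, 0, 0, ⟨0, 0⟩, 0⟩, 0, 0⟩ 0 0) (.cut .d (-262144)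 (.void 1 ⟨⟨0, 0, 0, 0, 0, 100000, 0, 0, 0, ⟨0, 0⟩, 0⟩, 0, 0⟩ 0 0) (.cut .d (-131072) (.void 1 ⟨⟨0, 0, 0, 0, 0, 100000, 0, 0, 0, ⟨0, 0⟩, 0⟩, 0, 0⟩ 0 0) (.cut .v 8388608 (.cut .v 4194304 (.void 4 ⟨⟨0, 0, 48748, 0, 51252, 0, 0, 0, 0, ⟨0, 0⟩, 0⟩, 0, 0⟩ 0 0) (.void 5 ⟨⟨0, 0, 0, 0, 0, 0, 0, 0, 100000, ⟨0, 0⟩, 9975792⟩, 0, 0⟩ 0 0)) (.cut .v 12582912 (.pos 8 .mm ⟨⟨0, 0, 0, 0, 0, 1088086, 0, 0, 0, ⟨0, 0⟩, 0⟩, 0, 0⟩ 0 0) (.cut .v 14680064 (.pos 12 .mm ⟨⟨0, 0, 0, 0, 0, 2007995, 0, 0, 0, ⟨0, 0⟩, 0⟩, 0, 0⟩ 0 0) (.cut .v 15728640 (.pos 14 .mm ⟨⟨0, 0, 0, 0, 0, 2660490, 0, 0, 0, ⟨0, 0⟩, 0⟩, 0, 0⟩ 0 0) (.cut .v 16252928 (.pos 31 .mm ⟨⟨0, 0, 0,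 0, 0, 4248688, 0, 0, 0, ⟨0, 0⟩, 0⟩, 0, 0⟩ 0 0) (.cut .d (-65536) (.cut .s 5636096 (.pos 32 .mm ⟨⟨0, 0, 0, 0, 0, 5165631, 0, 0, 0, ⟨0, 0⟩, 0⟩, 0, 0⟩ 0 0) (.pos 32 .mm ⟨⟨0, 0, 0, 0, 0, 7536991, 0, 0, 0, ⟨0, 0⟩, 0⟩, 0, 0⟩ 0 0)) (.cut .v 16515072 (.pos 39 .mm ⟨⟨0, 0, 0, 0, 0, 4029397, 0, 0, 0, ⟨0, 0⟩, 0⟩, 0, 0⟩ 0 0) (.cut .s 5636096 (.cut .v 16646144 (.pos 41 .mm ⟨⟨0, 0, 0, 0, 0, 3921781, 0, 0, 0, ⟨0, 0⟩, 0⟩, 0, 0⟩ 0 0) (.cut .l 108558 (.cut .d (-32768) (.pos 42 .mm ⟨⟨0, 0, 0, 0, 0, 4975472, 0, 0, 0, ⟨0, 0⟩, 0⟩, 0, 0⟩ 0 0) (.cut .s 5439488 (.pos 42 .mm ⟨⟨0, 0, 0, 0, 0, 3762060, 0, 0, 0, ⟨0, 0⟩, 0⟩, 0, 0⟩ 0 0) (.cut .s 5537792 (.pos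 42 .mm ⟨⟨0, 0, 0, 0, 0, 4388997, 0, 0, 0, ⟨0, 0⟩, 0⟩, 0, 0⟩ 0 0) (.pos 42 .mm ⟨⟨0, 0, 0, 0, 0, 4841362, 0, 0, 0, ⟨0, 0⟩, 0⟩, 0, 0⟩ 0 0)))) (.pos 42 .mm ⟨⟨0, 0, 0, 0, 0, 3760429, 0, 0, 0, ⟨0, 0⟩, 0⟩, 0, 0⟩ 0 0))) (.cut .v 16646144 (.pos 41 .mm ⟨⟨0, 0, 0, 0, 0, 5797542, 0, 0, 0, ⟨0, 0⟩, 0⟩, 0, 0⟩ 0 0) (.cut .v 16711680 (.pos 43 .mm ⟨⟨0, 0, 0, 0, 0, 6007109, 0, 0, 0, ⟨0, 0⟩, 0⟩, 0, 0⟩ 0 0) (.cut .s 5832704 (.cut .s 5734400 (.pos 44 .mm ⟨⟨0, 0, 0, 0, 0, 5397323, 0, 0, 0, ⟨0, 0⟩, 0⟩, 0, 0⟩ 0 0) (.pos 44 .mm ⟨⟨0, 0, 0, 0, 0, 5947642, 0, 0, 0, ⟨0, 0⟩, 0⟩, 0, 0⟩ 0 0)) (.cut .s 5931008 (.pos 44 .mm ⟨⟨0, 0, 0, 0, 0, 6544264, 0, 0, 0, ⟨0,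 0⟩, 0⟩, 0, 0⟩ 0 0) (.pos 44 .mm ⟨⟨0, 0, 0, 0, 0, 7186951, 0, 0, 0, ⟨0, 0⟩, 0⟩, 0, 0⟩ 0 0)))))))))))))))))))) (.cut .d (-8388608) (.void 16 ⟨⟨0, 0, 0, 0, 0, 100000, 0, 0, 0, ⟨0, 0⟩, 0⟩, 0, 0⟩ 0 0) (.cut .v 25165824 (.cut .d (-4194304) (.void 17 ⟨⟨0, 0, 0, 0, 0, 100000, 0, 0, 0, ⟨0, 0⟩, 0⟩, 0, 0⟩ 0 0) (.cut .d (-2097152) (.void 17 ⟨⟨0, 0, 0, 0, 0, 100000, 0, 0, 0, ⟨0, 0⟩, 0⟩, 0, 0⟩ 0 0) (.cut .v 20971520 (.cut .d (-1048576) (.void 19 ⟨⟨0, 0, 0, 0, 0, 100000, 0, 0, 0, ⟨0, 0⟩, 0⟩, 0, 0⟩ 0 0) (.cut .d (-524288) (.void 19 ⟨⟨0, 0, 0, 0, 0, 100000, 0, 0, 0, ⟨0, 0⟩, 0⟩, 0, 0⟩ 0 0) (.cut .d (-262144) (.void 19 ⟨⟨0, 0, 0, 0, 0, 100000, 0,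 0, 0, ⟨0, 0⟩, 0⟩, 0, 0⟩ 0 0) (.cut .v 18874368 (.cut .d (-131072) (.void 21 ⟨⟨0, 0, 0, 0, 0, 100000, 0, 0, 0, ⟨0, 0⟩, 0⟩, 0, 0⟩ 0 0) (.cut .v 17825792 (.cut .v 17301504 (.cut .v 17039360 (.cut .v 16908288 (.cut .d (-65536) (.cut .d (-98304) (.void 29 ⟨⟨0, 0, 0, 0, 0, 100000, 0, 0, 0, ⟨0, 0⟩, 0⟩, 0, 0⟩ 0 0) (.cut .l 108558 (.void 29 ⟨⟨0, 0, 0, 0, 0, 100000, 0, 0, 0, ⟨0, 0⟩, 0⟩, 0, 0⟩ 0 0) (.cut .l 162837 (.void 29 ⟨⟨0, 0, 0, 0, 0, 100000, 0, 0, 0, ⟨0, 0⟩, 0⟩, 0, 0⟩ 0 0) (.cut .s 5636096 (.cut .s 5439488 (.pos 29 .mp ⟨⟨1063213, 0, 0, 0, 0, 3675751, 0, 0, 0, ⟨0, 0⟩, 0⟩, 0, 0⟩ 0 0) (.pos 29 .mp ⟨⟨1445762, 0, 0, 0, 0, 4363314, 0, 0,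 0, ⟨0, 0⟩, 0⟩, 0, 0⟩ 0 0)) (.cut .s 5832704 (.pos 29 .mp ⟨⟨1948850, 0, 0, 0, 0, 5055479, 0, 0, 0, ⟨0, 0⟩, 0⟩, 0, 0⟩ 0 0) (.pos 29 .mp ⟨⟨2546009, 0, 0, 0, 0, 5786250, 0, 0, 0, ⟨0, 0⟩, 0⟩, 0, 0⟩ 0 0)))))) (.cut .s 5636096 (.cut .v 16842752 (.cut .s 5439488 (.cut .s 5341184 (.cut .s 5292032 (.pos 33 .mp ⟨⟨1396445, 0, 0, 0, 0, 2484331, 0, 0, 0, ⟨0, 0⟩, 0⟩, 0, 0⟩ 0 0) (.pos 33 .mp ⟨⟨1438143, 0, 0, 0, 0, 2615343, 0, 0, 0, ⟨0, 0⟩, 0⟩, 0, 0⟩ 0 0)) (.cut .s 5390336 (.pos 33 .mp ⟨⟨1483942, 0, 0, 0, 0, 2754482, 0, 0, 0, ⟨0, 0⟩, 0⟩, 0, 0⟩ 0 0) (.pos 33 .mp ⟨⟨1535012, 0, 0, 0, 0, 2900744, 0, 0, 0, ⟨0, 0⟩, 0⟩, 0, 0⟩ 0 0))) (.cut .s 5537792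 (.cut .s 5488640 (.pos 33 .mp ⟨⟨1603793, 0, 0, 0, 0, 3044000, 0, 0, 0, ⟨0, 0⟩, 0⟩, 0, 0⟩ 0 0) (.pos 33 .mp ⟨⟨1721841, 0, 0, 0, 0, 3158376, 0, 0, 0, ⟨0, 0⟩, 0⟩, 0, 0⟩ 0 0)) (.cut .d (-32768) (.pos 33 .mp ⟨⟨1569171, 0, 0, 0, 0, 3838513, 0, 0, 0, ⟨0, 0⟩, 0⟩, 0, 0⟩ 0 0) (.cut .s 5586944 (.pos 33 .mp ⟨⟨1981953, 0, 0, 0, 0, 3111293, 0, 0, 0, ⟨0, 0⟩, 0⟩, 0, 0⟩ 0 0) (.pos 33 .mp ⟨⟨2078446, 0, 0, 0, 0, 3260897, 0, 0, 0, ⟨0, 0⟩, 0⟩, 0, 0⟩ 0 0))))) (.pos 34 .mp ⟨⟨5465556, 0, 0, 0, 0, 0, 0, 0, 0, ⟨0, 0⟩, 0⟩, 0, 0⟩ 0 0)) (.cut .s 5832704 (.cut .v 16842752 (.cut .s 5734400 (.cut .d (-32768) (.cut .s 5685248 (.pos 33 .mp ⟨⟨1814034, 0, 0, 0,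 0, 3964168, 0, 0, 0, ⟨0, 0⟩, 0⟩, 0, 0⟩ 0 0) (.pos 33 .mp ⟨⟨1945527, 0, 0, 0, 0, 4116032, 0, 0, 0, ⟨0, 0⟩, 0⟩, 0, 0⟩ 0 0)) (.cut .s 5685248 (.pos 33 .mp ⟨⟨2185032, 0, 0, 0, 0, 3413198, 0, 0, 0, ⟨0, 0⟩, 0⟩, 0, 0⟩ 0 0) (.pos 33 .mp ⟨⟨2302695, 0, 0, 0, 0, 3567268, 0, 0, 0, ⟨0, 0⟩, 0⟩, 0, 0⟩ 0 0))) (.cut .d (-32768) (.cut .s 5783552 (.pos 33 .mp ⟨⟨2083125, 0, 0, 0, 0, 4273883, 0, 0, 0, ⟨0, 0⟩, 0⟩, 0, 0⟩ 0 0) (.pos 33 .mp ⟨⟨2226879, 0, 0, 0, 0, 4437658, 0, 0, 0, ⟨0, 0⟩, 0⟩, 0, 0⟩ 0 0)) (.cut .s 5783552 (.pos 33 .mp ⟨⟨2432428, 0, 0, 0, 0, 3722153, 0, 0, 0, ⟨0, 0⟩, 0⟩, 0, 0⟩ 0 0) (.pos 33 .mp ⟨⟨2575227, 0, 0, 0, 0, 3876873, 0, 0, 0, ⟨0,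 0⟩, 0⟩, 0, 0⟩ 0 0)))) (.pos 34 .mp ⟨⟨6826726, 0, 0, 0, 0, 0, 0, 0, 0, ⟨0, 0⟩, 0⟩, 0, 0⟩ 0 0)) (.cut .v 16842752 (.cut .s 5931008 (.cut .d (-32768) (.cut .s 5881856 (.pos 33 .mp ⟨⟨2376838, 0, 0, 0, 0, 4607290, 0, 0, 0, ⟨0, 0⟩, 0⟩, 0, 0⟩ 0 0) (.pos 33 .mp ⟨⟨2533055, 0, 0, 0, 0, 4782708, 0, 0, 0, ⟨0, 0⟩, 0⟩, 0, 0⟩ 0 0)) (.cut .s 5881856 (.pos 33 .mp ⟨⟨2732098, 0, 0, 0, 0, 4030422, 0, 0, 0, ⟨0, 0⟩, 0⟩, 0, 0⟩ 0 0) (.pos 33 .mp ⟨⟨2904053, 0, 0, 0, 0, 4181767, 0, 0, 0, ⟨0, 0⟩, 0⟩, 0, 0⟩ 0 0))) (.cut .d (-32768) (.cut .s 5980160 (.pos 33 .mp ⟨⟨2695582, 0, 0, 0, 0, 4963836, 0, 0, 0, ⟨0, 0⟩, 0⟩, 0, 0⟩ 0 0) (.pos 33 .mp ⟨⟨2886634, 0, 0,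 0, 0, 5126166, 0, 0, 0, ⟨0, 0⟩, 0⟩, 0, 0⟩ 0 0)) (.cut .s 5980160 (.pos 33 .mp ⟨⟨3092110, 0, 0, 0, 0, 4329847, 0, 0, 0, ⟨0, 0⟩, 0⟩, 0, 0⟩ 0 0) (.pos 33 .mp ⟨⟨3297298, 0, 0, 0, 0, 4473572, 0, 0, 0, ⟨0, 0⟩, 0⟩, 0, 0⟩ 0 0)))) (.pos 34 .mp ⟨⟨8105860, 0, 0, 0, 0, 0, 0, 0, 0, ⟨0, 0⟩, 0⟩, 0, 0⟩ 0 0))))) (.pos 30 .mp ⟨⟨8434176, 0, 0, 0, 0, 0, 0, 0, 0, ⟨0, 0⟩, 0⟩, 0, 0⟩ 0 0)) (.void 28 ⟨⟨100000, 0, 0, 0, 0, 0, 0, 0, 0, ⟨0, 0⟩, 0⟩, 0, 0⟩ 0 0)) (.void 26 ⟨⟨100000, 0, 0, 0, 0, 0, 0, 0, 0, ⟨0, 0⟩, 0⟩, 0, 0⟩ 0 0)) (.void 24 ⟨⟨100000, 0, 0, 0, 0, 0, 0, 0, 0, ⟨0, 0⟩, 0⟩, 0, 0⟩ 0 0))) (.void 22 ⟨⟨100000, 0, 0, 0, 0, 0, 0, 0, 0, ⟨0, 0⟩, 0⟩, 0, 0⟩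 0 0))))) (.void 20 ⟨⟨100000, 0, 0, 0, 0, 0, 0, 0, 0, ⟨0, 0⟩, 0⟩, 0, 0⟩ 0 0)))) (.void 18 ⟨⟨0, 0, 0, 0, 0, 0, 100000, 0, 0, ⟨0, 0⟩, 0⟩, 0, 0⟩ 0 0)))) (.cut .v 16777216 (.cut .d 3403678 (.cut .d 1701839 (.cut .d 850919 (.cut .v 8388608 (.cut .v 4194304 (.void 4 ⟨⟨0, 0, 48713, 0, 51287, 0, 0, 0, 0, ⟨0, 0⟩, 0⟩, 0, 0⟩ 0 0) (.void 5 ⟨⟨0, 0, 0, 0, 0, 0, 0, 0, 100000, ⟨0, 0⟩, 9975792⟩, 0, 0⟩ 0 0)) (.cut .v 12582912 (.pos 8 .pm ⟨⟨0, 0, 0, 0, 0, 0, 0, 0, 0, ⟨0, 0⟩, 0⟩, 0, 994835⟩ 0 0) (.cut .v 14680064 (.pos 12 .pm ⟨⟨0, 0, 0, 0, 0, 0, 0, 0, 0, ⟨0, 0⟩, 0⟩, 0, 833461⟩ 0 0) (.cut .d 425459 (.pos 13 .pm ⟨⟨0, 0, 0, 0, 0, 0, 0, 0, 0, ⟨0, 0⟩,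 0⟩, 0, 0⟩ 0 0) (.pos 13 .pm ⟨⟨0, 0, 0, 0, 0, 0, 0, 0, 0, ⟨0, 0⟩, 0⟩, 0, 10383579⟩ 0 0))))) (.void 1 ⟨⟨0, 0, 0, 0, 0, 0, 0, 0, 0, ⟨0, 0⟩, 0⟩, 0, 100000⟩ 0 0)) (.void 1 ⟨⟨0, 0, 0, 0, 0, 0, 0, 0, 0, ⟨0, 0⟩, 0⟩, 0, 100000⟩ 0 0)) (.void 1 ⟨⟨0, 0, 0, 0, 0, 0, 0, 0, 0, ⟨0, 0⟩, 0⟩, 0, 100000⟩ 0 0)) (.cut .v 25165824 (.cut .d 3403678 (.cut .v 20971520 (.cut .d 1701839 (.cut .d 850919 (.cut .v 18874368 (.cut .d 425459 (.cut .v 17825792 (.cut .s 5636096 (.cut .s 5439488 (.pos 23 .pp ⟨⟨1939215, 0, 0, 0, 0, 0, 0, 0, 0, ⟨0, 0⟩, 0⟩, 0, 167191⟩ 0 0) (.pos 23 .pp ⟨⟨2570622, 0, 0, 0, 0, 0, 0, 0, 0, ⟨0, 0⟩, 0⟩, 0, 133581⟩ 0 0)) (.pos 23 .pp ⟨⟨3865431,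 0, 0, 0, 0, 0, 0, 0, 0, ⟨0, 0⟩, 0⟩, 0, 156609⟩ 0 0)) (.pos 24 .pp ⟨⟨5954786, 0, 0, 0, 0, 0, 0, 0, 0, ⟨0, 0⟩, 0⟩, 0, 213986⟩ 0 0)) (.pos 21 .pp ⟨⟨2080418, 0, 0, 0, 0, 0, 0, 0, 0, ⟨0, 0⟩, 0⟩, 0, 2001731⟩ 0 0)) (.void 22 ⟨⟨73073, 0, 0, 0, 0, 0, 0, 0, 0, ⟨0, 0⟩, 0⟩, 0, 26927⟩ 0 0)) (.void 19 ⟨⟨0, 0, 0, 0, 0, 0, 0, 0, 0, ⟨0, 0⟩, 0⟩, 970, 99030⟩ 0 0)) (.void 19 ⟨⟨0, 0, 0, 0, 0, 0, 0, 0, 0, ⟨0, 0⟩, 0⟩, 0, 100000⟩ 0 0)) (.void 20 ⟨⟨0, 0, 0, 0, 0, 0, 0, 0, 0, ⟨0, 0⟩, 0⟩, 17776, 82224⟩ 0 0)) (.void 17 ⟨⟨0, 0, 0, 0, 0, 0, 0, 0, 0, ⟨0, 0⟩, 0⟩, 0, 100000⟩ 0 0)) (.void 18 ⟨⟨0, 0, 0, 0, 0, 0, 0, 0, 0, ⟨0, 0⟩, 0⟩, 17776, 82224⟩ 0 0)))),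
    by decide +kernel⟩

def covers6 : cell.Covers Vale.Agent.P237.Petty.Cor.Grid.N17.table row6.1 :=
  ⟨(.cut .d 0 (.cut .v 16777216 (.cut .d (-8388608) (.void 1 ⟨⟨0, 0, 0, 0, 0, 100000, 0, 0, 0, ⟨0, 0⟩, 0⟩, 0, 0⟩ 0 0) (.cut .d (-4194304) (.void 1 ⟨⟨0, 0, 0, 0, 0, 100000, 0, 0, 0, ⟨0, 0⟩, 0⟩, 0, 0⟩ 0 0) (.cut .d (-2097152) (.void 1 ⟨⟨0, 0, 0, 0, 0, 100000, 0, 0, 0, ⟨0, 0⟩, 0⟩, 0, 0⟩ 0 0) (.cut .d (-1048576) (.void 1 ⟨⟨0, 0, 0, 0, 0, 100000, 0, 0, 0, ⟨0, 0⟩, 0⟩, 0, 0⟩ 0 0) (.cut .d (-524288) (.void 1 ⟨⟨0, 0, 0, 0, 0, 100000, 0, 0, 0, ⟨0, 0⟩, 0⟩, 0, 0⟩ 0 0) (.cut .d (-262144) (.void 1 ⟨⟨0, 0, 0, 0, 0, 100000, 0, 0, 0, ⟨0, 0⟩, 0⟩,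 0, 0⟩ 0 0) (.cut .d (-131072) (.void 1 ⟨⟨0, 0, 0, 0, 0, 100000, 0, 0, 0, ⟨0, 0⟩, 0⟩, 0, 0⟩ 0 0) (.cut .v 8388608 (.cut .v 4194304 (.void 4 ⟨⟨0, 0, 100000, 0, 0, 0, 0, 0, 0, ⟨0, 0⟩, 0⟩, 0, 0⟩ 0 0) (.pos 5 .mm ⟨⟨0, 0, 0, 0, 0, 8712525, 0, 0, 696450, ⟨0, 0⟩, 9975792⟩, 0, 0⟩ 0 0)) (.cut .v 12582912 (.pos 8 .mm ⟨⟨0, 0, 0, 0, 0, 4411211, 0, 0, 0, ⟨0, 0⟩, 0⟩, 0, 0⟩ 0 0) (.cut .d (-65536) (.pos 9 .mm ⟨⟨0, 0, 0, 0, 0, 15051098, 0, 0, 0, ⟨0, 0⟩, 0⟩, 0, 0⟩ 0 0) (.cut .v 14680064 (.pos 12 .mm ⟨⟨0, 0, 0, 0, 0, 5324395, 0, 0, 0, ⟨0, 0⟩, 0⟩, 0, 0⟩ 0 0) (.cut .v 15728640 (.pos 14 .mm ⟨⟨0, 0, 0, 0, 0, 6088577, 0, 0, 0, ⟨0, 0⟩, 0⟩, 0, 0⟩ 0 0) (.cut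 .v 16252928 (.pos 31 .mm ⟨⟨0, 0, 0, 0, 0, 6516086, 0, 0, 0, ⟨0, 0⟩, 0⟩, 0, 0⟩ 0 0) (.cut .v 16515072 (.pos 39 .mm ⟨⟨0, 0, 0, 0, 0, 8994069, 0, 0, 0, ⟨0, 0⟩, 0⟩, 0, 0⟩ 0 0) (.cut .s 6422528 (.cut .v 16646144 (.pos 41 .mm ⟨⟨0, 0, 0, 0, 0, 8533052, 0, 0, 0, ⟨0, 0⟩, 0⟩, 0, 0⟩ 0 0) (.cut .v 16711680 (.pos 43 .mm ⟨⟨0, 0, 0, 0, 0, 8813473, 0, 0, 0, ⟨0, 0⟩, 0⟩, 0, 0⟩ 0 0) (.cut .s 6225920 (.cut .s 6127616 (.pos 44 .mm ⟨⟨0, 0, 0, 0, 0, 7885673, 0, 0, 0, ⟨0, 0⟩, 0⟩, 0, 0⟩ 0 0) (.pos 44 .mm ⟨⟨0, 0, 0, 0, 0, 8590748, 0, 0, 0, ⟨0, 0⟩, 0⟩, 0, 0⟩ 0 0)) (.cut .s 6324224 (.pos 44 .mm ⟨⟨0, 0, 0, 0, 0, 9374391, 0, 0, 0, ⟨0, 0⟩, 0⟩, 0, 0⟩ 0 0) (.pos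 44 .mm ⟨⟨0, 0, 0, 0, 0, 10236233, 0, 0, 0, ⟨0, 0⟩, 0⟩, 0, 0⟩ 0 0))))) (.cut .v 16646144 (.pos 41 .mm ⟨⟨0, 0, 0, 0, 0, 12141101, 0, 0, 0, ⟨0, 0⟩, 0⟩, 0, 0⟩ 0 0) (.cut .v 16711680 (.pos 43 .mm ⟨⟨0, 0, 0, 0, 0, 12505182, 0, 0, 0, ⟨0, 0⟩, 0⟩, 0, 0⟩ 0 0) (.cut .s 6619136 (.cut .s 6520832 (.pos 44 .mm ⟨⟨0, 0, 0, 0, 0, 11175857, 0, 0, 0, ⟨0, 0⟩, 0⟩, 0, 0⟩ 0 0) (.pos 44 .mm ⟨⟨0, 0, 0, 0, 0, 12192800, 0, 0, 0, ⟨0, 0⟩, 0⟩, 0, 0⟩ 0 0)) (.cut .s 6717440 (.pos 44 .mm ⟨⟨0, 0, 0, 0, 0, 13286555, 0, 0, 0, ⟨0, 0⟩, 0⟩, 0, 0⟩ 0 0) (.pos 44 .mm ⟨⟨0, 0, 0, 0, 0, 14461294, 0, 0, 0, ⟨0, 0⟩, 0⟩, 0, 0⟩ 0 0)))))))))))))))))))) (.cut .d (-8388608) (.void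 16 ⟨⟨0, 0, 0, 0, 0, 100000, 0, 0, 0, ⟨0, 0⟩, 0⟩, 0, 0⟩ 0 0) (.cut .v 25165824 (.cut .d (-4194304) (.void 17 ⟨⟨0, 0, 0, 0, 0, 100000, 0, 0, 0, ⟨0, 0⟩, 0⟩, 0, 0⟩ 0 0) (.cut .d (-2097152) (.void 17 ⟨⟨0, 0, 0, 0, 0, 100000, 0, 0, 0, ⟨0, 0⟩, 0⟩, 0, 0⟩ 0 0) (.cut .v 20971520 (.cut .d (-1048576) (.void 19 ⟨⟨0, 0, 0, 0, 0, 100000, 0, 0, 0, ⟨0, 0⟩, 0⟩, 0, 0⟩ 0 0) (.cut .d (-524288) (.void 19 ⟨⟨0, 0, 0, 0, 0, 100000, 0, 0, 0, ⟨0, 0⟩, 0⟩, 0, 0⟩ 0 0) (.cut .d (-262144) (.void 19 ⟨⟨0, 0, 0, 0, 0, 100000, 0, 0, 0, ⟨0, 0⟩, 0⟩, 0, 0⟩ 0 0) (.cut .v 18874368 (.cut .d (-131072) (.void 21 ⟨⟨0, 0, 0, 0, 0, 100000, 0, 0, 0, ⟨0, 0⟩, 0⟩, 0, 0⟩ 0 0) (.cut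 .v 17825792 (.cut .v 17301504 (.cut .v 17039360 (.cut .d (-65536) (.pos 27 .mp ⟨⟨3265948, 0, 0, 0, 0, 26787870, 0, 0, 0, ⟨0, 0⟩, 0⟩, 0, 0⟩ 0 0) (.cut .v 16908288 (.cut .s 6422528 (.cut .s 6225920 (.cut .v 16842752 (.cut .s 6127616 (.cut .d (-32768) (.pos 33 .mp ⟨⟨3040716, 0, 0, 0, 0, 5591715, 0, 0, 0, ⟨0, 0⟩, 0⟩, 0, 0⟩ 0 0) (.cut .s 6078464 (.pos 33 .mp ⟨⟨3493046, 0, 0, 0, 0, 4638909, 0, 0, 0, ⟨0, 0⟩, 0⟩, 0, 0⟩ 0 0) (.pos 33 .mp ⟨⟨3612265, 0, 0, 0, 0, 4846695, 0, 0, 0, ⟨0, 0⟩, 0⟩, 0, 0⟩ 0 0))) (.cut .d (-32768) (.cut .s 6176768 (.pos 33 .mp ⟨⟨3416065, 0, 0, 0, 0, 5683104, 0, 0, 0, ⟨0, 0⟩, 0⟩, 0, 0⟩ 0 0) (.pos 33 .mp ⟨⟨3616929,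 0, 0, 0, 0, 5868317, 0, 0, 0, ⟨0, 0⟩, 0⟩, 0, 0⟩ 0 0)) (.cut .s 6176768 (.pos 33 .mp ⟨⟨3740968, 0, 0, 0, 0, 5064857, 0, 0, 0, ⟨0, 0⟩, 0⟩, 0, 0⟩ 0 0) (.cut .s 6201344 (.pos 33 .mp ⟨⟨4128110, 0, 0, 0, 0, 5004536, 0, 0, 0, ⟨0, 0⟩, 0⟩, 0, 0⟩ 0 0) (.pos 33 .mp ⟨⟨4208311, 0, 0, 0, 0, 5113367, 0, 0, 0, ⟨0, 0⟩, 0⟩, 0, 0⟩ 0 0))))) (.pos 34 .mp ⟨⟨9979607, 0, 0, 0, 0, 0, 0, 0, 0, ⟨0, 0⟩, 0⟩, 0, 0⟩ 0 0)) (.cut .v 16842752 (.cut .s 6324224 (.cut .d (-32768) (.cut .s 6275072 (.pos 33 .mp ⟨⟨3826689, 0, 0, 0, 0, 6063887, 0, 0, 0, ⟨0, 0⟩, 0⟩, 0, 0⟩ 0 0) (.pos 33 .mp ⟨⟨4045424, 0, 0, 0, 0, 6269714, 0, 0, 0, ⟨0, 0⟩, 0⟩, 0, 0⟩ 0 0)) (.cut .v 16809984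 (.cut .l 108558 (.cut .d (-16384) (.pos 45 .mp ⟨⟨3814700, 0, 0, 0, 0, 6295466, 0, 0, 0, ⟨0, 0⟩, 0⟩, 0, 0⟩ 0 0) (.cut .s 6275072 (.pos 45 .mp ⟨⟨4190643, 0, 0, 0, 0, 5348215, 0, 0, 0, ⟨0, 0⟩, 0⟩, 0, 0⟩ 0 0) (.pos 45 .mp ⟨⟨4355977, 0, 0, 0, 0, 5588352, 0, 0, 0, ⟨0, 0⟩, 0⟩, 0, 0⟩ 0 0))) (.pos 45 .mp ⟨⟨4257931, 0, 0, 0, 0, 4999989, 0, 0, 0, ⟨0, 0⟩, 0⟩, 0, 0⟩ 0 0)) (.pos 46 .mp ⟨⟨9907327, 0, 0, 0, 0, 0, 0, 0, 0, ⟨0, 0⟩, 0⟩, 0, 0⟩ 0 0))) (.cut .d (-32768) (.cut .s 6373376 (.pos 33 .mp ⟨⟨4273218, 0, 0, 0, 0, 6485695, 0, 0, 0, ⟨0, 0⟩, 0⟩, 0, 0⟩ 0 0) (.pos 33 .mp ⟨⟨4510152, 0, 0, 0, 0, 6711717, 0, 0, 0, ⟨0, 0⟩, 0⟩, 0, 0⟩ 0 0)) (.cut .l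 108558 (.cut .v 16809984 (.cut .s 6373376 (.cut .s 6348800 (.pos 45 .mp ⟨⟨4713616, 0, 0, 0, 0, 5620194, 0, 0, 0, ⟨0, 0⟩, 0⟩, 0, 0⟩ 0 0) (.pos 45 .mp ⟨⟨4811360, 0, 0, 0, 0, 5741748, 0, 0, 0, ⟨0, 0⟩, 0⟩, 0, 0⟩ 0 0)) (.cut .s 6397952 (.pos 45 .mp ⟨⟨4913827, 0, 0, 0, 0, 5863525, 0, 0, 0, ⟨0, 0⟩, 0⟩, 0, 0⟩ 0 0) (.pos 45 .mp ⟨⟨5021262, 0, 0, 0, 0, 5985268, 0, 0, 0, ⟨0, 0⟩, 0⟩, 0, 0⟩ 0 0))) (.pos 46 .mp ⟨⟨12036795, 0, 0, 0, 0, 0, 0, 0, 0, ⟨0, 0⟩, 0⟩, 0, 0⟩ 0 0)) (.pos 33 .mp ⟨⟨4812422, 0, 0, 0, 0, 5319885, 0, 0, 0, ⟨0, 0⟩, 0⟩, 0, 0⟩ 0 0)))) (.pos 34 .mp ⟨⟨11590921, 0, 0, 0, 0, 0, 0, 0, 0, ⟨0, 0⟩, 0⟩, 0, 0⟩ 0 0))) (.cut .s 6619136 (.cut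 .v 16842752 (.cut .s 6520832 (.cut .d (-32768) (.cut .s 6471680 (.pos 33 .mp ⟨⟨4756313, 0, 0, 0, 0, 6947665, 0, 0, 0, ⟨0, 0⟩, 0⟩, 0, 0⟩ 0 0) (.pos 33 .mp ⟨⟨5011787, 0, 0, 0, 0, 7193412, 0, 0, 0, ⟨0, 0⟩, 0⟩, 0, 0⟩ 0 0)) (.cut .l 108558 (.cut .v 16809984 (.cut .s 6471680 (.cut .s 6447104 (.pos 45 .mp ⟨⟨5133907, 0, 0, 0, 0, 6106718, 0, 0, 0, ⟨0, 0⟩, 0⟩, 0, 0⟩ 0 0) (.pos 45 .mp ⟨⟨5252007, 0, 0, 0, 0, 6227611, 0, 0, 0, ⟨0, 0⟩, 0⟩, 0, 0⟩ 0 0)) (.cut .s 6496256 (.pos 45 .mp ⟨⟨5375805, 0, 0, 0, 0, 6347683, 0, 0, 0, ⟨0, 0⟩, 0⟩, 0, 0⟩ 0 0) (.pos 45 .mp ⟨⟨5505546, 0, 0, 0, 0, 6466664, 0, 0, 0, ⟨0, 0⟩, 0⟩, 0, 0⟩ 0 0))) (.pos 46 .mp ⟨⟨12983515,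 0, 0, 0, 0, 0, 0, 0, 0, ⟨0, 0⟩, 0⟩, 0, 0⟩ 0 0)) (.pos 33 .mp ⟨⟨5346330, 0, 0, 0, 0, 5710485, 0, 0, 0, ⟨0, 0⟩, 0⟩, 0, 0⟩ 0 0))) (.cut .d (-32768) (.cut .s 6569984 (.pos 33 .mp ⟨⟨5276666, 0, 0, 0, 0, 7448826, 0, 0, 0, ⟨0, 0⟩, 0⟩, 0, 0⟩ 0 0) (.pos 33 .mp ⟨⟨5551040, 0, 0, 0, 0, 7713770, 0, 0, 0, ⟨0, 0⟩, 0⟩, 0, 0⟩ 0 0)) (.cut .l 108558 (.cut .v 16809984 (.cut .s 6569984 (.cut .s 6545408 (.pos 45 .mp ⟨⟨5641475, 0, 0, 0, 0, 6584283, 0, 0, 0, ⟨0, 0⟩, 0⟩, 0, 0⟩ 0 0) (.pos 45 .mp ⟨⟨5783838, 0, 0, 0, 0, 6700266, 0, 0, 0, ⟨0, 0⟩, 0⟩, 0, 0⟩ 0 0)) (.cut .s 6594560 (.pos 45 .mp ⟨⟨5932880, 0, 0, 0, 0, 6814337, 0, 0, 0, ⟨0, 0⟩, 0⟩, 0, 0⟩ 0 0)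 (.pos 45 .mp ⟨⟨6088848, 0, 0, 0, 0, 6926216, 0, 0, 0, ⟨0, 0⟩, 0⟩, 0, 0⟩ 0 0))) (.pos 46 .mp ⟨⟨13982246, 0, 0, 0, 0, 0, 0, 0, 0, ⟨0, 0⟩, 0⟩, 0, 0⟩ 0 0)) (.pos 33 .mp ⟨⟨5915106, 0, 0, 0, 0, 6126374, 0, 0, 0, ⟨0, 0⟩, 0⟩, 0, 0⟩ 0 0)))) (.pos 34 .mp ⟨⟨13447995, 0, 0, 0, 0, 0, 0, 0, 0, ⟨0, 0⟩, 0⟩, 0, 0⟩ 0 0)) (.cut .v 16842752 (.cut .s 6717440 (.cut .d (-32768) (.cut .s 6668288 (.pos 33 .mp ⟨⟨5835004, 0, 0, 0, 0, 7988097, 0, 0, 0, ⟨0, 0⟩, 0⟩, 0, 0⟩ 0 0) (.pos 33 .mp ⟨⟨6128653, 0, 0, 0, 0, 8271654, 0, 0, 0, ⟨0, 0⟩, 0⟩, 0, 0⟩ 0 0)) (.cut .l 108558 (.cut .v 16809984 (.cut .s 6668288 (.cut .s 6643712 (.pos 45 .mp ⟨⟨6251989, 0, 0, 0, 0,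 7035618, 0, 0, 0, ⟨0, 0⟩, 0⟩, 0, 0⟩ 0 0) (.pos 45 .mp ⟨⟨6422550, 0, 0, 0, 0, 7142260, 0, 0, 0, ⟨0, 0⟩, 0⟩, 0, 0⟩ 0 0)) (.cut .s 6692864 (.pos 45 .mp ⟨⟨6600779, 0, 0, 0, 0, 7245850, 0, 0, 0, ⟨0, 0⟩, 0⟩, 0, 0⟩ 0 0) (.pos 45 .mp ⟨⟨6786924, 0, 0, 0, 0, 7346098, 0, 0, 0, ⟨0, 0⟩, 0⟩, 0, 0⟩ 0 0))) (.pos 46 .mp ⟨⟨15027253, 0, 0, 0, 0, 0, 0, 0, 0, ⟨0, 0⟩, 0⟩, 0, 0⟩ 0 0)) (.pos 33 .mp ⟨⟨6519610, 0, 0, 0, 0, 6562760, 0, 0, 0, ⟨0, 0⟩, 0⟩, 0, 0⟩ 0 0))) (.cut .d (-32768) (.cut .s 6766592 (.pos 33 .mp ⟨⟨6432085, 0, 0, 0, 0, 8564279, 0, 0, 0, ⟨0, 0⟩, 0⟩, 0, 0⟩ 0 0) (.pos 33 .mp ⟨⟨6745402, 0, 0, 0, 0, 8871594, 0, 0, 0, ⟨0, 0⟩, 0⟩, 0, 0⟩ 0 0))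 (.cut .l 108558 (.cut .v 16809984 (.cut .d (-16384) (.pos 45 .mp ⟨⟨6421571, 0, 0, 0, 0, 8951259, 0, 0, 0, ⟨0, 0⟩, 0⟩, 0, 0⟩ 0 0) (.cut .s 6766592 (.cut .s 6742016 (.pos 45 .mp ⟨⟨7102671, 0, 0, 0, 0, 7299384, 0, 0, 0, ⟨0, 0⟩, 0⟩, 0, 0⟩ 0 0) (.pos 45 .mp ⟨⟨7299732, 0, 0, 0, 0, 7398406, 0, 0, 0, ⟨0, 0⟩, 0⟩, 0, 0⟩ 0 0)) (.pos 45 .mp ⟨⟨7162247, 0, 0, 0, 0, 7927529, 0, 0, 0, ⟨0, 0⟩, 0⟩, 0, 0⟩ 0 0))) (.pos 46 .mp ⟨⟨16113326, 0, 0, 0, 0, 0, 0, 0, 0, ⟨0, 0⟩, 0⟩, 0, 0⟩ 0 0)) (.pos 33 .mp ⟨⟨7160721, 0, 0, 0, 0, 7014966, 0, 0, 0, ⟨0, 0⟩, 0⟩, 0, 0⟩ 0 0)))) (.pos 34 .mp ⟨⟨15501094, 0, 0, 0, 0, 0, 0, 0, 0, ⟨0, 0⟩, 0⟩, 0, 0⟩ 0 0)))) (.pos 30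 .mp ⟨⟨14045151, 0, 0, 0, 0, 0, 0, 0, 0, ⟨0, 0⟩, 0⟩, 0, 0⟩ 0 0))) (.void 28 ⟨⟨100000, 0, 0, 0, 0, 0, 0, 0, 0, ⟨0, 0⟩, 0⟩, 0, 0⟩ 0 0)) (.void 26 ⟨⟨100000, 0, 0, 0, 0, 0, 0, 0, 0, ⟨0, 0⟩, 0⟩, 0, 0⟩ 0 0)) (.void 24 ⟨⟨100000, 0, 0, 0, 0, 0, 0, 0, 0, ⟨0, 0⟩, 0⟩, 0, 0⟩ 0 0))) (.void 22 ⟨⟨100000, 0, 0, 0, 0, 0, 0, 0, 0, ⟨0, 0⟩, 0⟩, 0, 0⟩ 0 0))))) (.void 20 ⟨⟨100000, 0, 0, 0, 0, 0, 0, 0, 0, ⟨0, 0⟩, 0⟩, 0, 0⟩ 0 0)))) (.void 18 ⟨⟨100000, 0, 0, 0, 0, 0, 0, 0, 0, ⟨0, 0⟩, 0⟩, 0, 0⟩ 0 0)))) (.cut .v 16777216 (.cut .d 4478898 (.cut .d 2239449 (.cut .d 1119724 (.cut .v 8388608 (.cut .v 4194304 (.void 4 ⟨⟨0, 0, 92347, 0, 7653, 0, 0, 0, 0, ⟨0, 0⟩,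 0⟩, 0, 0⟩ 0 0) (.pos 5 .pm ⟨⟨0, 0, 0, 0, 0, 0, 0, 0, 565205, ⟨0, 0⟩, 9975792⟩, 0, 0⟩ 0 0)) (.cut .v 12582912 (.pos 8 .pm ⟨⟨0, 0, 0, 0, 0, 0, 0, 0, 0, ⟨0, 0⟩, 0⟩, 0, 233172⟩ 0 0) (.pos 9 .pm ⟨⟨0, 0, 0, 0, 0, 0, 0, 0, 0, ⟨0, 0⟩, 0⟩, 0, 186606⟩ 0 0))) (.void 1 ⟨⟨0, 0, 0, 0, 0, 0, 0, 0, 0, ⟨0, 0⟩, 0⟩, 0, 100000⟩ 0 0)) (.void 1 ⟨⟨0, 0, 0, 0, 0, 0, 0, 0, 0, ⟨0, 0⟩, 0⟩, 0, 100000⟩ 0 0)) (.void 1 ⟨⟨0, 0, 0, 0, 0, 0, 0, 0, 0, ⟨0, 0⟩, 0⟩, 0, 100000⟩ 0 0)) (.cut .v 25165824 (.cut .d 4478898 (.cut .v 20971520 (.cut .d 2239449 (.cut .d 1119724 (.cut .v 18874368 (.cut .d 559862 (.cut .v 17825792 (.cut .d 279931 (.cut .s 6422528 (.pos 23 .pp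 ⟨⟨6176422, 0, 0, 0, 0, 0, 0, 0, 0, ⟨0, 0⟩, 0⟩, 13737, 0⟩ 0 0) (.pos 23 .pp ⟨⟨7614410, 0, 0, 0, 0, 0, 0, 0, 0, ⟨0, 0⟩, 0⟩, 166345, 0⟩ 0 0)) (.pos 23 .pp ⟨⟨2987850, 0, 0, 0, 0, 0, 0, 0, 0, ⟨0, 0⟩, 0⟩, 0, 375681⟩ 0 0)) (.pos 24 .pp ⟨⟨10293939, 0, 0, 0, 0, 0, 0, 0, 0, ⟨0, 0⟩, 0⟩, 0, 284676⟩ 0 0)) (.pos 21 .pp ⟨⟨4028448, 0, 0, 0, 0, 0, 0, 0, 0, ⟨0, 0⟩, 0⟩, 0, 2722146⟩ 0 0)) (.cut .d 559862 (.pos 22 .pp ⟨⟨25761954, 0, 0, 0, 0, 0, 0, 0, 0, ⟨0, 0⟩, 0⟩, 0, 0⟩ 0 0) (.pos 22 .pp ⟨⟨15995500, 0, 0, 0, 0, 0, 0, 0, 0, ⟨0, 0⟩, 0⟩, 0, 5902639⟩ 0 0))) (.void 19 ⟨⟨0, 0, 0, 0, 0, 0, 0, 0, 0, ⟨0, 0⟩, 0⟩, 0, 100000⟩ 0 0)) (.void 19 ⟨⟨0, 0, 0, 0, 0,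 0, 0, 0, 0, ⟨0, 0⟩, 0⟩, 0, 100000⟩ 0 0)) (.void 20 ⟨⟨0, 0, 0, 0, 0, 0, 0, 0, 0, ⟨0, 0⟩, 0⟩, 16987, 83013⟩ 0 0)) (.void 17 ⟨⟨0, 0, 0, 0, 0, 0, 0, 0, 0, ⟨0, 0⟩, 0⟩, 0, 100000⟩ 0 0)) (.void 18 ⟨⟨0, 0, 0, 0, 0, 0, 0, 0, 0, ⟨0, 0⟩, 0⟩, 16987, 83013⟩ 0 0)))),
    by decide +kernel⟩

def covers7 : cell.Covers Vale.Agent.P237.Petty.Cor.Grid.N17.table row7.1 :=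
  ⟨(.cut .d 0 (.cut .v 16777216 (.cut .d (-8388608) (.void 1 ⟨⟨0, 0, 0, 0, 0, 100000, 0, 0, 0, ⟨0, 0⟩, 0⟩, 0, 0⟩ 0 0) (.cut .d (-4194304) (.void 1 ⟨⟨0, 0, 0, 0, 0, 100000, 0, 0, 0, ⟨0, 0⟩, 0⟩, 0, 0⟩ 0 0) (.cut .d (-2097152) (.void 1 ⟨⟨0, 0, 0, 0, 0, 100000, 0, 0, 0, ⟨0, 0⟩, 0⟩, 0, 0⟩ 0 0) (.cut .d (-1048576) (.void 1 ⟨⟨0, 0, 0, 0, 0, 100000, 0, 0, 0, ⟨0, 0⟩, 0⟩, 0, 0⟩ 0 0) (.cut .d (-524288) (.void 1 ⟨⟨0, 0, 0, 0, 0, 100000, 0, 0, 0, ⟨0, 0⟩, 0⟩, 0, 0⟩ 0 0) (.cut .d (-262144) (.void 1 ⟨⟨0, 0, 0, 0, 0, 100000, 0, 0, 0, ⟨0, 0⟩, 0⟩, 0, 0⟩ 0 0) (.cut .d (-131072) (.void 1 ⟨⟨0, 0, 0, 0, 0, 100000, 0, 0, 0, ⟨0, 0⟩, 0⟩, 0, 0⟩ 0 0) (.cut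 .d (-65536) (.void 1 ⟨⟨0, 0, 0, 0, 0, 100000, 0, 0, 0, ⟨0, 0⟩, 0⟩, 0, 0⟩ 0 0) (.cut .v 8388608 (.cut .v 4194304 (.void 4 ⟨⟨0, 0, 100000, 0, 0, 0, 0, 0, 0, ⟨0, 0⟩, 0⟩, 0, 0⟩ 0 0) (.pos 5 .mm ⟨⟨0, 0, 0, 0, 0, 7710567, 0, 0, 0, ⟨0, 0⟩, 0⟩, 0, 0⟩ 0 0)) (.cut .v 12582912 (.pos 8 .mm ⟨⟨0, 0, 0, 0, 0, 10014092, 0, 0, 0, ⟨0, 0⟩, 0⟩, 0, 0⟩ 0 0) (.cut .v 14680064 (.pos 12 .mm ⟨⟨0, 0, 0, 0, 0, 11815465, 0, 0, 0, ⟨0, 0⟩, 0⟩, 0, 0⟩ 0 0) (.cut .v 15728640 (.pos 14 .mm ⟨⟨0, 0, 0, 0, 0, 12878554, 0, 0, 0, ⟨0, 0⟩, 0⟩, 0, 0⟩ 0 0) (.cut .v 16252928 (.pos 31 .mm ⟨⟨0, 0, 0, 0, 0, 14330842, 0, 0, 0, ⟨0, 0⟩, 0⟩, 0, 0⟩ 0 0) (.cut .v 16515072 (.pos 39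 .mm ⟨⟨0, 0, 0, 0, 0, 18153820, 0, 0, 0, ⟨0, 0⟩, 0⟩, 0, 0⟩ 0 0) (.cut .v 16646144 (.pos 41 .mm ⟨⟨0, 0, 0, 0, 0, 19814629, 0, 0, 0, ⟨0, 0⟩, 0⟩, 0, 0⟩ 0 0) (.cut .s 7176192 (.cut .s 6995968 (.pos 42 .mm ⟨⟨0, 0, 0, 0, 0, 16323091, 0, 0, 0, ⟨0, 0⟩, 0⟩, 0, 0⟩ 0 0) (.cut .s 7086080 (.pos 42 .mm ⟨⟨0, 0, 0, 0, 0, 18111083, 0, 0, 0, ⟨0, 0⟩, 0⟩, 0, 0⟩ 0 0) (.pos 42 .mm ⟨⟨0, 0, 0, 0, 0, 19474256, 0, 0, 0, ⟨0, 0⟩, 0⟩, 0, 0⟩ 0 0))) (.cut .d (-32768) (.pos 42 .mm ⟨⟨0, 0, 0, 0, 0, 26066335, 0, 0, 0, ⟨0, 0⟩, 0⟩, 0, 0⟩ 0 0) (.cut .s 7356416 (.cut .s 7266304 (.pos 42 .mm ⟨⟨0, 0, 0, 0, 0, 21212253, 0, 0, 0, ⟨0, 0⟩, 0⟩, 0, 0⟩ 0 0) (.pos 42 .mm ⟨⟨0,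 0, 0, 0, 0, 22818387, 0, 0, 0, ⟨0, 0⟩, 0⟩, 0, 0⟩ 0 0)) (.pos 42 .mm ⟨⟨0, 0, 0, 0, 0, 25046652, 0, 0, 0, ⟨0, 0⟩, 0⟩, 0, 0⟩ 0 0))))))))))))))))))) (.cut .v 25165824 (.cut .d (-8388608) (.void 17 ⟨⟨0, 0, 0, 0, 0, 100000, 0, 0, 0, ⟨0, 0⟩, 0⟩, 0, 0⟩ 0 0) (.cut .d (-4194304) (.void 17 ⟨⟨0, 0, 0, 0, 0, 100000, 0, 0, 0, ⟨0, 0⟩, 0⟩, 0, 0⟩ 0 0) (.cut .d (-2097152) (.void 17 ⟨⟨0, 0, 0, 0, 0, 100000, 0, 0, 0, ⟨0, 0⟩, 0⟩, 0, 0⟩ 0 0) (.cut .v 20971520 (.cut .d (-1048576) (.void 19 ⟨⟨0, 0, 0, 0, 0, 100000, 0, 0, 0, ⟨0, 0⟩, 0⟩, 0, 0⟩ 0 0) (.cut .d (-524288) (.void 19 ⟨⟨0, 0, 0, 0, 0, 100000, 0, 0, 0, ⟨0, 0⟩, 0⟩, 0, 0⟩ 0 0) (.cut .v 18874368 (.cut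 .d (-262144) (.void 21 ⟨⟨0, 0, 0, 0, 0, 100000, 0, 0, 0, ⟨0, 0⟩, 0⟩, 0, 0⟩ 0 0) (.cut .d (-131072) (.void 21 ⟨⟨0, 0, 0, 0, 0, 100000, 0, 0, 0, ⟨0, 0⟩, 0⟩, 0, 0⟩ 0 0) (.cut .d (-65536) (.void 21 ⟨⟨0, 0, 0, 0, 0, 100000, 0, 0, 0, ⟨0, 0⟩, 0⟩, 0, 0⟩ 0 0) (.cut .v 17825792 (.cut .v 17301504 (.cut .v 17039360 (.cut .v 16908288 (.cut .s 7176192 (.cut .s 6995968 (.cut .v 16842752 (.cut .d (-32768) (.cut .s 6905856 (.pos 33 .mp ⟨⟨7068153, 0, 0, 0, 0, 9603985, 0, 0, 0, ⟨0, 0⟩, 0⟩, 0, 0⟩ 0 0) (.cut .s 6950912 (.pos 33 .mp ⟨⟨7694598, 0, 0, 0, 0, 9621864, 0, 0, 0, ⟨0, 0⟩, 0⟩, 0, 0⟩ 0 0) (.pos 33 .mp ⟨⟨8024044, 0, 0, 0, 0, 9882799, 0, 0, 0,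 ⟨0, 0⟩, 0⟩, 0, 0⟩ 0 0))) (.cut .s 6905856 (.cut .v 16809984 (.cut .l 108558 (.cut .d (-16384) (.pos 45 .mp ⟨⟨7058069, 0, 0, 0, 0, 9574869, 0, 0, 0, ⟨0, 0⟩, 0⟩, 0, 0⟩ 0 0) (.cut .s 6860800 (.pos 45 .mp ⟨⟨7589324, 0, 0, 0, 0, 8106743, 0, 0, 0, ⟨0, 0⟩, 0⟩, 0, 0⟩ 0 0) (.pos 45 .mp ⟨⟨7793607, 0, 0, 0, 0, 8421554, 0, 0, 0, ⟨0, 0⟩, 0⟩, 0, 0⟩ 0 0))) (.pos 45 .mp ⟨⟨6984569, 0, 0, 0, 0, 8553380, 0, 0, 0, ⟨0, 0⟩, 0⟩, 0, 0⟩ 0 0)) (.pos 46 .mp ⟨⟨11846739, 0, 0, 0, 0, 4270956, 0, 0, 0, ⟨0, 0⟩, 0⟩, 0, 0⟩ 0 0)) (.cut .l 108558 (.cut .v 16809984 (.cut .d (-16384) (.pos 45 .mp ⟨⟨7683613, 0, 0, 0, 0, 10063779, 0, 0, 0, ⟨0, 0⟩, 0⟩, 0, 0⟩ 0 0) (.cut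 .v 16793600 (.cut .l 54279 (.cut .d (-8192) (.pos 49 .mp ⟨⟨7678717, 0, 0, 0, 0, 10049289, 0, 0, 0, ⟨0, 0⟩, 0⟩, 0, 0⟩ 0 0) (.cut .s 6950912 (.pos 49 .mp ⟨⟨8072042, 0, 0, 0, 0, 8667576, 0, 0, 0, ⟨0, 0⟩, 0⟩, 0, 0⟩ 0 0) (.cut .s 6973440 (.pos 49 .mp ⟨⟨8664853, 0, 0, 0, 0, 8547204, 0, 0, 0, ⟨0, 0⟩, 0⟩, 0, 0⟩ 0 0) (.pos 49 .mp ⟨⟨8801343, 0, 0, 0, 0, 8699217, 0, 0, 0, ⟨0, 0⟩, 0⟩, 0, 0⟩ 0 0)))) (.pos 49 .mp ⟨⟨7639938, 0, 0, 0, 0, 8925943, 0, 0, 0, ⟨0, 0⟩, 0⟩, 0, 0⟩ 0 0)) (.pos 50 .mp ⟨⟨12854292, 0, 0, 0, 0, 4264091, 0, 0, 0, ⟨0, 0⟩, 0⟩, 0, 0⟩ 0 0))) (.pos 46 .mp ⟨⟨18578967, 0, 0, 0, 0, 0, 0, 0, 0, ⟨0, 0⟩, 0⟩, 0, 0⟩ 0 0)) (.pos 33 .mp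 ⟨⟨8481525, 0, 0, 0, 0, 8149835, 0, 0, 0, ⟨0, 0⟩, 0⟩, 0, 0⟩ 0 0)))) (.pos 34 .mp ⟨⟨18176182, 0, 0, 0, 0, 0, 0, 0, 0, ⟨0, 0⟩, 0⟩, 0, 0⟩ 0 0)) (.cut .v 16842752 (.cut .d (-32768) (.cut .d (-49152) (.void 33 ⟨⟨0, 0, 0, 0, 0, 100000, 0, 0, 0, ⟨0, 0⟩, 0⟩, 0, 0⟩ 0 0) (.cut .l 108558 (.void 33 ⟨⟨0, 0, 0, 0, 0, 100000, 0, 0, 0, ⟨0, 0⟩, 0⟩, 0, 0⟩ 0 0) (.cut .v 16809984 (.pos 45 .mp ⟨⟨0, 0, 0, 0, 0, 19884215, 0, 0, 0, ⟨0, 0⟩, 0⟩, 0, 0⟩ 0 0) (.cut .l 162837 (.pos 46 .mp ⟨⟨9143367, 0, 0, 0, 0, 11318604, 0, 0, 0, ⟨0, 0⟩, 0⟩, 0, 0⟩ 0 0) (.cut .s 7086080 (.pos 46 .mp ⟨⟨9278975, 0, 0, 0, 0, 9229596, 0, 0, 0, ⟨0, 0⟩, 0⟩, 0, 0⟩ 0 0) (.cut .s 7131136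 (.pos 46 .mp ⟨⟨9659653, 0, 0, 0, 0, 9825694, 0, 0, 0, ⟨0, 0⟩, 0⟩, 0, 0⟩ 0 0) (.pos 46 .mp ⟨⟨10052005, 0, 0, 0, 0, 10111893, 0, 0, 0, ⟨0, 0⟩, 0⟩, 0, 0⟩ 0 0))))))) (.cut .s 7086080 (.cut .s 7041024 (.cut .s 7018496 (.pos 33 .mp ⟨⟨8776861, 0, 0, 0, 0, 9075786, 0, 0, 0, ⟨0, 0⟩, 0⟩, 0, 0⟩ 0 0) (.cut .s 7029760 (.pos 33 .mp ⟨⟨9039986, 0, 0, 0, 0, 9058578, 0, 0, 0, ⟨0, 0⟩, 0⟩, 0, 0⟩ 0 0) (.pos 33 .mp ⟨⟨9110938, 0, 0, 0, 0, 9141345, 0, 0, 0, ⟨0, 0⟩, 0⟩, 0, 0⟩ 0 0))) (.cut .v 16809984 (.cut .l 108558 (.cut .d (-16384) (.pos 45 .mp ⟨⟨8703346, 0, 0, 0, 0, 10365065, 0, 0, 0, ⟨0, 0⟩, 0⟩, 0, 0⟩ 0 0) (.cut .s 7063552 (.pos 45 .mp ⟨⟨9148881,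 0, 0, 0, 0, 9275194, 0, 0, 0, ⟨0, 0⟩, 0⟩, 0, 0⟩ 0 0) (.pos 45 .mp ⟨⟨9293636, 0, 0, 0, 0, 9446815, 0, 0, 0, ⟨0, 0⟩, 0⟩, 0, 0⟩ 0 0))) (.pos 45 .mp ⟨⟨8617898, 0, 0, 0, 0, 9735377, 0, 0, 0, ⟨0, 0⟩, 0⟩, 0, 0⟩ 0 0)) (.pos 46 .mp ⟨⟨11822521, 0, 0, 0, 0, 6844354, 0, 0, 0, ⟨0, 0⟩, 0⟩, 0, 0⟩ 0 0))) (.cut .s 7131136 (.cut .v 16809984 (.cut .l 108558 (.cut .d (-16384) (.pos 45 .mp ⟨⟨9065394, 0, 0, 0, 0, 10654464, 0, 0, 0, ⟨0, 0⟩, 0⟩, 0, 0⟩ 0 0) (.cut .s 7108608 (.pos 45 .mp ⟨⟨9444069, 0, 0, 0, 0, 9619012, 0, 0, 0, ⟨0, 0⟩, 0⟩, 0, 0⟩ 0 0) (.pos 45 .mp ⟨⟨9600443, 0, 0, 0, 0, 9791496, 0, 0, 0, ⟨0, 0⟩, 0⟩, 0, 0⟩ 0 0))) (.pos 45 .mp ⟨⟨8977110,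 0, 0, 0, 0, 10038434, 0, 0, 0, ⟨0, 0⟩, 0⟩, 0, 0⟩ 0 0)) (.pos 46 .mp ⟨⟨12168254, 0, 0, 0, 0, 7134296, 0, 0, 0, ⟨0, 0⟩, 0⟩, 0, 0⟩ 0 0)) (.cut .v 16809984 (.cut .l 108558 (.cut .d (-16384) (.pos 45 .mp ⟨⟨9438692, 0, 0, 0, 0, 10959884, 0, 0, 0, ⟨0, 0⟩, 0⟩, 0, 0⟩ 0 0) (.cut .s 7153664 (.pos 45 .mp ⟨⟨9763019, 0, 0, 0, 0, 9963977, 0, 0, 0, ⟨0, 0⟩, 0⟩, 0, 0⟩ 0 0) (.pos 45 .mp ⟨⟨9956415, 0, 0, 0, 0, 10111549, 0, 0, 0, ⟨0, 0⟩, 0⟩, 0, 0⟩ 0 0))) (.pos 45 .mp ⟨⟨9347423, 0, 0, 0, 0, 10350447, 0, 0, 0, ⟨0, 0⟩, 0⟩, 0, 0⟩ 0 0)) (.pos 46 .mp ⟨⟨12550347, 0, 0, 0, 0, 7412256, 0, 0, 0, ⟨0, 0⟩, 0⟩, 0, 0⟩ 0 0))))) (.pos 34 .mp ⟨⟨20559256, 0, 0, 0, 0,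 0, 0, 0, 0, ⟨0, 0⟩, 0⟩, 0, 0⟩ 0 0))) (.cut .s 7356416 (.cut .v 16842752 (.cut .d (-32768) (.cut .d (-49152) (.void 33 ⟨⟨0, 0, 0, 0, 0, 100000, 0, 0, 0, ⟨0, 0⟩, 0⟩, 0, 0⟩ 0 0) (.cut .l 108558 (.void 33 ⟨⟨0, 0, 0, 0, 0, 100000, 0, 0, 0, ⟨0, 0⟩, 0⟩, 0, 0⟩ 0 0) (.cut .v 16809984 (.pos 45 .mp ⟨⟨0, 0, 0, 0, 0, 23016043, 0, 0, 0, ⟨0, 0⟩, 0⟩, 0, 0⟩ 0 0) (.cut .l 162837 (.pos 46 .mp ⟨⟨10750840, 0, 0, 0, 0, 12699415, 0, 0, 0, ⟨0, 0⟩, 0⟩, 0, 0⟩ 0 0) (.cut .s 7266304 (.cut .s 7221248 (.pos 46 .mp ⟨⟨10456150, 0, 0, 0, 0, 10408713, 0, 0, 0, ⟨0, 0⟩, 0⟩, 0, 0⟩ 0 0) (.pos 46 .mp ⟨⟨10872211, 0, 0, 0, 0, 10715788, 0, 0, 0, ⟨0, 0⟩, 0⟩, 0, 0⟩ 0 0))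 (.cut .s 7311360 (.pos 46 .mp ⟨⟨11300312, 0, 0, 0, 0, 11032742, 0, 0, 0, ⟨0, 0⟩, 0⟩, 0, 0⟩ 0 0) (.pos 46 .mp ⟨⟨11740580, 0, 0, 0, 0, 11359193, 0, 0, 0, ⟨0, 0⟩, 0⟩, 0, 0⟩ 0 0))))))) (.cut .s 7266304 (.cut .s 7221248 (.cut .l 108558 (.cut .d (-16384) (.pos 33 .mp ⟨⟨10160756, 0, 0, 0, 0, 10890554, 0, 0, 0, ⟨0, 0⟩, 0⟩, 0, 0⟩ 0 0) (.cut .v 16809984 (.cut .s 7198720 (.pos 45 .mp ⟨⟨10155231, 0, 0, 0, 0, 10259746, 0, 0, 0, ⟨0, 0⟩, 0⟩, 0, 0⟩ 0 0) (.pos 45 .mp ⟨⟨10356974, 0, 0, 0, 0, 10411072, 0, 0, 0, ⟨0, 0⟩, 0⟩, 0, 0⟩ 0 0)) (.pos 46 .mp ⟨⟨19859002, 0, 0, 0, 0, 0, 0, 0, 0, ⟨0, 0⟩, 0⟩, 0, 0⟩ 0 0))) (.pos 33 .mp ⟨⟨10372120, 0, 0, 0, 0, 9980278,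 0, 0, 0, ⟨0, 0⟩, 0⟩, 0, 0⟩ 0 0)) (.cut .l 108558 (.cut .d (-16384) (.pos 33 .mp ⟨⟨10273240, 0, 0, 0, 0, 11745658, 0, 0, 0, ⟨0, 0⟩, 0⟩, 0, 0⟩ 0 0) (.cut .v 16809984 (.cut .v 16793600 (.cut .s 7243776 (.pos 49 .mp ⟨⟨10449649, 0, 0, 0, 0, 10687766, 0, 0, 0, ⟨0, 0⟩, 0⟩, 0, 0⟩ 0 0) (.pos 49 .mp ⟨⟨10642410, 0, 0, 0, 0, 10862096, 0, 0, 0, ⟨0, 0⟩, 0⟩, 0, 0⟩ 0 0)) (.pos 50 .mp ⟨⟨13843814, 0, 0, 0, 0, 7432620, 0, 0, 0, ⟨0, 0⟩, 0⟩, 0, 0⟩ 0 0)) (.pos 46 .mp ⟨⟨20510592, 0, 0, 0, 0, 0, 0, 0, 0, ⟨0, 0⟩, 0⟩, 0, 0⟩ 0 0))) (.pos 33 .mp ⟨⟨10785162, 0, 0, 0, 0, 10284207, 0, 0, 0, ⟨0, 0⟩, 0⟩, 0, 0⟩ 0 0))) (.cut .s 7311360 (.cut .l 108558 (.cut .d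 (-16384) (.pos 33 .mp ⟨⟨10682817, 0, 0, 0, 0, 12105066, 0, 0, 0, ⟨0, 0⟩, 0⟩, 0, 0⟩ 0 0) (.cut .v 16809984 (.cut .v 16793600 (.cut .l 54279 (.cut .d (-8192) (.pos 49 .mp ⟨⟨10619986, 0, 0, 0, 0, 11958307, 0, 0, 0, ⟨0, 0⟩, 0⟩, 0, 0⟩ 0 0) (.cut .s 7288832 (.pos 49 .mp ⟨⟨10984084, 0, 0, 0, 0, 10856042, 0, 0, 0, ⟨0, 0⟩, 0⟩, 0, 0⟩ 0 0) (.pos 49 .mp ⟨⟨11197858, 0, 0, 0, 0, 11019299, 0, 0, 0, ⟨0, 0⟩, 0⟩, 0, 0⟩ 0 0))) (.pos 49 .mp ⟨⟨10569567, 0, 0, 0, 0, 11161718, 0, 0, 0, ⟨0, 0⟩, 0⟩, 0, 0⟩ 0 0)) (.pos 50 .mp ⟨⟨14360703, 0, 0, 0, 0, 7642842, 0, 0, 0, ⟨0, 0⟩, 0⟩, 0, 0⟩ 0 0)) (.pos 46 .mp ⟨⟨21186456, 0, 0, 0, 0, 0, 0, 0, 0, ⟨0, 0⟩, 0⟩, 0,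 0⟩ 0 0))) (.pos 33 .mp ⟨⟨11210127, 0, 0, 0, 0, 10594372, 0, 0, 0, ⟨0, 0⟩, 0⟩, 0, 0⟩ 0 0)) (.cut .l 108558 (.cut .d (-16384) (.pos 33 .mp ⟨⟨11104159, 0, 0, 0, 0, 12481834, 0, 0, 0, ⟨0, 0⟩, 0⟩, 0, 0⟩ 0 0) (.cut .v 16809984 (.cut .v 16793600 (.cut .s 7333888 (.pos 49 .mp ⟨⟨11282495, 0, 0, 0, 0, 11354334, 0, 0, 0, ⟨0, 0⟩, 0⟩, 0, 0⟩ 0 0) (.pos 49 .mp ⟨⟨11533848, 0, 0, 0, 0, 11488403, 0, 0, 0, ⟨0, 0⟩, 0⟩, 0, 0⟩ 0 0)) (.pos 50 .mp ⟨⟨14929904, 0, 0, 0, 0, 7822904, 0, 0, 0, ⟨0, 0⟩, 0⟩, 0, 0⟩ 0 0)) (.pos 46 .mp ⟨⟨21886833, 0, 0, 0, 0, 0, 0, 0, 0, ⟨0, 0⟩, 0⟩, 0, 0⟩ 0 0))) (.pos 33 .mp ⟨⟨11647142, 0, 0, 0, 0, 10910087, 0, 0, 0, ⟨0, 0⟩, 0⟩,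 0, 0⟩ 0 0))))) (.pos 34 .mp ⟨⟨23232631, 0, 0, 0, 0, 0, 0, 0, 0, ⟨0, 0⟩, 0⟩, 0, 0⟩ 0 0)) (.cut .v 16842752 (.cut .d (-32768) (.cut .d (-49152) (.void 33 ⟨⟨0, 0, 0, 0, 0, 100000, 0, 0, 0, ⟨0, 0⟩, 0⟩, 0, 0⟩ 0 0) (.cut .d (-40960) (.pos 33 .mp ⟨⟨11550581, 0, 0, 0, 0, 15481783, 0, 0, 0, ⟨0, 0⟩, 0⟩, 0, 0⟩ 0 0) (.cut .l 108558 (.void 33 ⟨⟨0, 0, 0, 0, 0, 100000, 0, 0, 0, ⟨0, 0⟩, 0⟩, 0, 0⟩ 0 0) (.cut .s 7446528 (.cut .s 7401472 (.pos 33 .mp ⟨⟨11495374, 0, 0, 0, 0, 12623615, 0, 0, 0, ⟨0, 0⟩, 0⟩, 0, 0⟩ 0 0) (.pos 33 .mp ⟨⟨11939474, 0, 0, 0, 0, 13013827, 0, 0, 0, ⟨0, 0⟩, 0⟩, 0, 0⟩ 0 0)) (.pos 33 .mp ⟨⟨12395709, 0, 0, 0, 0, 14036482, 0, 0,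 0, ⟨0, 0⟩, 0⟩, 0, 0⟩ 0 0))))) (.cut .s 7446528 (.cut .s 7401472 (.cut .l 108558 (.cut .d (-16384) (.pos 33 .mp ⟨⟨11537391, 0, 0, 0, 0, 12876291, 0, 0, 0, ⟨0, 0⟩, 0⟩, 0, 0⟩ 0 0) (.cut .s 7378944 (.cut .s 7367680 (.pos 33 .mp ⟨⟨11918545, 0, 0, 0, 0, 11409940, 0, 0, 0, ⟨0, 0⟩, 0⟩, 0, 0⟩ 0 0) (.pos 33 .mp ⟨⟨12038701, 0, 0, 0, 0, 11488691, 0, 0, 0, ⟨0, 0⟩, 0⟩, 0, 0⟩ 0 0)) (.pos 33 .mp ⟨⟨12139661, 0, 0, 0, 0, 11667801, 0, 0, 0, ⟨0, 0⟩, 0⟩, 0, 0⟩ 0 0))) (.pos 33 .mp ⟨⟨12096334, 0, 0, 0, 0, 11230669, 0, 0, 0, ⟨0, 0⟩, 0⟩, 0, 0⟩ 0 0)) (.cut .v 16809984 (.cut .l 108558 (.cut .d (-16384) (.pos 45 .mp ⟨⟨11921319, 0, 0, 0, 0, 13146394, 0, 0,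 0, ⟨0, 0⟩, 0⟩, 0, 0⟩ 0 0) (.cut .s 7424000 (.pos 45 .mp ⟨⟨12306913, 0, 0, 0, 0, 11909611, 0, 0, 0, ⟨0, 0⟩, 0⟩, 0, 0⟩ 0 0) (.pos 45 .mp ⟨⟨12562242, 0, 0, 0, 0, 12066490, 0, 0, 0, ⟨0, 0⟩, 0⟩, 0, 0⟩ 0 0))) (.pos 45 .mp ⟨⟨11808872, 0, 0, 0, 0, 12372384, 0, 0, 0, ⟨0, 0⟩, 0⟩, 0, 0⟩ 0 0)) (.pos 46 .mp ⟨⟨15830259, 0, 0, 0, 0, 8575214, 0, 0, 0, ⟨0, 0⟩, 0⟩, 0, 0⟩ 0 0))) (.cut .s 7491584 (.cut .v 16809984 (.cut .l 108558 (.cut .d (-16384) (.pos 45 .mp ⟨⟨12376709, 0, 0, 0, 0, 13572841, 0, 0, 0, ⟨0, 0⟩, 0⟩, 0, 0⟩ 0 0) (.cut .s 7469056 (.pos 45 .mp ⟨⟨12839818, 0, 0, 0, 0, 12206221, 0, 0, 0, ⟨0, 0⟩, 0⟩, 0, 0⟩ 0 0) (.pos 45 .mp ⟨⟨13127671, 0,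 0, 0, 0, 12341123, 0, 0, 0, ⟨0, 0⟩, 0⟩, 0, 0⟩ 0 0))) (.pos 45 .mp ⟨⟨12260174, 0, 0, 0, 0, 12728082, 0, 0, 0, ⟨0, 0⟩, 0⟩, 0, 0⟩ 0 0)) (.pos 46 .mp ⟨⟨16579218, 0, 0, 0, 0, 8640723, 0, 0, 0, ⟨0, 0⟩, 0⟩, 0, 0⟩ 0 0)) (.cut .s 7514112 (.cut .s 7502848 (.pos 33 .mp ⟨⟨13526420, 0, 0, 0, 0, 12330769, 0, 0, 0, ⟨0, 0⟩, 0⟩, 0, 0⟩ 0 0) (.pos 33 .mp ⟨⟨13681012, 0, 0, 0, 0, 12391645, 0, 0, 0, ⟨0, 0⟩, 0⟩, 0, 0⟩ 0 0)) (.pos 33 .mp ⟨⟨13691779, 0, 0, 0, 0, 12690457, 0, 0, 0, ⟨0, 0⟩, 0⟩, 0, 0⟩ 0 0))))) (.pos 34 .mp ⟨⟨26147170, 0, 0, 0, 0, 0, 0, 0, 0, ⟨0, 0⟩, 0⟩, 0, 0⟩ 0 0)))) (.pos 30 .mp ⟨⟨24184057, 0, 0, 0, 0, 0, 0, 0, 0, ⟨0, 0⟩, 0⟩, 0, 0⟩ 0 0))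 (.void 28 ⟨⟨100000, 0, 0, 0, 0, 0, 0, 0, 0, ⟨0, 0⟩, 0⟩, 0, 0⟩ 0 0)) (.void 26 ⟨⟨100000, 0, 0, 0, 0, 0, 0, 0, 0, ⟨0, 0⟩, 0⟩, 0, 0⟩ 0 0)) (.void 24 ⟨⟨100000, 0, 0, 0, 0, 0, 0, 0, 0, ⟨0, 0⟩, 0⟩, 0, 0⟩ 0 0))))) (.void 22 ⟨⟨100000, 0, 0, 0, 0, 0, 0, 0, 0, ⟨0, 0⟩, 0⟩, 0, 0⟩ 0 0)))) (.void 20 ⟨⟨100000, 0, 0, 0, 0, 0, 0, 0, 0, ⟨0, 0⟩, 0⟩, 0, 0⟩ 0 0))))) (.void 18 ⟨⟨100000, 0, 0, 0, 0, 0, 0, 0, 0, ⟨0, 0⟩, 0⟩, 0, 0⟩ 0 0))) (.cut .v 16777216 (.cut .d 5602241 (.cut .d 2801120 (.cut .d 1400560 (.cut .v 8388608 (.cut .v 4194304 (.void 4 ⟨⟨0, 0, 100000, 0, 0, 0, 0, 0, 0, ⟨0, 0⟩, 0⟩, 0, 0⟩ 0 0) (.pos 5 .pm ⟨⟨0, 0, 0, 0, 0, 0, 0, 0, 0, ⟨0, 0⟩,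 0⟩, 0, 0⟩ 0 0)) (.cut .v 12582912 (.pos 8 .pm ⟨⟨0, 0, 0, 0, 0, 0, 0, 0, 0, ⟨0, 0⟩, 0⟩, 0, 0⟩ 0 0) (.pos 9 .pm ⟨⟨0, 0, 0, 0, 0, 0, 0, 0, 0, ⟨0, 0⟩, 0⟩, 0, 0⟩ 0 0))) (.void 1 ⟨⟨0, 0, 0, 0, 0, 0, 0, 0, 0, ⟨0, 0⟩, 0⟩, 0, 100000⟩ 0 0)) (.void 1 ⟨⟨0, 0, 0, 0, 0, 0, 0, 0, 0, ⟨0, 0⟩, 0⟩, 0, 100000⟩ 0 0)) (.void 1 ⟨⟨0, 0, 0, 0, 0, 0, 0, 0, 0, ⟨0, 0⟩, 0⟩, 0, 100000⟩ 0 0)) (.cut .d 5602241 (.cut .v 25165824 (.cut .d 2801120 (.cut .d 1400560 (.cut .v 20971520 (.cut .d 700280 (.cut .v 18874368 (.cut .d 350140 (.cut .v 17825792 (.cut .s 7176192 (.pos 23 .pp ⟨⟨10003801, 0, 0, 0, 0, 0, 0, 0, 0, ⟨0, 0⟩, 0⟩, 279667, 0⟩ 0 0) (.pos 23 .pp ⟨⟨11729878,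 0, 0, 0, 0, 0, 0, 0, 0, ⟨0, 0⟩, 0⟩, 554829, 0⟩ 0 0)) (.pos 24 .pp ⟨⟨21013582, 0, 0, 0, 0, 0, 0, 0, 0, ⟨0, 0⟩, 0⟩, 0, 0⟩ 0 0)) (.pos 21 .pp ⟨⟨8984677, 0, 0, 0, 0, 0, 0, 0, 0, ⟨0, 0⟩, 0⟩, 0, 411638⟩ 0 0)) (.pos 22 .pp ⟨⟨24849864, 0, 0, 0, 0, 0, 0, 0, 0, ⟨0, 0⟩, 0⟩, 0, 181482⟩ 0 0)) (.cut .v 18874368 (.pos 21 .pp ⟨⟨0, 0, 0, 0, 0, 0, 0, 0, 0, ⟨0, 0⟩, 0⟩, 0, 12194240⟩ 0 0) (.pos 22 .pp ⟨⟨14049396, 0, 0, 0, 0, 0, 0, 0, 0, ⟨0, 0⟩, 0⟩, 0, 3902144⟩ 0 0))) (.cut .d 700280 (.void 20 ⟨⟨0, 0, 0, 0, 0, 0, 0, 0, 0, ⟨0, 0⟩, 0⟩, 100000, 0⟩ 0 0) (.cut .d 1050420 (.pos 20 .pp ⟨⟨18868262, 0, 0, 0, 0, 0, 26197498, 0, 0, ⟨0, 0⟩, 0⟩, 0, 0⟩ 0 0) (.void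 20 ⟨⟨0, 0, 0, 0, 0, 0, 20940, 0, 0, ⟨0, 0⟩, 0⟩, 0, 79060⟩ 0 0)))) (.void 17 ⟨⟨0, 0, 0, 0, 0, 0, 0, 0, 0, ⟨0, 0⟩, 0⟩, 1960, 98040⟩ 0 0)) (.void 17 ⟨⟨0, 0, 0, 0, 0, 0, 0, 0, 0, ⟨0, 0⟩, 0⟩, 0, 100000⟩ 0 0)) (.void 18 ⟨⟨0, 0, 0, 0, 0, 0, 0, 0, 0, ⟨0, 0⟩, 0⟩, 16244, 83756⟩ 0 0)) (.void 16 ⟨⟨0, 0, 0, 0, 0, 0, 0, 0, 0, ⟨0, 0⟩, 0⟩, 0, 100000⟩ 0 0)))),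
    by decide +kernel⟩

def covers8 : cell.Covers Vale.Agent.P237.Petty.Cor.Grid.N17.table row8.1 :=
  ⟨(.cut .d 0 (.cut .v 16777216 (.cut .d (-8388608) (.void 1 ⟨⟨0, 0, 0, 0, 0, 100000, 0, 0, 0, ⟨0, 0⟩, 0⟩, 0, 0⟩ 0 0) (.cut .d (-4194304) (.void 1 ⟨⟨0, 0, 0, 0, 0, 100000, 0, 0, 0, ⟨0, 0⟩, 0⟩, 0, 0⟩ 0 0) (.cut .d (-2097152) (.void 1 ⟨⟨0, 0, 0, 0, 0, 100000, 0, 0, 0, ⟨0, 0⟩, 0⟩, 0, 0⟩ 0 0) (.cut .d (-1048576) (.void 1 ⟨⟨0, 0, 0, 0, 0, 100000, 0, 0, 0, ⟨0, 0⟩, 0⟩, 0, 0⟩ 0 0) (.cut .d (-524288) (.void 1 ⟨⟨0, 0, 0, 0, 0, 100000, 0, 0, 0, ⟨0, 0⟩, 0⟩, 0, 0⟩ 0 0) (.cut .d (-262144) (.void 1 ⟨⟨0, 0, 0, 0, 0, 100000, 0, 0, 0, ⟨0, 0⟩, 0⟩,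 0, 0⟩ 0 0) (.cut .d (-131072) (.void 1 ⟨⟨0, 0, 0, 0, 0, 100000, 0, 0, 0, ⟨0, 0⟩, 0⟩, 0, 0⟩ 0 0) (.cut .d (-65536) (.void 1 ⟨⟨0, 0, 0, 0, 0, 100000, 0, 0, 0, ⟨0, 0⟩, 0⟩, 0, 0⟩ 0 0) (.cut .v 8388608 (.cut .v 4194304 (.void 4 ⟨⟨0, 0, 100000, 0, 0, 0, 0, 0, 0, ⟨0, 0⟩, 0⟩, 0, 0⟩ 0 0) (.pos 5 .mm ⟨⟨0, 0, 0, 0, 0, 13984777, 0, 0, 0, ⟨0, 0⟩, 0⟩, 0, 0⟩ 0 0)) (.cut .v 12582912 (.pos 8 .mm ⟨⟨0, 0, 0, 0, 0, 18782102, 0, 0, 0, ⟨0, 0⟩, 0⟩, 0, 0⟩ 0 0) (.cut .s 7798784 (.cut .s 7667712 (.pos 9 .mm ⟨⟨0, 0, 0, 0, 0, 28358816, 0, 0, 0, ⟨0, 0⟩, 0⟩, 0, 0⟩ 0 0) (.pos 9 .mm ⟨⟨0, 0, 0, 0, 0, 31913358, 0, 0, 0, ⟨0, 0⟩, 0⟩, 0, 0⟩ 0 0)) (.pos 9 .mm ⟨⟨0,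 0, 0, 0, 0, 37574985, 0, 0, 0, ⟨0, 0⟩, 0⟩, 0, 0⟩ 0 0)))))))))))) (.cut .v 25165824 (.cut .d (-8388608) (.void 17 ⟨⟨0, 0, 0, 0, 0, 100000, 0, 0, 0, ⟨0, 0⟩, 0⟩, 0, 0⟩ 0 0) (.cut .d (-4194304) (.void 17 ⟨⟨0, 0, 0, 0, 0, 100000, 0, 0, 0, ⟨0, 0⟩, 0⟩, 0, 0⟩ 0 0) (.cut .v 20971520 (.cut .d (-2097152) (.void 19 ⟨⟨0, 0, 0, 0, 0, 100000, 0, 0, 0, ⟨0, 0⟩, 0⟩, 0, 0⟩ 0 0) (.cut .d (-1048576) (.void 19 ⟨⟨0, 0, 0, 0, 0, 100000, 0, 0, 0, ⟨0, 0⟩, 0⟩, 0, 0⟩ 0 0) (.cut .d (-524288) (.void 19 ⟨⟨0, 0, 0, 0, 0, 100000, 0, 0, 0, ⟨0, 0⟩, 0⟩, 0, 0⟩ 0 0) (.cut .d (-262144) (.void 19 ⟨⟨0, 0, 0, 0, 0, 100000, 0, 0, 0, ⟨0, 0⟩, 0⟩, 0, 0⟩ 0 0) (.cut .v 18874368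 (.cut .d (-131072) (.void 21 ⟨⟨0, 0, 0, 0, 0, 100000, 0, 0, 0, ⟨0, 0⟩, 0⟩, 0, 0⟩ 0 0) (.cut .d (-65536) (.void 21 ⟨⟨0, 0, 0, 0, 0, 100000, 0, 0, 0, ⟨0, 0⟩, 0⟩, 0, 0⟩ 0 0) (.cut .v 17825792 (.cut .v 17301504 (.cut .v 17039360 (.cut .v 16908288 (.cut .s 7798784 (.cut .s 7667712 (.cut .v 16842752 (.cut .s 7602176 (.cut .d (-32768) (.pos 33 .mp ⟨⟨13341949, 0, 0, 0, 0, 14926587, 0, 0, 0, ⟨0, 0⟩, 0⟩, 0, 0⟩ 0 0) (.cut .s 7569408 (.cut .s 7553024 (.pos 33 .mp ⟨⟨14056590, 0, 0, 0, 0, 12715088, 0, 0, 0, ⟨0, 0⟩, 0⟩, 0, 0⟩ 0 0) (.pos 33 .mp ⟨⟨14465401, 0, 0, 0, 0, 12674736, 0, 0, 0, ⟨0, 0⟩, 0⟩, 0, 0⟩ 0 0)) (.pos 33 .mp ⟨⟨14431999, 0, 0, 0,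 0, 13237073, 0, 0, 0, ⟨0, 0⟩, 0⟩, 0, 0⟩ 0 0))) (.cut .s 7634944 (.pos 33 .mp ⟨⟨14619286, 0, 0, 0, 0, 13987948, 0, 0, 0, ⟨0, 0⟩, 0⟩, 0, 0⟩ 0 0) (.pos 33 .mp ⟨⟨15776710, 0, 0, 0, 0, 13521997, 0, 0, 0, ⟨0, 0⟩, 0⟩, 0, 0⟩ 0 0))) (.pos 34 .mp ⟨⟨28516639, 0, 0, 0, 0, 0, 0, 0, 0, ⟨0, 0⟩, 0⟩, 0, 0⟩ 0 0)) (.cut .s 7733248 (.cut .s 7700480 (.pos 29 .mp ⟨⟨16298801, 0, 0, 0, 0, 13776588, 0, 0, 0, ⟨0, 0⟩, 0⟩, 0, 0⟩ 0 0) (.pos 29 .mp ⟨⟨17110241, 0, 0, 0, 0, 13752941, 0, 0, 0, ⟨0, 0⟩, 0⟩, 0, 0⟩ 0 0)) (.pos 29 .mp ⟨⟨17343670, 0, 0, 0, 0, 14769375, 0, 0, 0, ⟨0, 0⟩, 0⟩, 0, 0⟩ 0 0))) (.cut .s 7929856 (.cut .s 7864320 (.pos 29 .mp ⟨⟨18812432, 0, 0,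 0, 0, 14975623, 0, 0, 0, ⟨0, 0⟩, 0⟩, 0, 0⟩ 0 0) (.pos 29 .mp ⟨⟨20632188, 0, 0, 0, 0, 14876438, 0, 0, 0, ⟨0, 0⟩, 0⟩, 0, 0⟩ 0 0)) (.pos 29 .mp ⟨⟨21173655, 0, 0, 0, 0, 17188632, 0, 0, 0, ⟨0, 0⟩, 0⟩, 0, 0⟩ 0 0))) (.pos 30 .mp ⟨⟨35348356, 0, 0, 0, 0, 0, 0, 0, 0, ⟨0, 0⟩, 0⟩, 0, 0⟩ 0 0)) (.void 28 ⟨⟨100000, 0, 0, 0, 0, 0, 0, 0, 0, ⟨0, 0⟩, 0⟩, 0, 0⟩ 0 0)) (.void 26 ⟨⟨100000, 0, 0, 0, 0, 0, 0, 0, 0, ⟨0, 0⟩, 0⟩, 0, 0⟩ 0 0)) (.void 24 ⟨⟨100000, 0, 0, 0, 0, 0, 0, 0, 0, ⟨0, 0⟩, 0⟩, 0, 0⟩ 0 0)))) (.void 22 ⟨⟨100000, 0, 0, 0, 0, 0, 0, 0, 0, ⟨0, 0⟩, 0⟩, 0, 0⟩ 0 0)))))) (.void 20 ⟨⟨100000, 0, 0, 0, 0, 0, 0, 0, 0, ⟨0, 0⟩, 0⟩, 0, 0⟩ 0 0)))) (.void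 18 ⟨⟨100000, 0, 0, 0, 0, 0, 0, 0, 0, ⟨0, 0⟩, 0⟩, 0, 0⟩ 0 0))) (.cut .v 16777216 (.cut .d 6634432 (.cut .d 3317216 (.cut .d 1658608 (.cut .v 8388608 (.cut .v 4194304 (.void 4 ⟨⟨0, 0, 100000, 0, 0, 0, 0, 0, 0, ⟨0, 0⟩, 0⟩, 0, 0⟩ 0 0) (.pos 5 .pm ⟨⟨0, 0, 0, 0, 0, 0, 0, 0, 0, ⟨0, 0⟩, 0⟩, 0, 0⟩ 0 0)) (.cut .v 12582912 (.pos 8 .pm ⟨⟨0, 0, 0, 0, 0, 0, 0, 0, 0, ⟨0, 0⟩, 0⟩, 0, 0⟩ 0 0) (.pos 9 .pm ⟨⟨0, 0, 0, 0, 0, 0, 0, 0, 0, ⟨0, 0⟩, 0⟩, 0, 0⟩ 0 0))) (.void 1 ⟨⟨0, 0, 0, 0, 0, 0, 0, 0, 0, ⟨0, 0⟩, 0⟩, 0, 100000⟩ 0 0)) (.void 1 ⟨⟨0, 0, 0, 0, 0, 0, 0, 0, 0, ⟨0, 0⟩, 0⟩, 0, 100000⟩ 0 0)) (.void 1 ⟨⟨0, 0, 0, 0, 0, 0, 0, 0, 0, ⟨0, 0⟩, 0⟩, 0, 100000⟩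 0 0)) (.cut .d 6634432 (.cut .v 25165824 (.cut .d 3317216 (.cut .d 1658608 (.cut .v 20971520 (.cut .d 829304 (.cut .v 18874368 (.cut .d 414652 (.cut .s 7798784 (.pos 21 .pp ⟨⟨20584626, 0, 0, 0, 0, 0, 0, 0, 0, ⟨0, 0⟩, 0⟩, 289771, 0⟩ 0 0) (.pos 21 .pp ⟨⟨24960406, 0, 0, 0, 0, 0, 0, 0, 0, ⟨0, 0⟩, 0⟩, 343529, 0⟩ 0 0)) (.pos 21 .pp ⟨⟨15492360, 0, 0, 0, 0, 0, 0, 0, 0, ⟨0, 0⟩, 0⟩, 0, 347841⟩ 0 0)) (.cut .d 414652 (.pos 22 .pp ⟨⟨45841501, 0, 0, 0, 0, 0, 0, 0, 0, ⟨0, 0⟩, 0⟩, 0, 0⟩ 0 0) (.pos 22 .pp ⟨⟨26520435, 0, 0, 0, 0, 0, 0, 0, 0, ⟨0, 0⟩, 0⟩, 0, 424051⟩ 0 0))) (.cut .v 18874368 (.pos 21 .pp ⟨⟨0, 0, 0, 0, 0, 0, 0, 0, 0, ⟨0, 0⟩, 0⟩, 0,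 758985⟩ 0 0) (.pos 22 .pp ⟨⟨12103695, 0, 0, 0, 0, 0, 1065957, 0, 0, ⟨0, 0⟩, 0⟩, 0, 0⟩ 0 0))) (.cut .d 829304 (.pos 20 .pp ⟨⟨64611546, 0, 0, 0, 0, 0, 0, 0, 0, ⟨0, 0⟩, 0⟩, 0, 0⟩ 0 0) (.cut .d 1243956 (.cut .l 108558 (.void 20 ⟨⟨0, 0, 0, 0, 0, 0, 0, 0, 0, ⟨0, 0⟩, 0⟩, 1511, 98489⟩ 0 0) (.cut .l 162837 (.pos 20 .pp ⟨⟨26969981, 0, 0, 0, 0, 0, 33526669, 0, 0, ⟨0, 0⟩, 0⟩, 0, 0⟩ 0 0) (.cut .v 23068672 (.cut .v 22020096 (.pos 59 .pp ⟨⟨20526988, 0, 0, 0, 0, 0, 10173844, 0, 0, ⟨0, 0⟩, 0⟩, 0, 0⟩ 0 0) (.cut .s 7798784 (.pos 60 .pp ⟨⟨23759642, 0, 0, 0, 0, 0, 23726737, 0, 0, ⟨0, 0⟩, 0⟩, 0, 0⟩ 0 0) (.cut .d 1036630 (.pos 60 .pp ⟨⟨6966703, 0, 0,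 0, 0, 0, 6524515, 0, 0, ⟨0, 0⟩, 0⟩, 2417428, 0⟩ 0 0) (.pos 60 .pp ⟨⟨0, 0, 0, 0, 0, 0, 16158143, 0, 0, ⟨0, 0⟩, 0⟩, 2213481, 0⟩ 0 0)))) (.cut .d 1036630 (.void 58 ⟨⟨0, 0, 0, 0, 0, 0, 0, 0, 0, ⟨0, 0⟩, 0⟩, 100000, 0⟩ 0 0) (.cut .v 24117248 (.cut .d 1140293 (.pos 63 .pp ⟨⟨0, 0, 0, 0, 0, 0, 17203900, 0, 0, ⟨0, 0⟩, 0⟩, 3121095, 0⟩ 0 0) (.pos 63 .pp ⟨⟨0, 0, 0, 0, 0, 0, 22237035, 0, 0, ⟨0, 0⟩, 0⟩, 2646068, 0⟩ 0 0)) (.void 64 ⟨⟨0, 0, 0, 0, 0, 0, 0, 0, 0, ⟨0, 0⟩, 0⟩, 100000, 0⟩ 0 0)))))) (.pos 20 .pp ⟨⟨0, 0, 0, 0, 0, 0, 51421909, 0, 0, ⟨0, 0⟩, 0⟩, 0, 0⟩ 0 0)))) (.void 17 ⟨⟨0, 0, 0, 0, 0, 0, 0, 0, 0, ⟨0, 0⟩, 0⟩, 0, 100000⟩ 0 0)) (.void 17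 ⟨⟨0, 0, 0, 0, 0, 0, 0, 0, 0, ⟨0, 0⟩, 0⟩, 0, 100000⟩ 0 0)) (.void 18 ⟨⟨0, 0, 0, 0, 0, 0, 100000, 0, 0, ⟨0, 0⟩, 0⟩, 0, 0⟩ 0 0)) (.void 16 ⟨⟨0, 0, 0, 0, 0, 0, 0, 0, 0, ⟨0, 0⟩, 0⟩, 0, 100000⟩ 0 0)))),
    by decide +kernel⟩

def covers9 : cell.Covers Vale.Agent.P237.Petty.Cor.Grid.N17.table row9.1 :=
  ⟨(.cut .d 0 (.cut .v 16777216 (.cut .d (-8388608) (.void 1 ⟨⟨0, 0, 0, 0, 0, 100000, 0, 0, 0, ⟨0, 0⟩, 0⟩, 0, 0⟩ 0 0) (.cut .d (-4194304) (.void 1 ⟨⟨0, 0, 0, 0, 0, 100000, 0, 0, 0, ⟨0, 0⟩, 0⟩, 0, 0⟩ 0 0) (.cut .d (-2097152) (.void 1 ⟨⟨0, 0, 0, 0, 0, 100000, 0, 0, 0, ⟨0, 0⟩, 0⟩, 0, 0⟩ 0 0) (.cut .d (-1048576) (.void 1 ⟨⟨0, 0, 0, 0, 0,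 100000, 0, 0, 0, ⟨0, 0⟩, 0⟩, 0, 0⟩ 0 0) (.cut .d (-524288) (.void 1 ⟨⟨0, 0, 0, 0, 0, 100000, 0, 0, 0, ⟨0, 0⟩, 0⟩, 0, 0⟩ 0 0) (.cut .d (-262144) (.void 1 ⟨⟨0, 0, 0, 0, 0, 100000, 0, 0, 0, ⟨0, 0⟩, 0⟩, 0, 0⟩ 0 0) (.cut .d (-131072) (.void 1 ⟨⟨0, 0, 0, 0, 0, 100000, 0, 0, 0, ⟨0, 0⟩, 0⟩, 0, 0⟩ 0 0) (.cut .d (-65536) (.void 1 ⟨⟨0, 0, 0, 0, 0, 100000, 0, 0, 0, ⟨0, 0⟩, 0⟩, 0, 0⟩ 0 0) (.cut .v 8388608 (.cut .v 4194304 (.void 4 ⟨⟨0, 0, 100000, 0, 0, 0, 0, 0, 0, ⟨0, 0⟩, 0⟩, 0, 0⟩ 0 0) (.pos 5 .mm ⟨⟨0, 0, 0, 0, 0, 20408500, 0, 0, 0, ⟨0, 0⟩, 0⟩, 0, 0⟩ 0 0)) (.cut .s 8323072 (.pos 3 .mm ⟨⟨0, 0, 0, 0, 0, 46657124, 0, 0, 0, ⟨0, 0⟩, 0⟩, 0, 0⟩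 0 0) (.pos 3 .mm ⟨⟨0, 0, 0, 0, 0, 55810525, 0, 0, 0, ⟨0, 0⟩, 0⟩, 0, 0⟩ 0 0))))))))))) (.cut .v 25165824 (.cut .d (-8388608) (.void 17 ⟨⟨0, 0, 0, 0, 0, 100000, 0, 0, 0, ⟨0, 0⟩, 0⟩, 0, 0⟩ 0 0) (.cut .d (-4194304) (.void 17 ⟨⟨0, 0, 0, 0, 0, 100000, 0, 0, 0, ⟨0, 0⟩, 0⟩, 0, 0⟩ 0 0) (.cut .v 20971520 (.cut .d (-2097152) (.void 19 ⟨⟨0, 0, 0, 0, 0, 100000, 0, 0, 0, ⟨0, 0⟩, 0⟩, 0, 0⟩ 0 0) (.cut .d (-1048576) (.void 19 ⟨⟨0, 0, 0, 0, 0, 100000, 0, 0, 0, ⟨0, 0⟩, 0⟩, 0, 0⟩ 0 0) (.cut .d (-524288) (.void 19 ⟨⟨0, 0, 0, 0, 0, 100000, 0, 0, 0, ⟨0, 0⟩, 0⟩, 0, 0⟩ 0 0) (.cut .v 18874368 (.cut .d (-262144) (.void 21 ⟨⟨0, 0, 0, 0, 0, 100000, 0, 0,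 0, ⟨0, 0⟩, 0⟩, 0, 0⟩ 0 0) (.cut .d (-131072) (.void 21 ⟨⟨0, 0, 0, 0, 0, 100000, 0, 0, 0, ⟨0, 0⟩, 0⟩, 0, 0⟩ 0 0) (.cut .d (-65536) (.void 21 ⟨⟨0, 0, 0, 0, 0, 100000, 0, 0, 0, ⟨0, 0⟩, 0⟩, 0, 0⟩ 0 0) (.cut .v 17825792 (.cut .d (-32768) (.pos 23 .mp ⟨⟨33732901, 0, 0, 0, 0, 24341404, 0, 0, 0, ⟨0, 0⟩, 0⟩, 0, 0⟩ 0 0) (.cut .v 17301504 (.cut .v 17039360 (.cut .v 16908288 (.cut .v 16842752 (.cut .s 8323072 (.cut .s 8192000 (.pos 33 .mp ⟨⟨25347829, 0, 0, 0, 0, 16921184, 0, 0, 0, ⟨0, 0⟩, 0⟩, 0, 0⟩ 0 0) (.pos 33 .mp ⟨⟨26904385, 0, 0, 0, 0, 18951385, 0, 0, 0, ⟨0, 0⟩, 0⟩, 0, 0⟩ 0 0)) (.cut .s 8454144 (.pos 33 .mp ⟨⟨28870286, 0, 0, 0, 0, 20949958,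 0, 0, 0, ⟨0, 0⟩, 0⟩, 0, 0⟩ 0 0) (.pos 33 .mp ⟨⟨31339559, 0, 0, 0, 0, 22801017, 0, 0, 0, ⟨0, 0⟩, 0⟩, 0, 0⟩ 0 0))) (.pos 34 .mp ⟨⟨47602246, 0, 0, 0, 0, 0, 0, 0, 0, ⟨0, 0⟩, 0⟩, 0, 0⟩ 0 0)) (.pos 30 .mp ⟨⟨49474468, 0, 0, 0, 0, 0, 0, 0, 0, ⟨0, 0⟩, 0⟩, 0, 0⟩ 0 0)) (.void 28 ⟨⟨100000, 0, 0, 0, 0, 0, 0, 0, 0, ⟨0, 0⟩, 0⟩, 0, 0⟩ 0 0)) (.void 26 ⟨⟨100000, 0, 0, 0, 0, 0, 0, 0, 0, ⟨0, 0⟩, 0⟩, 0, 0⟩ 0 0))) (.void 24 ⟨⟨100000, 0, 0, 0, 0, 0, 0, 0, 0, ⟨0, 0⟩, 0⟩, 0, 0⟩ 0 0))))) (.void 22 ⟨⟨100000, 0, 0, 0, 0, 0, 0, 0, 0, ⟨0, 0⟩, 0⟩, 0, 0⟩ 0 0))))) (.void 20 ⟨⟨100000, 0, 0, 0, 0, 0, 0, 0, 0, ⟨0, 0⟩, 0⟩, 0, 0⟩ 0 0)))) (.void 18 ⟨⟨100000, 0, 0,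 0, 0, 0, 0, 0, 0, ⟨0, 0⟩, 0⟩, 0, 0⟩ 0 0))) (.cut .v 16777216 (.cut .d 8035241 (.cut .d 4017620 (.cut .v 8388608 (.cut .v 4194304 (.void 4 ⟨⟨0, 0, 66667, 0, 0, 0, 0, 0, 0, ⟨0, 0⟩, 0⟩, 0, 33333⟩ 0 0) (.pos 5 .pm ⟨⟨0, 0, 0, 0, 0, 0, 0, 0, 0, ⟨0, 0⟩, 0⟩, 0, 0⟩ 0 0)) (.pos 3 .pm ⟨⟨0, 0, 0, 0, 0, 0, 0, 0, 0, ⟨0, 0⟩, 0⟩, 0, 0⟩ 0 0)) (.void 1 ⟨⟨0, 0, 0, 0, 0, 0, 0, 0, 0, ⟨0, 0⟩, 0⟩, 0, 100000⟩ 0 0)) (.void 1 ⟨⟨0, 0, 0, 0, 0, 0, 0, 0, 0, ⟨0, 0⟩, 0⟩, 0, 100000⟩ 0 0)) (.cut .d 8035241 (.cut .d 4017620 (.cut .d 2008810 (.cut .v 25165824 (.cut .v 20971520 (.cut .d 1004405 (.cut .d 502202 (.cut .v 18874368 (.cut .s 8323072 (.pos 21 .pp ⟨⟨32568740,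 0, 0, 0, 0, 0, 0, 0, 0, ⟨0, 0⟩, 0⟩, 124663, 0⟩ 0 0) (.pos 21 .pp ⟨⟨36171879, 0, 0, 0, 0, 0, 0, 0, 0, ⟨0, 0⟩, 0⟩, 419677, 0⟩ 0 0)) (.pos 22 .pp ⟨⟨53812334, 0, 0, 0, 0, 0, 0, 0, 0, ⟨0, 0⟩, 0⟩, 0, 0⟩ 0 0)) (.pos 19 .pp ⟨⟨30031631, 0, 0, 0, 0, 0, 0, 0, 0, ⟨0, 0⟩, 0⟩, 0, 414705⟩ 0 0)) (.pos 19 .pp ⟨⟨0, 0, 0, 0, 0, 0, 0, 0, 0, ⟨0, 0⟩, 0⟩, 0, 886437⟩ 0 0)) (.cut .d 1004405 (.cut .v 23068672 (.cut .d 502202 (.void 57 ⟨⟨0, 0, 0, 0, 0, 0, 0, 0, 0, ⟨0, 0⟩, 0⟩, 100000, 0⟩ 0 0) (.pos 57 .pp ⟨⟨50647785, 0, 0, 0, 0, 0, 679940, 0, 0, ⟨0, 0⟩, 0⟩, 0, 0⟩ 0 0)) (.pos 58 .pp ⟨⟨0, 0, 0, 0, 0, 0, 0, 0, 0, ⟨0, 0⟩, 0⟩, 6408100, 0⟩ 0 0)) (.cut .d 1506607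 (.cut .v 23068672 (.pos 57 .pp ⟨⟨0, 0, 0, 0, 0, 0, 921252, 0, 0, ⟨0, 0⟩, 0⟩, 2800739, 0⟩ 0 0) (.cut .l 108558 (.void 58 ⟨⟨0, 0, 0, 0, 0, 0, 0, 0, 0, ⟨0, 0⟩, 0⟩, 2128, 97872⟩ 0 0) (.cut .l 162837 (.pos 58 .pp ⟨⟨0, 0, 0, 0, 0, 0, 31630848, 0, 0, ⟨0, 0⟩, 0⟩, 3759469, 0⟩ 0 0) (.cut .s 8323072 (.cut .l 189977 (.pos 58 .pp ⟨⟨0, 0, 0, 0, 0, 0, 28006293, 0, 0, ⟨0, 0⟩, 0⟩, 3314602, 0⟩ 0 0) (.cut .d 1255506 (.cut .d 1129955 (.pos 58 .pp ⟨⟨0, 0, 0, 0, 0, 0, 107992, 0, 0, ⟨0, 0⟩, 0⟩, 4694884, 0⟩ 0 0) (.cut .v 24117248 (.cut .s 8192000 (.cut .v 23592960 (.pos 65 .pp ⟨⟨0, 0, 0, 0, 0, 0, 852127, 0, 0, ⟨0, 0⟩, 0⟩, 3005840, 0⟩ 0 0) (.cut .s 8126464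 (.pos 66 .pp ⟨⟨0, 0, 0, 0, 0, 0, 17959110, 0, 0, ⟨0, 0⟩, 0⟩, 3223160, 0⟩ 0 0) (.pos 66 .pp ⟨⟨0, 0, 0, 0, 0, 0, 14424343, 0, 0, ⟨0, 0⟩, 0⟩, 3419236, 0⟩ 0 0))) (.pos 63 .pp ⟨⟨0, 0, 0, 0, 0, 0, 715219, 0, 0, ⟨0, 0⟩, 0⟩, 3577915, 0⟩ 0 0)) (.cut .v 24641536 (.cut .s 8192000 (.pos 69 .pp ⟨⟨0, 0, 0, 0, 0, 0, 18422204, 0, 0, ⟨0, 0⟩, 0⟩, 3628831, 0⟩ 0 0) (.pos 69 .pp ⟨⟨0, 0, 0, 0, 0, 0, 13556633, 0, 0, ⟨0, 0⟩, 0⟩, 3917557, 0⟩ 0 0)) (.void 70 ⟨⟨0, 0, 0, 0, 0, 0, 0, 0, 0, ⟨0, 0⟩, 0⟩, 100000, 0⟩ 0 0)))) (.cut .v 24117248 (.pos 63 .pp ⟨⟨0, 0, 0, 0, 0, 0, 29176625, 0, 0, ⟨0, 0⟩, 0⟩, 0, 0⟩ 0 0) (.cut .d 1381056 (.cut .s 8192000 (.pos 64 .pp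 ⟨⟨0, 0, 0, 0, 0, 0, 68750843, 0, 0, ⟨0, 0⟩, 0⟩, 0, 0⟩ 0 0) (.cut .l 203547 (.pos 64 .pp ⟨⟨0, 0, 0, 0, 0, 0, 24440049, 0, 0, ⟨0, 0⟩, 0⟩, 3576053, 0⟩ 0 0) (.cut .l 210332 (.pos 64 .pp ⟨⟨0, 0, 0, 0, 0, 0, 24055522, 0, 0, ⟨0, 0⟩, 0⟩, 3603395, 0⟩ 0 0) (.cut .v 24641536 (.cut .d 1318281 (.cut .d 1286893 (.pos 69 .pp ⟨⟨0, 0, 0, 0, 0, 0, 16289306, 0, 0, ⟨0, 0⟩, 0⟩, 3682108, 0⟩ 0 0) (.pos 69 .pp ⟨⟨0, 0, 0, 0, 0, 0, 17826568, 0, 0, ⟨0, 0⟩, 0⟩, 3535779, 0⟩ 0 0)) (.pos 69 .pp ⟨⟨0, 0, 0, 0, 0, 0, 33820782, 0, 0, ⟨0, 0⟩, 0⟩, 0, 0⟩ 0 0)) (.cut .l 213724 (.pos 70 .pp ⟨⟨0, 0, 0, 0, 0, 0, 22718924, 0, 0, ⟨0, 0⟩, 0⟩, 3858511, 0⟩ 0 0) (.cut .d 1318281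 (.cut .s 8257536 (.pos 70 .pp ⟨⟨0, 0, 0, 0, 0, 0, 20077608, 0, 0, ⟨0, 0⟩, 0⟩, 3846533, 0⟩ 0 0) (.pos 70 .pp ⟨⟨0, 0, 0, 0, 0, 0, 16794044, 0, 0, ⟨0, 0⟩, 0⟩, 4067073, 0⟩ 0 0)) (.cut .v 24903680 (.pos 73 .pp ⟨⟨0, 0, 0, 0, 0, 0, 22003784, 0, 0, ⟨0, 0⟩, 0⟩, 3604200, 0⟩ 0 0) (.cut .s 8257536 (.void 74 ⟨⟨0, 0, 0, 0, 0, 0, 100000, 0, 0, ⟨0, 0⟩, 0⟩, 0, 0⟩ 0 0) (.pos 74 .pp ⟨⟨0, 0, 0, 0, 0, 0, 21394614, 0, 0, ⟨0, 0⟩, 0⟩, 3912396, 0⟩ 0 0))))))))) (.pos 64 .pp ⟨⟨0, 0, 0, 0, 0, 0, 71501974, 0, 0, ⟨0, 0⟩, 0⟩, 0, 0⟩ 0 0))))) (.cut .d 1255506 (.pos 58 .pp ⟨⟨0, 0, 0, 0, 0, 0, 270863, 0, 0, ⟨0, 0⟩, 0⟩, 5044657, 0⟩ 0 0) (.cut .d 1381056 (.cut .v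 24117248 (.pos 63 .pp ⟨⟨0, 0, 0, 0, 0, 0, 2150516, 0, 0, ⟨0, 0⟩, 0⟩, 0, 0⟩ 0 0) (.pos 64 .pp ⟨⟨0, 0, 0, 0, 0, 0, 15048985, 0, 0, ⟨0, 0⟩, 0⟩, 4109319, 0⟩ 0 0)) (.pos 58 .pp ⟨⟨0, 0, 0, 0, 0, 0, 38482520, 0, 0, ⟨0, 0⟩, 0⟩, 0, 0⟩ 0 0))))))) (.pos 20 .pp ⟨⟨0, 0, 0, 0, 0, 0, 52043257, 0, 0, ⟨0, 0⟩, 0⟩, 0, 0⟩ 0 0)))) (.cut .d 1004405 (.void 18 ⟨⟨0, 0, 0, 0, 0, 0, 0, 0, 0, ⟨0, 0⟩, 0⟩, 100000, 0⟩ 0 0) (.cut .v 29360128 (.cut .v 27262976 (.cut .s 8323072 (.void 79 ⟨⟨0, 0, 0, 0, 0, 0, 100000, 0, 0, ⟨0, 0⟩, 0⟩, 0, 0⟩ 0 0) (.cut .l 108558 (.void 79 ⟨⟨0, 0, 0, 0, 0, 0, 0, 0, 0, ⟨0, 0⟩, 0⟩, 15192, 84808⟩ 0 0) (.cut .l 162837 (.void 79 ⟨⟨0, 0,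 0, 0, 0, 0, 100000, 0, 0, ⟨0, 0⟩, 0⟩, 0, 0⟩ 0 0) (.cut .d 1506607 (.cut .v 26214400 (.cut .d 1255506 (.void 81 ⟨⟨0, 0, 0, 0, 0, 0, 0, 0, 0, ⟨0, 0⟩, 0⟩, 100000, 0⟩ 0 0) (.cut .s 8454144 (.cut .l 189977 (.void 81 ⟨⟨0, 0, 0, 0, 0, 0, 100000, 0, 0, ⟨0, 0⟩, 0⟩, 0, 0⟩ 0 0) (.cut .l 203547 (.pos 81 .pp ⟨⟨0, 0, 0, 0, 0, 0, 26463487, 0, 0, ⟨0, 0⟩, 0⟩, 4418192, 0⟩ 0 0) (.cut .l 210332 (.pos 81 .pp ⟨⟨0, 0, 0, 0, 0, 0, 26169181, 0, 0, ⟨0, 0⟩, 0⟩, 4438253, 0⟩ 0 0) (.cut .d 1381056 (.cut .v 25690112 (.pos 83 .pp ⟨⟨0, 0, 0, 0, 0, 0, 16355288, 0, 0, ⟨0, 0⟩, 0⟩, 4479039, 0⟩ 0 0) (.void 84 ⟨⟨0, 0, 0, 0, 0, 0, 0, 0, 0, ⟨0, 0⟩, 0⟩, 100000, 0⟩ 0 0))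 (.cut .l 213724 (.pos 81 .pp ⟨⟨0, 0, 0, 0, 0, 0, 27162063, 0, 0, ⟨0, 0⟩, 0⟩, 4194469, 0⟩ 0 0) (.cut .v 25690112 (.cut .s 8388608 (.cut .d 1443831 (.pos 83 .pp ⟨⟨0, 0, 0, 0, 0, 0, 24391382, 0, 0, ⟨0, 0⟩, 0⟩, 4063273, 0⟩ 0 0) (.pos 83 .pp ⟨⟨0, 0, 0, 0, 0, 0, 80659335, 0, 0, ⟨0, 0⟩, 0⟩, 0, 0⟩ 0 0)) (.pos 83 .pp ⟨⟨0, 0, 0, 0, 0, 0, 19034990, 0, 0, ⟨0, 0⟩, 0⟩, 4287716, 0⟩ 0 0)) (.cut .d 1443831 (.pos 84 .pp ⟨⟨0, 0, 0, 0, 0, 0, 24616746, 0, 0, ⟨0, 0⟩, 0⟩, 4661111, 0⟩ 0 0) (.pos 84 .pp ⟨⟨0, 0, 0, 0, 0, 0, 26842640, 0, 0, ⟨0, 0⟩, 0⟩, 4298648, 0⟩ 0 0)))))))) (.pos 81 .pp ⟨⟨0, 0, 0, 0, 0, 0, 14343978, 0, 0, ⟨0, 0⟩, 0⟩, 4923197, 0⟩ 0 0)))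 (.pos 82 .pp ⟨⟨0, 0, 0, 0, 0, 0, 0, 0, 0, ⟨0, 0⟩, 0⟩, 12259181, 0⟩ 0 0)) (.cut .v 26214400 (.pos 81 .pp ⟨⟨0, 0, 0, 0, 0, 0, 34691998, 0, 0, ⟨0, 0⟩, 0⟩, 3408859, 0⟩ 0 0) (.cut .d 1757708 (.cut .d 1632157 (.cut .v 26738688 (.pos 89 .pp ⟨⟨0, 0, 0, 0, 0, 0, 28357526, 0, 0, ⟨0, 0⟩, 0⟩, 4447826, 0⟩ 0 0) (.pos 90 .pp ⟨⟨0, 0, 0, 0, 0, 0, 31420779, 0, 0, ⟨0, 0⟩, 0⟩, 5307662, 0⟩ 0 0)) (.pos 82 .pp ⟨⟨0, 0, 0, 0, 0, 0, 38802452, 0, 0, ⟨0, 0⟩, 0⟩, 4054073, 0⟩ 0 0)) (.pos 82 .pp ⟨⟨0, 0, 0, 0, 0, 0, 96308678, 0, 0, ⟨0, 0⟩, 0⟩, 0, 0⟩ 0 0))))))) (.void 80 ⟨⟨0, 0, 0, 0, 0, 0, 100000, 0, 0, ⟨0, 0⟩, 0⟩, 0, 0⟩ 0 0)) (.void 78 ⟨⟨0, 0, 0, 0, 0, 0, 0,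 0, 0, ⟨0, 0⟩, 0⟩, 100000, 0⟩ 0 0)))) (.void 16 ⟨⟨0, 0, 0, 0, 0, 0, 37699, 0, 0, ⟨0, 0⟩, 0⟩, 0, 62301⟩ 0 0)) (.void 16 ⟨⟨0, 0, 0, 0, 0, 0, 0, 0, 0, ⟨0, 0⟩, 0⟩, 0, 100000⟩ 0 0)) (.void 16 ⟨⟨0, 0, 0, 0, 0, 0, 0, 0, 0, ⟨0, 0⟩, 0⟩, 0, 100000⟩ 0 0)))),
    by decide +kernel⟩

def covers10 : cell.Covers Vale.Agent.P237.Petty.Cor.Grid.N17.table row10.1 :=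
  ⟨(.cut .d 0 (.cut .v 16777216 (.cut .d (-8388608) (.void 1 ⟨⟨0, 0, 0, 0, 0, 100000, 0, 0, 0, ⟨0, 0⟩, 0⟩, 0, 0⟩ 0 0) (.cut .d (-4194304) (.void 1 ⟨⟨0, 0, 0, 0, 0, 100000, 0, 0, 0, ⟨0, 0⟩, 0⟩, 0, 0⟩ 0 0) (.cut .d (-2097152) (.void 1 ⟨⟨0, 0, 0, 0, 0, 100000, 0, 0, 0, ⟨0, 0⟩, 0⟩, 0, 0⟩ 0 0) (.cut .d (-1048576) (.void 1 ⟨⟨0, 0, 0, 0, 0, 100000, 0, 0, 0, ⟨0, 0⟩, 0⟩, 0, 0⟩ 0 0) (.cut .d (-524288) (.void 1 ⟨⟨0, 0, 0, 0, 0, 100000, 0, 0, 0, ⟨0, 0⟩, 0⟩, 0, 0⟩ 0 0) (.cut .d (-262144) (.void 1 ⟨⟨0, 0, 0, 0, 0, 100000, 0, 0, 0, ⟨0, 0⟩, 0⟩, 0, 0⟩ 0 0) (.cut .d (-131072) (.void 1 ⟨⟨0, 0, 0, 0, 0, 100000, 0, 0, 0, ⟨0, 0⟩, 0⟩, 0, 0⟩ 0 0) (.cut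 .d (-65536) (.void 1 ⟨⟨0, 0, 0, 0, 0, 100000, 0, 0, 0, ⟨0, 0⟩, 0⟩, 0, 0⟩ 0 0) (.cut .d (-32768) (.void 1 ⟨⟨0, 0, 0, 0, 0, 100000, 0, 0, 0, ⟨0, 0⟩, 0⟩, 0, 0⟩ 0 0) (.cut .v 8388608 (.cut .v 4194304 (.void 4 ⟨⟨0, 0, 100000, 0, 0, 0, 0, 0, 0, ⟨0, 0⟩, 0⟩, 0, 0⟩ 0 0) (.pos 5 .mm ⟨⟨0, 0, 0, 0, 0, 28835097, 0, 0, 0, ⟨0, 0⟩, 0⟩, 0, 0⟩ 0 0)) (.cut .s 8814592 (.pos 3 .mm ⟨⟨0, 0, 0, 0, 0, 67016993, 0, 0, 0, ⟨0, 0⟩, 0⟩, 0, 0⟩ 0 0) (.pos 3 .mm ⟨⟨0, 0, 0, 0, 0, 75766616, 0, 0, 0, ⟨0, 0⟩, 0⟩, 0, 0⟩ 0 0)))))))))))) (.cut .v 25165824 (.cut .d (-8388608) (.void 17 ⟨⟨0, 0, 0, 0, 0, 100000, 0, 0, 0, ⟨0, 0⟩, 0⟩, 0, 0⟩ 0 0) (.cut .v 20971520 (.cut .d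 (-4194304) (.void 19 ⟨⟨0, 0, 0, 0, 0, 100000, 0, 0, 0, ⟨0, 0⟩, 0⟩, 0, 0⟩ 0 0) (.cut .d (-2097152) (.void 19 ⟨⟨0, 0, 0, 0, 0, 100000, 0, 0, 0, ⟨0, 0⟩, 0⟩, 0, 0⟩ 0 0) (.cut .d (-1048576) (.void 19 ⟨⟨0, 0, 0, 0, 0, 100000, 0, 0, 0, ⟨0, 0⟩, 0⟩, 0, 0⟩ 0 0) (.cut .d (-524288) (.void 19 ⟨⟨0, 0, 0, 0, 0, 100000, 0, 0, 0, ⟨0, 0⟩, 0⟩, 0, 0⟩ 0 0) (.cut .v 18874368 (.cut .d (-262144) (.void 21 ⟨⟨0, 0, 0, 0, 0, 100000, 0, 0, 0, ⟨0, 0⟩, 0⟩, 0, 0⟩ 0 0) (.cut .d (-131072) (.void 21 ⟨⟨0, 0, 0, 0, 0, 100000, 0, 0, 0, ⟨0, 0⟩, 0⟩, 0, 0⟩ 0 0) (.cut .d (-65536) (.void 21 ⟨⟨0, 0, 0, 0, 0, 100000, 0, 0, 0, ⟨0, 0⟩, 0⟩, 0, 0⟩ 0 0) (.cut .d (-32768) (.void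 21 ⟨⟨0, 0, 0, 0, 0, 100000, 0, 0, 0, ⟨0, 0⟩, 0⟩, 0, 0⟩ 0 0) (.cut .v 17825792 (.cut .v 17301504 (.cut .v 17039360 (.cut .v 16908288 (.cut .v 16842752 (.cut .s 8814592 (.cut .s 8699904 (.pos 33 .mp ⟨⟨35079638, 0, 0, 0, 0, 23395997, 0, 0, 0, ⟨0, 0⟩, 0⟩, 0, 0⟩ 0 0) (.cut .s 8757248 (.pos 33 .mp ⟨⟨37215704, 0, 0, 0, 0, 23565337, 0, 0, 0, ⟨0, 0⟩, 0⟩, 0, 0⟩ 0 0) (.pos 33 .mp ⟨⟨37036766, 0, 0, 0, 0, 25687350, 0, 0, 0, ⟨0, 0⟩, 0⟩, 0, 0⟩ 0 0))) (.cut .s 8929280 (.cut .s 8871936 (.pos 33 .mp ⟨⟨36785596, 0, 0, 0, 0, 28054725, 0, 0, 0, ⟨0, 0⟩, 0⟩, 0, 0⟩ 0 0) (.cut .s 8900608 (.pos 33 .mp ⟨⟨38576520, 0, 0, 0, 0, 27532685, 0, 0, 0, ⟨0, 0⟩,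 0⟩, 0, 0⟩ 0 0) (.pos 33 .mp ⟨⟨38563169, 0, 0, 0, 0, 28674936, 0, 0, 0, ⟨0, 0⟩, 0⟩, 0, 0⟩ 0 0))) (.cut .s 8986624 (.cut .s 8957952 (.pos 33 .mp ⟨⟨38558700, 0, 0, 0, 0, 29851873, 0, 0, 0, ⟨0, 0⟩, 0⟩, 0, 0⟩ 0 0) (.cut .s 8972288 (.pos 33 .mp ⟨⟨39633732, 0, 0, 0, 0, 29429976, 0, 0, 0, ⟨0, 0⟩, 0⟩, 0, 0⟩ 0 0) (.pos 33 .mp ⟨⟨39651921, 0, 0, 0, 0, 30014511, 0, 0, 0, ⟨0, 0⟩, 0⟩, 0, 0⟩ 0 0))) (.cut .s 9015296 (.cut .s 9000960 (.pos 33 .mp ⟨⟨39678744, 0, 0, 0, 0, 30596022, 0, 0, 0, ⟨0, 0⟩, 0⟩, 0, 0⟩ 0 0) (.pos 33 .mp ⟨⟨40045144, 0, 0, 0, 0, 30781337, 0, 0, 0, ⟨0, 0⟩, 0⟩, 0, 0⟩ 0 0)) (.cut .d (-16384) (.pos 33 .mp ⟨⟨39821468, 0, 0, 0, 0,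 32735944, 0, 0, 0, ⟨0, 0⟩, 0⟩, 0, 0⟩ 0 0) (.cut .s 9029632 (.pos 33 .mp ⟨⟨39930206, 0, 0, 0, 0, 31514429, 0, 0, 0, ⟨0, 0⟩, 0⟩, 0, 0⟩ 0 0) (.pos 33 .mp ⟨⟨40314407, 0, 0, 0, 0, 31662087, 0, 0, 0, ⟨0, 0⟩, 0⟩, 0, 0⟩ 0 0))))))) (.pos 34 .mp ⟨⟨63583337, 0, 0, 0, 0, 0, 0, 0, 0, ⟨0, 0⟩, 0⟩, 0, 0⟩ 0 0)) (.pos 30 .mp ⟨⟨66157943, 0, 0, 0, 0, 0, 0, 0, 0, ⟨0, 0⟩, 0⟩, 0, 0⟩ 0 0)) (.void 28 ⟨⟨100000, 0, 0, 0, 0, 0, 0, 0, 0, ⟨0, 0⟩, 0⟩, 0, 0⟩ 0 0)) (.void 26 ⟨⟨100000, 0, 0, 0, 0, 0, 0, 0, 0, ⟨0, 0⟩, 0⟩, 0, 0⟩ 0 0)) (.void 24 ⟨⟨100000, 0, 0, 0, 0, 0, 0, 0, 0, ⟨0, 0⟩, 0⟩, 0, 0⟩ 0 0)))))) (.void 22 ⟨⟨100000, 0, 0, 0, 0, 0, 0, 0, 0, ⟨0, 0⟩, 0⟩, 0,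 0⟩ 0 0)))))) (.void 20 ⟨⟨100000, 0, 0, 0, 0, 0, 0, 0, 0, ⟨0, 0⟩, 0⟩, 0, 0⟩ 0 0))) (.void 18 ⟨⟨100000, 0, 0, 0, 0, 0, 0, 0, 0, ⟨0, 0⟩, 0⟩, 0, 0⟩ 0 0))) (.cut .v 16777216 (.cut .d 8004398 (.cut .v 8388608 (.cut .v 4194304 (.void 4 ⟨⟨0, 0, 66667, 0, 0, 0, 0, 0, 0, ⟨0, 0⟩, 0⟩, 0, 33333⟩ 0 0) (.pos 5 .pm ⟨⟨0, 0, 0, 0, 0, 0, 0, 0, 0, ⟨0, 0⟩, 0⟩, 0, 0⟩ 0 0)) (.pos 3 .pm ⟨⟨0, 0, 0, 0, 0, 0, 0, 0, 0, ⟨0, 0⟩, 0⟩, 0, 0⟩ 0 0)) (.void 1 ⟨⟨0, 0, 0, 0, 0, 0, 0, 0, 0, ⟨0, 0⟩, 0⟩, 0, 100000⟩ 0 0)) (.cut .d 8004398 (.cut .d 4002199 (.cut .v 25165824 (.cut .d 2001099 (.cut .v 20971520 (.cut .d 1000549 (.cut .d 500274 (.cut .v 18874368 (.cut .s 8814592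 (.pos 21 .pp ⟨⟨36010922, 0, 0, 0, 0, 0, 0, 0, 0, ⟨0, 0⟩, 0⟩, 1151665, 0⟩ 0 0) (.pos 21 .pp ⟨⟨36736223, 0, 0, 0, 0, 0, 0, 0, 0, ⟨0, 0⟩, 0⟩, 1830403, 0⟩ 0 0)) (.pos 22 .pp ⟨⟨70872190, 0, 0, 0, 0, 0, 0, 0, 0, ⟨0, 0⟩, 0⟩, 0, 0⟩ 0 0)) (.pos 19 .pp ⟨⟨41624879, 0, 0, 0, 0, 0, 0, 0, 0, ⟨0, 0⟩, 0⟩, 0, 326772⟩ 0 0)) (.pos 19 .pp ⟨⟨0, 0, 0, 0, 0, 0, 0, 0, 0, ⟨0, 0⟩, 0⟩, 0, 822564⟩ 0 0)) (.cut .d 1000549 (.cut .d 500274 (.void 20 ⟨⟨100000, 0, 0, 0, 0, 0, 0, 0, 0, ⟨0, 0⟩, 0⟩, 0, 0⟩ 0 0) (.cut .v 23068672 (.pos 57 .pp ⟨⟨0, 0, 0, 0, 0, 0, 512860, 0, 0, ⟨0, 0⟩, 0⟩, 5607494, 0⟩ 0 0) (.pos 58 .pp ⟨⟨0, 0, 0, 0, 0, 0, 0, 0, 0, ⟨0, 0⟩, 0⟩, 7418454,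 0⟩ 0 0))) (.pos 20 .pp ⟨⟨0, 0, 0, 0, 0, 0, 707665, 0, 0, ⟨0, 0⟩, 0⟩, 4533633, 0⟩ 0 0))) (.pos 17 .pp ⟨⟨0, 0, 0, 0, 0, 0, 0, 0, 0, ⟨0, 0⟩, 0⟩, 0, 46698542⟩ 0 0)) (.cut .l 108558 (.void 18 ⟨⟨0, 0, 0, 0, 0, 0, 100000, 0, 0, ⟨0, 0⟩, 0⟩, 0, 0⟩ 0 0) (.cut .d 2001099 (.cut .d 1000549 (.void 18 ⟨⟨0, 0, 0, 0, 0, 0, 0, 0, 0, ⟨0, 0⟩, 0⟩, 100000, 0⟩ 0 0) (.cut .v 29360128 (.cut .d 1500824 (.cut .v 27262976 (.pos 79 .pp ⟨⟨0, 0, 0, 0, 0, 0, 54275, 0, 0, ⟨0, 0⟩, 0⟩, 6553636, 0⟩ 0 0) (.pos 80 .pp ⟨⟨0, 0, 0, 0, 0, 0, 0, 0, 0, ⟨0, 0⟩, 0⟩, 18119622, 0⟩ 0 0)) (.cut .s 8814592 (.cut .l 162837 (.pos 77 .pp ⟨⟨0, 0, 0, 0, 0, 0, 119389022, 0, 0, ⟨0, 0⟩,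 0⟩, 0, 0⟩ 0 0) (.cut .l 189977 (.pos 77 .pp ⟨⟨0, 0, 0, 0, 0, 0, 46072170, 0, 0, ⟨0, 0⟩, 0⟩, 4770186, 0⟩ 0 0) (.cut .v 27262976 (.cut .d 1750961 (.pos 79 .pp ⟨⟨0, 0, 0, 0, 0, 0, 12211761, 0, 0, ⟨0, 0⟩, 0⟩, 5340687, 0⟩ 0 0) (.pos 79 .pp ⟨⟨0, 0, 0, 0, 0, 0, 58233564, 0, 0, ⟨0, 0⟩, 0⟩, 0, 0⟩ 0 0)) (.cut .d 1750961 (.cut .v 28311552 (.pos 91 .pp ⟨⟨0, 0, 0, 0, 0, 0, 25511169, 0, 0, ⟨0, 0⟩, 0⟩, 5874345, 0⟩ 0 0) (.pos 92 .pp ⟨⟨0, 0, 0, 0, 0, 0, 0, 0, 0, ⟨0, 0⟩, 0⟩, 16111987, 0⟩ 0 0)) (.pos 80 .pp ⟨⟨0, 0, 0, 0, 0, 0, 42147706, 0, 0, ⟨0, 0⟩, 0⟩, 5165718, 0⟩ 0 0))))) (.pos 77 .pp ⟨⟨0, 0, 0, 0, 0, 0, 105484, 0, 0, ⟨0, 0⟩, 0⟩, 6976957, 0⟩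 0 0))) (.cut .s 8814592 (.pos 78 .pp ⟨⟨0, 0, 0, 0, 0, 0, 65991753, 0, 0, ⟨0, 0⟩, 0⟩, 7737661, 0⟩ 0 0) (.pos 78 .pp ⟨⟨0, 0, 0, 0, 0, 0, 32859537, 0, 0, ⟨0, 0⟩, 0⟩, 9945942, 0⟩ 0 0)))) (.cut .v 29360128 (.pos 77 .pp ⟨⟨0, 0, 0, 0, 0, 0, 82983896, 0, 0, ⟨0, 0⟩, 0⟩, 0, 0⟩ 0 0) (.cut .d 3001649 (.cut .v 31457280 (.pos 93 .pp ⟨⟨0, 0, 0, 0, 0, 0, 59604499, 0, 0, ⟨0, 0⟩, 0⟩, 4722716, 0⟩ 0 0) (.pos 94 .pp ⟨⟨0, 0, 0, 0, 0, 0, 76292592, 0, 0, ⟨0, 0⟩, 0⟩, 6881347, 0⟩ 0 0)) (.void 78 ⟨⟨0, 0, 0, 0, 0, 0, 0, 0, 0, ⟨0, 0⟩, 0⟩, 0, 100000⟩ 0 0)))))) (.void 16 ⟨⟨0, 0, 0, 0, 0, 0, 0, 0, 0, ⟨0, 0⟩, 0⟩, 0, 100000⟩ 0 0)) (.void 16 ⟨⟨0, 0, 0, 0, 0, 0,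 0, 0, 0, ⟨0, 0⟩, 0⟩, 0, 100000⟩ 0 0)))),
    by decide +kernel⟩

def covers11 : cell.Covers Vale.Agent.P237.Petty.Cor.Grid.N17.table row11.1 :=
  ⟨(.cut .d 0 (.cut .v 16777216 (.cut .d (-8388608) (.void 1 ⟨⟨0, 0, 0, 0, 0, 100000, 0, 0, 0, ⟨0, 0⟩, 0⟩, 0, 0⟩ 0 0) (.cut .d (-4194304) (.void 1 ⟨⟨0, 0, 0, 0, 0, 100000, 0, 0, 0, ⟨0, 0⟩, 0⟩, 0, 0⟩ 0 0) (.cut .d (-2097152) (.void 1 ⟨⟨0, 0, 0, 0, 0, 100000, 0, 0, 0, ⟨0, 0⟩, 0⟩, 0, 0⟩ 0 0) (.cut .d (-1048576) (.void 1 ⟨⟨0, 0, 0, 0, 0, 100000, 0, 0, 0, ⟨0, 0⟩, 0⟩, 0, 0⟩ 0 0) (.cut .d (-524288) (.void 1 ⟨⟨0, 0, 0, 0, 0, 100000, 0, 0, 0, ⟨0, 0⟩, 0⟩, 0, 0⟩ 0 0) (.cut .d (-262144) (.void 1 ⟨⟨0,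 0, 0, 0, 0, 100000, 0, 0, 0, ⟨0, 0⟩, 0⟩, 0, 0⟩ 0 0) (.cut .d (-131072) (.void 1 ⟨⟨0, 0, 0, 0, 0, 100000, 0, 0, 0, ⟨0, 0⟩, 0⟩, 0, 0⟩ 0 0) (.cut .d (-65536) (.void 1 ⟨⟨0, 0, 0, 0, 0, 100000, 0, 0, 0, ⟨0, 0⟩, 0⟩, 0, 0⟩ 0 0) (.cut .d (-32768) (.void 1 ⟨⟨0, 0, 0, 0, 0, 100000, 0, 0, 0, ⟨0, 0⟩, 0⟩, 0, 0⟩ 0 0) (.cut .v 8388608 (.cut .v 4194304 (.void 4 ⟨⟨0, 0, 100000, 0, 0, 0, 0, 0, 0, ⟨0, 0⟩, 0⟩, 0, 0⟩ 0 0) (.pos 5 .mm ⟨⟨0, 0, 81115, 0, 0, 38486307, 0, 0, 0, ⟨0, 0⟩, 0⟩, 0, 0⟩ 0 0)) (.cut .v 12582912 (.pos 8 .mm ⟨⟨0, 0, 0, 0, 0, 55743290, 0, 0, 0, ⟨0, 0⟩, 0⟩, 0, 0⟩ 0 0) (.cut .v 14680064 (.pos 12 .mm ⟨⟨0, 0, 0, 0, 0, 65184677, 0, 0,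 0, ⟨0, 0⟩, 0⟩, 0, 0⟩ 0 0) (.cut .v 15728640 (.pos 14 .mm ⟨⟨0, 0, 0, 0, 0, 70118734, 0, 0, 0, ⟨0, 0⟩, 0⟩, 0, 0⟩ 0 0) (.cut .v 16252928 (.pos 31 .mm ⟨⟨0, 0, 0, 0, 0, 72868134, 0, 0, 0, ⟨0, 0⟩, 0⟩, 0, 0⟩ 0 0) (.cut .v 16515072 (.pos 39 .mm ⟨⟨0, 0, 0, 0, 0, 87439673, 0, 0, 0, ⟨0, 0⟩, 0⟩, 0, 0⟩ 0 0) (.cut .v 16646144 (.pos 41 .mm ⟨⟨0, 0, 0, 0, 0, 92608713, 0, 0, 0, ⟨0, 0⟩, 0⟩, 0, 0⟩ 0 0) (.cut .v 16711680 (.pos 43 .mm ⟨⟨0, 0, 0, 0, 0, 95230495, 0, 0, 0, ⟨0, 0⟩, 0⟩, 0, 0⟩ 0 0) (.cut .s 9306112 (.cut .s 9175040 (.pos 44 .mm ⟨⟨0, 0, 0, 0, 0, 84424041, 0, 0, 0, ⟨0, 0⟩, 0⟩, 0, 0⟩ 0 0) (.pos 44 .mm ⟨⟨0, 0, 0, 0, 0, 91998023, 0, 0, 0, ⟨0,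 0⟩, 0⟩, 0, 0⟩ 0 0)) (.cut .s 9437184 (.pos 44 .mm ⟨⟨0, 0, 0, 0, 0, 100442779, 0, 0, 0, ⟨0, 0⟩, 0⟩, 0, 0⟩ 0 0) (.pos 44 .mm ⟨⟨0, 0, 0, 0, 0, 109776108, 0, 0, 0, ⟨0, 0⟩, 0⟩, 0, 0⟩ 0 0)))))))))))))))))))) (.cut .v 33554432 (.cut .v 25165824 (.cut .d (-8388608) (.void 17 ⟨⟨0, 0, 0, 0, 0, 100000, 0, 0, 0, ⟨0, 0⟩, 0⟩, 0, 0⟩ 0 0) (.cut .v 20971520 (.cut .d (-4194304) (.void 19 ⟨⟨0, 0, 0, 0, 0, 100000, 0, 0, 0, ⟨0, 0⟩, 0⟩, 0, 0⟩ 0 0) (.cut .v 18874368 (.cut .d (-2097152) (.void 21 ⟨⟨100000, 0, 0, 0, 0, 0, 0, 0, 0, ⟨0, 0⟩, 0⟩, 0, 0⟩ 0 0) (.cut .d (-1048576) (.void 21 ⟨⟨100000, 0, 0, 0, 0, 0, 0, 0, 0, ⟨0, 0⟩, 0⟩, 0, 0⟩ 0 0) (.cut .d (-524288)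 (.void 21 ⟨⟨100000, 0, 0, 0, 0, 0, 0, 0, 0, ⟨0, 0⟩, 0⟩, 0, 0⟩ 0 0) (.cut .d (-262144) (.void 21 ⟨⟨100000, 0, 0, 0, 0, 0, 0, 0, 0, ⟨0, 0⟩, 0⟩, 0, 0⟩ 0 0) (.cut .d (-131072) (.void 21 ⟨⟨100000, 0, 0, 0, 0, 0, 0, 0, 0, ⟨0, 0⟩, 0⟩, 0, 0⟩ 0 0) (.cut .d (-65536) (.void 21 ⟨⟨0, 0, 0, 0, 0, 100000, 0, 0, 0, ⟨0, 0⟩, 0⟩, 0, 0⟩ 0 0) (.cut .d (-32768) (.void 21 ⟨⟨0, 0, 0, 0, 0, 100000, 0, 0, 0, ⟨0, 0⟩, 0⟩, 0, 0⟩ 0 0) (.cut .v 17825792 (.cut .v 17301504 (.cut .v 17039360 (.cut .v 16908288 (.cut .s 9306112 (.cut .v 16842752 (.cut .s 9175040 (.cut .s 9109504 (.cut .s 9076736 (.cut .d (-16384) (.cut .s 9060352 (.pos 33 .mp ⟨⟨40209257, 0, 0, 0,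 0, 33104978, 0, 0, 0, ⟨0, 0⟩, 0⟩, 0, 0⟩ 0 0) (.pos 33 .mp ⟨⟨40554840, 0, 0, 0, 0, 33507032, 0, 0, 0, ⟨0, 0⟩, 0⟩, 0, 0⟩ 0 0)) (.cut .v 16809984 (.cut .l 108558 (.cut .d (-8192) (.pos 45 .mp ⟨⟨40300320, 0, 0, 0, 0, 33419516, 0, 0, 0, ⟨0, 0⟩, 0⟩, 0, 0⟩ 0 0) (.cut .v 16793600 (.cut .l 54279 (.cut .d (-4096) (.pos 49 .mp ⟨⟨40446800, 0, 0, 0, 0, 33080149, 0, 0, 0, ⟨0, 0⟩, 0⟩, 0, 0⟩ 0 0) (.cut .s 9060352 (.pos 49 .mp ⟨⟨40109900, 0, 0, 0, 0, 32545967, 0, 0, 0, ⟨0, 0⟩, 0⟩, 0, 0⟩ 0 0) (.cut .s 9068544 (.pos 49 .mp ⟨⟨40732817, 0, 0, 0, 0, 32465880, 0, 0, 0, ⟨0, 0⟩, 0⟩, 0, 0⟩ 0 0) (.pos 49 .mp ⟨⟨40914695, 0, 0, 0, 0, 32641467, 0, 0, 0, ⟨0,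 0⟩, 0⟩, 0, 0⟩ 0 0)))) (.pos 49 .mp ⟨⟨40434409, 0, 0, 0, 0, 31641166, 0, 0, 0, ⟨0, 0⟩, 0⟩, 0, 0⟩ 0 0)) (.pos 50 .mp ⟨⟨65455115, 0, 0, 0, 0, 0, 0, 0, 0, ⟨0, 0⟩, 0⟩, 0, 0⟩ 0 0))) (.pos 45 .mp ⟨⟨40545926, 0, 0, 0, 0, 31586130, 0, 0, 0, ⟨0, 0⟩, 0⟩, 0, 0⟩ 0 0)) (.pos 46 .mp ⟨⟨65527332, 0, 0, 0, 0, 0, 0, 0, 0, ⟨0, 0⟩, 0⟩, 0, 0⟩ 0 0))) (.cut .d (-16384) (.cut .s 9093120 (.pos 33 .mp ⟨⟨40265325, 0, 0, 0, 0, 35027095, 0, 0, 0, ⟨0, 0⟩, 0⟩, 0, 0⟩ 0 0) (.pos 33 .mp ⟨⟨40697090, 0, 0, 0, 0, 35312173, 0, 0, 0, ⟨0, 0⟩, 0⟩, 0, 0⟩ 0 0)) (.cut .v 16809984 (.cut .l 108558 (.cut .s 9093120 (.cut .s 9084928 (.pos 45 .mp ⟨⟨41223742, 0, 0, 0, 0, 32643618,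 0, 0, 0, ⟨0, 0⟩, 0⟩, 0, 0⟩ 0 0) (.pos 45 .mp ⟨⟨41443517, 0, 0, 0, 0, 32785353, 0, 0, 0, ⟨0, 0⟩, 0⟩, 0, 0⟩ 0 0)) (.cut .s 9101312 (.pos 45 .mp ⟨⟨41664305, 0, 0, 0, 0, 32928671, 0, 0, 0, ⟨0, 0⟩, 0⟩, 0, 0⟩ 0 0) (.pos 45 .mp ⟨⟨41886110, 0, 0, 0, 0, 33073566, 0, 0, 0, ⟨0, 0⟩, 0⟩, 0, 0⟩ 0 0))) (.pos 45 .mp ⟨⟨41418518, 0, 0, 0, 0, 32178140, 0, 0, 0, ⟨0, 0⟩, 0⟩, 0, 0⟩ 0 0)) (.pos 46 .mp ⟨⟨66724160, 0, 0, 0, 0, 0, 0, 0, 0, ⟨0, 0⟩, 0⟩, 0, 0⟩ 0 0)))) (.cut .s 9142272 (.cut .d (-16384) (.cut .s 9125888 (.pos 33 .mp ⟨⟨41132790, 0, 0, 0, 0, 35605838, 0, 0, 0, ⟨0, 0⟩, 0⟩, 0, 0⟩ 0 0) (.pos 33 .mp ⟨⟨41572448, 0, 0, 0, 0, 35908160, 0, 0, 0, ⟨0,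 0⟩, 0⟩, 0, 0⟩ 0 0)) (.cut .v 16809984 (.cut .l 108558 (.cut .s 9125888 (.cut .s 9117696 (.pos 45 .mp ⟨⟨42108934, 0, 0, 0, 0, 33220033, 0, 0, 0, ⟨0, 0⟩, 0⟩, 0, 0⟩ 0 0) (.pos 45 .mp ⟨⟨42332781, 0, 0, 0, 0, 33368068, 0, 0, 0, ⟨0, 0⟩, 0⟩, 0, 0⟩ 0 0)) (.cut .s 9134080 (.pos 45 .mp ⟨⟨42557652, 0, 0, 0, 0, 33517666, 0, 0, 0, ⟨0, 0⟩, 0⟩, 0, 0⟩ 0 0) (.cut .s 9138176 (.pos 45 .mp ⟨⟨42777831, 0, 0, 0, 0, 33562691, 0, 0, 0, ⟨0, 0⟩, 0⟩, 0, 0⟩ 0 0) (.pos 45 .mp ⟨⟨42871933, 0, 0, 0, 0, 33661560, 0, 0, 0, ⟨0, 0⟩, 0⟩, 0, 0⟩ 0 0)))) (.pos 45 .mp ⟨⟨42307150, 0, 0, 0, 0, 32788476, 0, 0, 0, ⟨0, 0⟩, 0⟩, 0, 0⟩ 0 0)) (.pos 46 .mp ⟨⟨67960096, 0, 0, 0,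 0, 0, 0, 0, 0, ⟨0, 0⟩, 0⟩, 0, 0⟩ 0 0))) (.cut .d (-16384) (.cut .d (-24576) (.pos 33 .mp ⟨⟨42497926, 0, 0, 0, 0, 36710802, 0, 0, 0, ⟨0, 0⟩, 0⟩, 0, 0⟩ 0 0) (.cut .v 16809984 (.cut .s 9158656 (.pos 45 .mp ⟨⟨41831516, 0, 0, 0, 0, 36182819, 0, 0, 0, ⟨0, 0⟩, 0⟩, 0, 0⟩ 0 0) (.pos 45 .mp ⟨⟨42277403, 0, 0, 0, 0, 36502316, 0, 0, 0, ⟨0, 0⟩, 0⟩, 0, 0⟩ 0 0)) (.pos 46 .mp ⟨⟨50570560, 0, 0, 0, 0, 25572074, 0, 0, 0, ⟨0, 0⟩, 0⟩, 0, 0⟩ 0 0))) (.cut .v 16809984 (.cut .l 108558 (.cut .s 9158656 (.cut .d (-8192) (.pos 45 .mp ⟨⟨42039220, 0, 0, 0, 0, 35993912, 0, 0, 0, ⟨0, 0⟩, 0⟩, 0, 0⟩ 0 0) (.cut .s 9150464 (.pos 45 .mp ⟨⟨42740273, 0, 0, 0, 0, 34126347,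 0, 0, 0, ⟨0, 0⟩, 0⟩, 0, 0⟩ 0 0) (.pos 45 .mp ⟨⟨42966158, 0, 0, 0, 0, 34280306, 0, 0, 0, ⟨0, 0⟩, 0⟩, 0, 0⟩ 0 0))) (.cut .d (-8192) (.pos 45 .mp ⟨⟨42485472, 0, 0, 0, 0, 36313461, 0, 0, 0, ⟨0, 0⟩, 0⟩, 0, 0⟩ 0 0) (.cut .s 9166848 (.pos 45 .mp ⟨⟨43193061, 0, 0, 0, 0, 34436018, 0, 0, 0, ⟨0, 0⟩, 0⟩, 0, 0⟩ 0 0) (.pos 45 .mp ⟨⟨43420987, 0, 0, 0, 0, 34593478, 0, 0, 0, ⟨0, 0⟩, 0⟩, 0, 0⟩ 0 0)))) (.pos 45 .mp ⟨⟨43211996, 0, 0, 0, 0, 33416306, 0, 0, 0, ⟨0, 0⟩, 0⟩, 0, 0⟩ 0 0)) (.pos 46 .mp ⟨⟨69235531, 0, 0, 0, 0, 0, 0, 0, 0, ⟨0, 0⟩, 0⟩, 0, 0⟩ 0 0))))) (.cut .s 9240576 (.cut .s 9207808 (.cut .d (-16384) (.cut .d (-24576) (.pos 33 .mp ⟨⟨43399896,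 0, 0, 0, 0, 37393917, 0, 0, 0, ⟨0, 0⟩, 0⟩, 0, 0⟩ 0 0) (.cut .v 16809984 (.cut .s 9191424 (.pos 45 .mp ⟨⟨42727297, 0, 0, 0, 0, 36830670, 0, 0, 0, ⟨0, 0⟩, 0⟩, 0, 0⟩ 0 0) (.pos 45 .mp ⟨⟨43181222, 0, 0, 0, 0, 37167956, 0, 0, 0, ⟨0, 0⟩, 0⟩, 0, 0⟩ 0 0)) (.pos 46 .mp ⟨⟨51490316, 0, 0, 0, 0, 26190971, 0, 0, 0, ⟨0, 0⟩, 0⟩, 0, 0⟩ 0 0))) (.cut .v 16809984 (.cut .l 108558 (.cut .s 9191424 (.cut .d (-8192) (.pos 45 .mp ⟨⟨42935731, 0, 0, 0, 0, 36641875, 0, 0, 0, ⟨0, 0⟩, 0⟩, 0, 0⟩ 0 0) (.cut .s 9183232 (.pos 45 .mp ⟨⟨43649936, 0, 0, 0, 0, 34752687, 0, 0, 0, ⟨0, 0⟩, 0⟩, 0, 0⟩ 0 0) (.pos 45 .mp ⟨⟨43879913, 0, 0, 0, 0, 34913643, 0, 0, 0, ⟨0, 0⟩,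 0⟩, 0, 0⟩ 0 0))) (.cut .d (-8192) (.pos 45 .mp ⟨⟨43390019, 0, 0, 0, 0, 36979225, 0, 0, 0, ⟨0, 0⟩, 0⟩, 0, 0⟩ 0 0) (.cut .s 9199616 (.pos 45 .mp ⟨⟨44110920, 0, 0, 0, 0, 35076343, 0, 0, 0, ⟨0, 0⟩, 0⟩, 0, 0⟩ 0 0) (.pos 45 .mp ⟨⟨44342960, 0, 0, 0, 0, 35240788, 0, 0, 0, ⟨0, 0⟩, 0⟩, 0, 0⟩ 0 0)))) (.pos 45 .mp ⟨⟨44133235, 0, 0, 0, 0, 34060797, 0, 0, 0, ⟨0, 0⟩, 0⟩, 0, 0⟩ 0 0)) (.pos 46 .mp ⟨⟨70550864, 0, 0, 0, 0, 0, 0, 0, 0, ⟨0, 0⟩, 0⟩, 0, 0⟩ 0 0))) (.cut .d (-16384) (.cut .d (-24576) (.pos 33 .mp ⟨⟨44316940, 0, 0, 0, 0, 38115084, 0, 0, 0, ⟨0, 0⟩, 0⟩, 0, 0⟩ 0 0) (.cut .l 108558 (.void 33 ⟨⟨0, 0, 0, 0, 0, 100000, 0, 0, 0, ⟨0, 0⟩, 0⟩, 0,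 0⟩ 0 0) (.cut .s 9224192 (.pos 33 .mp ⟨⟨43855878, 0, 0, 0, 0, 37267794, 0, 0, 0, ⟨0, 0⟩, 0⟩, 0, 0⟩ 0 0) (.pos 33 .mp ⟨⟨44307707, 0, 0, 0, 0, 37644517, 0, 0, 0, ⟨0, 0⟩, 0⟩, 0, 0⟩ 0 0)))) (.cut .v 16809984 (.cut .l 108558 (.cut .s 9224192 (.cut .d (-8192) (.pos 45 .mp ⟨⟨43848358, 0, 0, 0, 0, 37325585, 0, 0, 0, ⟨0, 0⟩, 0⟩, 0, 0⟩ 0 0) (.cut .v 16793600 (.cut .s 9216000 (.pos 49 .mp ⟨⟨44479676, 0, 0, 0, 0, 35527551, 0, 0, 0, ⟨0, 0⟩, 0⟩, 0, 0⟩ 0 0) (.pos 49 .mp ⟨⟨44713337, 0, 0, 0, 0, 35696123, 0, 0, 0, ⟨0, 0⟩, 0⟩, 0, 0⟩ 0 0)) (.pos 50 .mp ⟨⟨71358841, 0, 0, 0, 0, 0, 0, 0, 0, ⟨0, 0⟩, 0⟩, 0, 0⟩ 0 0))) (.cut .d (-8192) (.pos 45 .mp ⟨⟨44310770,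 0, 0, 0, 0, 37681029, 0, 0, 0, ⟨0, 0⟩, 0⟩, 0, 0⟩ 0 0) (.cut .v 16793600 (.cut .s 9232384 (.pos 49 .mp ⟨⟨44948037, 0, 0, 0, 0, 35866437, 0, 0, 0, ⟨0, 0⟩, 0⟩, 0, 0⟩ 0 0) (.pos 49 .mp ⟨⟨45183779, 0, 0, 0, 0, 36038492, 0, 0, 0, ⟨0, 0⟩, 0⟩, 0, 0⟩ 0 0)) (.pos 50 .mp ⟨⟨72044901, 0, 0, 0, 0, 0, 0, 0, 0, ⟨0, 0⟩, 0⟩, 0, 0⟩ 0 0)))) (.pos 45 .mp ⟨⟨45071047, 0, 0, 0, 0, 34721119, 0, 0, 0, ⟨0, 0⟩, 0⟩, 0, 0⟩ 0 0)) (.pos 46 .mp ⟨⟨71906501, 0, 0, 0, 0, 0, 0, 0, 0, ⟨0, 0⟩, 0⟩, 0, 0⟩ 0 0)))) (.cut .s 9273344 (.cut .d (-16384) (.cut .d (-24576) (.pos 33 .mp ⟨⟨45249211, 0, 0, 0, 0, 38874955, 0, 0, 0, ⟨0, 0⟩, 0⟩, 0, 0⟩ 0 0) (.cut .l 108558 (.void 33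 ⟨⟨0, 0, 0, 0, 0, 100000, 0, 0, 0, ⟨0, 0⟩, 0⟩, 0, 0⟩ 0 0) (.cut .s 9256960 (.pos 33 .mp ⟨⟨44768551, 0, 0, 0, 0, 38019790, 0, 0, 0, ⟨0, 0⟩, 0⟩, 0, 0⟩ 0 0) (.pos 33 .mp ⟨⟨45238585, 0, 0, 0, 0, 38393310, 0, 0, 0, ⟨0, 0⟩, 0⟩, 0, 0⟩ 0 0)))) (.cut .v 16809984 (.cut .l 108558 (.cut .s 9256960 (.cut .d (-8192) (.pos 45 .mp ⟨⟨44777279, 0, 0, 0, 0, 38045630, 0, 0, 0, ⟨0, 0⟩, 0⟩, 0, 0⟩ 0 0) (.cut .v 16793600 (.cut .l 54279 (.cut .d (-4096) (.pos 49 .mp ⟨⟨44785047, 0, 0, 0, 0, 37931372, 0, 0, 0, ⟨0, 0⟩, 0⟩, 0, 0⟩ 0 0) (.cut .s 9248768 (.pos 49 .mp ⟨⟨45263782, 0, 0, 0, 0, 36397893, 0, 0, 0, ⟨0, 0⟩, 0⟩, 0, 0⟩ 0 0) (.pos 49 .mp ⟨⟨45501967, 0,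 0, 0, 0, 36572699, 0, 0, 0, ⟨0, 0⟩, 0⟩, 0, 0⟩ 0 0))) (.pos 49 .mp ⟨⟨45403899, 0, 0, 0, 0, 35903004, 0, 0, 0, ⟨0, 0⟩, 0⟩, 0, 0⟩ 0 0)) (.pos 50 .mp ⟨⟨72741181, 0, 0, 0, 0, 0, 0, 0, 0, ⟨0, 0⟩, 0⟩, 0, 0⟩ 0 0))) (.cut .d (-8192) (.pos 45 .mp ⟨⟨45247907, 0, 0, 0, 0, 38419464, 0, 0, 0, ⟨0, 0⟩, 0⟩, 0, 0⟩ 0 0) (.cut .v 16793600 (.cut .l 54279 (.cut .d (-4096) (.pos 49 .mp ⟨⟨45254939, 0, 0, 0, 0, 38305029, 0, 0, 0, ⟨0, 0⟩, 0⟩, 0, 0⟩ 0 0) (.cut .s 9265152 (.pos 49 .mp ⟨⟨45740234, 0, 0, 0, 0, 36750696, 0, 0, 0, ⟨0, 0⟩, 0⟩, 0, 0⟩ 0 0) (.pos 49 .mp ⟨⟨45978566, 0, 0, 0, 0, 36931912, 0, 0, 0, ⟨0, 0⟩, 0⟩, 0, 0⟩ 0 0))) (.pos 49 .mp ⟨⟨45880235,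 0, 0, 0, 0, 36254360, 0, 0, 0, ⟨0, 0⟩, 0⟩, 0, 0⟩ 0 0)) (.pos 50 .mp ⟨⟨73447735, 0, 0, 0, 0, 0, 0, 0, 0, ⟨0, 0⟩, 0⟩, 0, 0⟩ 0 0)))) (.cut .s 9256960 (.pos 45 .mp ⟨⟨45546226, 0, 0, 0, 0, 35813833, 0, 0, 0, ⟨0, 0⟩, 0⟩, 0, 0⟩ 0 0) (.pos 45 .mp ⟨⟨46025618, 0, 0, 0, 0, 36161771, 0, 0, 0, ⟨0, 0⟩, 0⟩, 0, 0⟩ 0 0))) (.pos 46 .mp ⟨⟨73302854, 0, 0, 0, 0, 0, 0, 0, 0, ⟨0, 0⟩, 0⟩, 0, 0⟩ 0 0))) (.cut .d (-16384) (.cut .d (-24576) (.pos 33 .mp ⟨⟨46196862, 0, 0, 0, 0, 39674195, 0, 0, 0, ⟨0, 0⟩, 0⟩, 0, 0⟩ 0 0) (.cut .l 108558 (.void 33 ⟨⟨0, 0, 0, 0, 0, 100000, 0, 0, 0, ⟨0, 0⟩, 0⟩, 0, 0⟩ 0 0) (.cut .s 9289728 (.pos 33 .mp ⟨⟨45717988, 0, 0, 0, 0, 38764776,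 0, 0, 0, ⟨0, 0⟩, 0⟩, 0, 0⟩ 0 0) (.pos 33 .mp ⟨⟨46206935, 0, 0, 0, 0, 39133882, 0, 0, 0, ⟨0, 0⟩, 0⟩, 0, 0⟩ 0 0)))) (.cut .v 16809984 (.cut .l 108558 (.cut .s 9289728 (.cut .d (-8192) (.pos 45 .mp ⟨⟨45722678, 0, 0, 0, 0, 38802605, 0, 0, 0, ⟨0, 0⟩, 0⟩, 0, 0⟩ 0 0) (.cut .v 16793600 (.cut .l 54279 (.cut .d (-4096) (.pos 49 .mp ⟨⟨45728966, 0, 0, 0, 0, 38687989, 0, 0, 0, ⟨0, 0⟩, 0⟩, 0, 0⟩ 0 0) (.cut .s 9281536 (.pos 49 .mp ⟨⟨46216946, 0, 0, 0, 0, 37116378, 0, 0, 0, ⟨0, 0⟩, 0⟩, 0, 0⟩ 0 0) (.pos 49 .mp ⟨⟨46455358, 0, 0, 0, 0, 37304123, 0, 0, 0, ⟨0, 0⟩, 0⟩, 0, 0⟩ 0 0))) (.pos 49 .mp ⟨⟨46360764, 0, 0, 0, 0, 36609297, 0, 0, 0, ⟨0, 0⟩, 0⟩,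 0, 0⟩ 0 0)) (.pos 50 .mp ⟨⟨74164615, 0, 0, 0, 0, 0, 0, 0, 0, ⟨0, 0⟩, 0⟩, 0, 0⟩ 0 0))) (.cut .d (-8192) (.pos 45 .mp ⟨⟨46201613, 0, 0, 0, 0, 39195131, 0, 0, 0, ⟨0, 0⟩, 0⟩, 0, 0⟩ 0 0) (.cut .v 16793600 (.cut .s 9297920 (.pos 49 .mp ⟨⟨46863410, 0, 0, 0, 0, 37291449, 0, 0, 0, ⟨0, 0⟩, 0⟩, 0, 0⟩ 0 0) (.pos 49 .mp ⟨⟨47107598, 0, 0, 0, 0, 37477361, 0, 0, 0, ⟨0, 0⟩, 0⟩, 0, 0⟩ 0 0)) (.pos 50 .mp ⟨⟨74891876, 0, 0, 0, 0, 0, 0, 0, 0, ⟨0, 0⟩, 0⟩, 0, 0⟩ 0 0)))) (.cut .s 9289728 (.pos 45 .mp ⟨⟨46509247, 0, 0, 0, 0, 36513235, 0, 0, 0, ⟨0, 0⟩, 0⟩, 0, 0⟩ 0 0) (.pos 45 .mp ⟨⟨46997136, 0, 0, 0, 0, 36868122, 0, 0, 0, ⟨0, 0⟩, 0⟩, 0, 0⟩ 0 0))) (.pos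 46 .mp ⟨⟨74740345, 0, 0, 0, 0, 0, 0, 0, 0, ⟨0, 0⟩, 0⟩, 0, 0⟩ 0 0)))))) (.pos 34 .mp ⟨⟨74511804, 0, 0, 0, 0, 0, 0, 0, 0, ⟨0, 0⟩, 0⟩, 0, 0⟩ 0 0)) (.cut .v 16842752 (.cut .s 9437184 (.cut .s 9371648 (.cut .s 9338880 (.cut .d (-16384) (.cut .d (-24576) (.pos 33 .mp ⟨⟨47160052, 0, 0, 0, 0, 40513480, 0, 0, 0, ⟨0, 0⟩, 0⟩, 0, 0⟩ 0 0) (.cut .v 16809984 (.cut .s 9322496 (.pos 45 .mp ⟨⟨46473414, 0, 0, 0, 0, 39785217, 0, 0, 0, ⟨0, 0⟩, 0⟩, 0, 0⟩ 0 0) (.pos 45 .mp ⟨⟨46960393, 0, 0, 0, 0, 40196625, 0, 0, 0, ⟨0, 0⟩, 0⟩, 0, 0⟩ 0 0)) (.pos 46 .mp ⟨⟨56127943, 0, 0, 0, 0, 27945889, 0, 0, 0, ⟨0, 0⟩, 0⟩, 0, 0⟩ 0 0))) (.cut .v 16809984 (.cut .l 108558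 (.cut .s 9322496 (.cut .d (-8192) (.pos 45 .mp ⟨⟨46684737, 0, 0, 0, 0, 39597117, 0, 0, 0, ⟨0, 0⟩, 0⟩, 0, 0⟩ 0 0) (.cut .s 9314304 (.cut .s 9310208 (.pos 45 .mp ⟨⟨47409259, 0, 0, 0, 0, 37521116, 0, 0, 0, ⟨0, 0⟩, 0⟩, 0, 0⟩ 0 0) (.pos 45 .mp ⟨⟨47537691, 0, 0, 0, 0, 37608982, 0, 0, 0, ⟨0, 0⟩, 0⟩, 0, 0⟩ 0 0)) (.pos 45 .mp ⟨⟨47701585, 0, 0, 0, 0, 37725141, 0, 0, 0, ⟨0, 0⟩, 0⟩, 0, 0⟩ 0 0))) (.cut .d (-8192) (.pos 45 .mp ⟨⟨47172074, 0, 0, 0, 0, 40008642, 0, 0, 0, ⟨0, 0⟩, 0⟩, 0, 0⟩ 0 0) (.cut .s 9330688 (.pos 45 .mp ⟨⟨47949467, 0, 0, 0, 0, 37915531, 0, 0, 0, ⟨0, 0⟩, 0⟩, 0, 0⟩ 0 0) (.pos 45 .mp ⟨⟨48198429, 0, 0, 0, 0, 38107636, 0, 0, 0,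 ⟨0, 0⟩, 0⟩, 0, 0⟩ 0 0)))) (.pos 45 .mp ⟨⟨47985791, 0, 0, 0, 0, 36788734, 0, 0, 0, ⟨0, 0⟩, 0⟩, 0, 0⟩ 0 0)) (.pos 46 .mp ⟨⟨76219402, 0, 0, 0, 0, 0, 0, 0, 0, ⟨0, 0⟩, 0⟩, 0, 0⟩ 0 0))) (.cut .d (-16384) (.cut .s 9355264 (.cut .s 9347072 (.pos 33 .mp ⟨⟨47658143, 0, 0, 0, 0, 40245803, 0, 0, 0, ⟨0, 0⟩, 0⟩, 0, 0⟩ 0 0) (.pos 33 .mp ⟨⟨47906310, 0, 0, 0, 0, 40457492, 0, 0, 0, ⟨0, 0⟩, 0⟩, 0, 0⟩ 0 0)) (.pos 33 .mp ⟨⟨48155549, 0, 0, 0, 0, 41090424, 0, 0, 0, ⟨0, 0⟩, 0⟩, 0, 0⟩ 0 0)) (.cut .v 16809984 (.cut .l 108558 (.cut .s 9355264 (.cut .d (-8192) (.pos 45 .mp ⟨⟨47663648, 0, 0, 0, 0, 40429782, 0, 0, 0, ⟨0, 0⟩, 0⟩, 0, 0⟩ 0 0) (.cut .s 9347072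 (.pos 45 .mp ⟨⟨48448475, 0, 0, 0, 0, 38301454, 0, 0, 0, ⟨0, 0⟩, 0⟩, 0, 0⟩ 0 0) (.pos 45 .mp ⟨⟨48699606, 0, 0, 0, 0, 38496981, 0, 0, 0, ⟨0, 0⟩, 0⟩, 0, 0⟩ 0 0))) (.cut .d (-8192) (.pos 45 .mp ⟨⟨48159481, 0, 0, 0, 0, 40860617, 0, 0, 0, ⟨0, 0⟩, 0⟩, 0, 0⟩ 0 0) (.cut .s 9363456 (.pos 45 .mp ⟨⟨48951827, 0, 0, 0, 0, 38694217, 0, 0, 0, ⟨0, 0⟩, 0⟩, 0, 0⟩ 0 0) (.pos 45 .mp ⟨⟨49205140, 0, 0, 0, 0, 38893159, 0, 0, 0, ⟨0, 0⟩, 0⟩, 0, 0⟩ 0 0)))) (.pos 45 .mp ⟨⟨48991780, 0, 0, 0, 0, 37504043, 0, 0, 0, ⟨0, 0⟩, 0⟩, 0, 0⟩ 0 0)) (.pos 46 .mp ⟨⟨77740462, 0, 0, 0, 0, 0, 0, 0, 0, ⟨0, 0⟩, 0⟩, 0, 0⟩ 0 0)))) (.cut .s 9404416 (.cut .d (-16384) (.cut .s 9388032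 (.pos 33 .mp ⟨⟨48657255, 0, 0, 0, 0, 41531434, 0, 0, 0, ⟨0, 0⟩, 0⟩, 0, 0⟩ 0 0) (.pos 33 .mp ⟨⟨49163287, 0, 0, 0, 0, 41982306, 0, 0, 0, ⟨0, 0⟩, 0⟩, 0, 0⟩ 0 0)) (.cut .v 16809984 (.cut .l 108558 (.cut .s 9388032 (.cut .d (-8192) (.pos 45 .mp ⟨⟨48659600, 0, 0, 0, 0, 41301225, 0, 0, 0, ⟨0, 0⟩, 0⟩, 0, 0⟩ 0 0) (.cut .s 9379840 (.pos 45 .mp ⟨⟨49459549, 0, 0, 0, 0, 39093804, 0, 0, 0, ⟨0, 0⟩, 0⟩, 0, 0⟩ 0 0) (.pos 45 .mp ⟨⟨49704094, 0, 0, 0, 0, 39312756, 0, 0, 0, ⟨0, 0⟩, 0⟩, 0, 0⟩ 0 0))) (.cut .s 9396224 (.pos 45 .mp ⟨⟨50311841, 0, 0, 0, 0, 39096604, 0, 0, 0, ⟨0, 0⟩, 0⟩, 0, 0⟩ 0 0) (.pos 45 .mp ⟨⟨50572167, 0, 0, 0, 0, 39294603, 0, 0, 0,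 ⟨0, 0⟩, 0⟩, 0, 0⟩ 0 0))) (.pos 45 .mp ⟨⟨50015300, 0, 0, 0, 0, 38231011, 0, 0, 0, ⟨0, 0⟩, 0⟩, 0, 0⟩ 0 0)) (.pos 46 .mp ⟨⟨79303972, 0, 0, 0, 0, 0, 0, 0, 0, ⟨0, 0⟩, 0⟩, 0, 0⟩ 0 0))) (.cut .d (-16384) (.cut .s 9420800 (.pos 33 .mp ⟨⟨49673670, 0, 0, 0, 0, 42443120, 0, 0, 0, ⟨0, 0⟩, 0⟩, 0, 0⟩ 0 0) (.pos 33 .mp ⟨⟨50188428, 0, 0, 0, 0, 42913958, 0, 0, 0, ⟨0, 0⟩, 0⟩, 0, 0⟩ 0 0)) (.cut .v 16809984 (.cut .l 108558 (.cut .s 9420800 (.cut .s 9412608 (.pos 45 .mp ⟨⟨50833621, 0, 0, 0, 0, 39493966, 0, 0, 0, ⟨0, 0⟩, 0⟩, 0, 0⟩ 0 0) (.pos 45 .mp ⟨⟨51096205, 0, 0, 0, 0, 39694686, 0, 0, 0, ⟨0, 0⟩, 0⟩, 0, 0⟩ 0 0)) (.cut .s 9428992 (.pos 45 .mp ⟨⟨51359922,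 0, 0, 0, 0, 39896758, 0, 0, 0, ⟨0, 0⟩, 0⟩, 0, 0⟩ 0 0) (.pos 45 .mp ⟨⟨51624776, 0, 0, 0, 0, 40100175, 0, 0, 0, ⟨0, 0⟩, 0⟩, 0, 0⟩ 0 0))) (.pos 45 .mp ⟨⟨51056555, 0, 0, 0, 0, 38968800, 0, 0, 0, ⟨0, 0⟩, 0⟩, 0, 0⟩ 0 0)) (.pos 46 .mp ⟨⟨80910383, 0, 0, 0, 0, 0, 0, 0, 0, ⟨0, 0⟩, 0⟩, 0, 0⟩ 0 0))))) (.cut .s 9502720 (.cut .s 9469952 (.cut .d (-16384) (.cut .s 9453568 (.pos 33 .mp ⟨⟨50707587, 0, 0, 0, 0, 43394900, 0, 0, 0, ⟨0, 0⟩, 0⟩, 0, 0⟩ 0 0) (.pos 33 .mp ⟨⟨51231173, 0, 0, 0, 0, 43886031, 0, 0, 0, ⟨0, 0⟩, 0⟩, 0, 0⟩ 0 0)) (.cut .v 16809984 (.cut .l 108558 (.cut .d (-8192) (.pos 45 .mp ⟨⟨50703418, 0, 0, 0, 0, 44058906, 0, 0, 0, ⟨0, 0⟩,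 0⟩, 0, 0⟩ 0 0) (.cut .v 16793600 (.cut .l 54279 (.cut .d (-4096) (.pos 49 .mp ⟨⟨50701836, 0, 0, 0, 0, 43941054, 0, 0, 0, ⟨0, 0⟩, 0⟩, 0, 0⟩ 0 0) (.cut .v 16785408 (.cut .l 27139 (.cut .d (-2048) (.pos 53 .mp ⟨⟨50701162, 0, 0, 0, 0, 43881998, 0, 0, 0, ⟨0, 0⟩, 0⟩, 0, 0⟩ 0 0) (.cut .s 9453568 (.cut .s 9445376 (.pos 53 .mp ⟨⟨51664788, 0, 0, 0, 0, 40622123, 0, 0, 0, ⟨0, 0⟩, 0⟩, 0, 0⟩ 0 0) (.pos 53 .mp ⟨⟨51973592, 0, 0, 0, 0, 40785122, 0, 0, 0, ⟨0, 0⟩, 0⟩, 0, 0⟩ 0 0)) (.pos 53 .mp ⟨⟨51891704, 0, 0, 0, 0, 41594352, 0, 0, 0, ⟨0, 0⟩, 0⟩, 0, 0⟩ 0 0))) (.pos 53 .mp ⟨⟨51837774, 0, 0, 0, 0, 39923269, 0, 0, 0, ⟨0, 0⟩, 0⟩, 0, 0⟩ 0 0)) (.pos 54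 .mp ⟨⟨82423283, 0, 0, 0, 0, 0, 0, 0, 0, ⟨0, 0⟩, 0⟩, 0, 0⟩ 0 0))) (.pos 49 .mp ⟨⟨51930244, 0, 0, 0, 0, 39854536, 0, 0, 0, ⟨0, 0⟩, 0⟩, 0, 0⟩ 0 0)) (.pos 50 .mp ⟨⟨82469011, 0, 0, 0, 0, 0, 0, 0, 0, ⟨0, 0⟩, 0⟩, 0, 0⟩ 0 0))) (.pos 45 .mp ⟨⟨52115750, 0, 0, 0, 0, 39716571, 0, 0, 0, ⟨0, 0⟩, 0⟩, 0, 0⟩ 0 0)) (.pos 46 .mp ⟨⟨82560159, 0, 0, 0, 0, 0, 0, 0, 0, ⟨0, 0⟩, 0⟩, 0, 0⟩ 0 0))) (.cut .d (-16384) (.pos 33 .mp ⟨⟨51759211, 0, 0, 0, 0, 45307877, 0, 0, 0, ⟨0, 0⟩, 0⟩, 0, 0⟩ 0 0) (.cut .v 16809984 (.cut .l 108558 (.cut .d (-8192) (.pos 45 .mp ⟨⟨51751687, 0, 0, 0, 0, 45072625, 0, 0, 0, ⟨0, 0⟩, 0⟩, 0, 0⟩ 0 0) (.cut .s 9486336 (.cut .s 9478144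 (.pos 45 .mp ⟨⟨52949983, 0, 0, 0, 0, 41228744, 0, 0, 0, ⟨0, 0⟩, 0⟩, 0, 0⟩ 0 0) (.pos 45 .mp ⟨⟨53273614, 0, 0, 0, 0, 41385783, 0, 0, 0, ⟨0, 0⟩, 0⟩, 0, 0⟩ 0 0)) (.pos 45 .mp ⟨⟨53409323, 0, 0, 0, 0, 41940098, 0, 0, 0, ⟨0, 0⟩, 0⟩, 0, 0⟩ 0 0))) (.pos 45 .mp ⟨⟨53193096, 0, 0, 0, 0, 40473481, 0, 0, 0, ⟨0, 0⟩, 0⟩, 0, 0⟩ 0 0)) (.pos 46 .mp ⟨⟨84253770, 0, 0, 0, 0, 0, 0, 0, 0, ⟨0, 0⟩, 0⟩, 0, 0⟩ 0 0)))) (.cut .s 9535488 (.cut .d (-16384) (.pos 33 .mp ⟨⟨52828749, 0, 0, 0, 0, 46364120, 0, 0, 0, ⟨0, 0⟩, 0⟩, 0, 0⟩ 0 0) (.cut .v 16809984 (.cut .s 9519104 (.cut .s 9510912 (.pos 45 .mp ⟨⟨54856780, 0, 0, 0, 0, 41070106, 0, 0, 0, ⟨0, 0⟩, 0⟩, 0, 0⟩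 0 0) (.pos 45 .mp ⟨⟨55231290, 0, 0, 0, 0, 41173152, 0, 0, 0, ⟨0, 0⟩, 0⟩, 0, 0⟩ 0 0)) (.pos 45 .mp ⟨⟨54892890, 0, 0, 0, 0, 42384979, 0, 0, 0, ⟨0, 0⟩, 0⟩, 0, 0⟩ 0 0)) (.pos 46 .mp ⟨⟨85991697, 0, 0, 0, 0, 0, 0, 0, 0, ⟨0, 0⟩, 0⟩, 0, 0⟩ 0 0))) (.cut .d (-16384) (.pos 33 .mp ⟨⟨53916413, 0, 0, 0, 0, 47462605, 0, 0, 0, ⟨0, 0⟩, 0⟩, 0, 0⟩ 0 0) (.cut .s 9551872 (.pos 33 .mp ⟨⟨55688402, 0, 0, 0, 0, 42541572, 0, 0, 0, ⟨0, 0⟩, 0⟩, 0, 0⟩ 0 0) (.pos 33 .mp ⟨⟨56256361, 0, 0, 0, 0, 43002478, 0, 0, 0, ⟨0, 0⟩, 0⟩, 0, 0⟩ 0 0)))))) (.pos 34 .mp ⟨⟨86788861, 0, 0, 0, 0, 0, 0, 0, 0, ⟨0, 0⟩, 0⟩, 0, 0⟩ 0 0))) (.pos 30 .mp ⟨⟨85654161, 0, 0, 0, 0, 0, 0, 0,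 0, ⟨0, 0⟩, 0⟩, 0, 0⟩ 0 0)) (.void 28 ⟨⟨100000, 0, 0, 0, 0, 0, 0, 0, 0, ⟨0, 0⟩, 0⟩, 0, 0⟩ 0 0)) (.void 26 ⟨⟨100000, 0, 0, 0, 0, 0, 0, 0, 0, ⟨0, 0⟩, 0⟩, 0, 0⟩ 0 0)) (.void 24 ⟨⟨100000, 0, 0, 0, 0, 0, 0, 0, 0, ⟨0, 0⟩, 0⟩, 0, 0⟩ 0 0))))))))) (.void 22 ⟨⟨100000, 0, 0, 0, 0, 0, 0, 0, 0, ⟨0, 0⟩, 0⟩, 0, 0⟩ 0 0))) (.void 20 ⟨⟨100000, 0, 0, 0, 0, 0, 0, 0, 0, ⟨0, 0⟩, 0⟩, 0, 0⟩ 0 0))) (.void 18 ⟨⟨100000, 0, 0, 0, 0, 0, 0, 0, 0, ⟨0, 0⟩, 0⟩, 0, 0⟩ 0 0)) (.void 97 ⟨⟨100000, 0, 0, 0, 0, 0, 0, 0, 0, ⟨0, 0⟩, 0⟩, 0, 0⟩ 0 0))) (.cut .v 16777216 (.cut .d 7172869 (.cut .v 8388608 (.cut .v 4194304 (.void 4 ⟨⟨0, 0, 66667, 0, 0, 0, 0, 0, 0, ⟨0, 0⟩, 0⟩,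 0, 33333⟩ 0 0) (.pos 5 .pm ⟨⟨0, 0, 35869, 0, 0, 0, 0, 0, 0, ⟨0, 0⟩, 0⟩, 0, 0⟩ 0 0)) (.pos 3 .pm ⟨⟨0, 0, 0, 0, 0, 0, 0, 0, 0, ⟨0, 0⟩, 0⟩, 0, 0⟩ 0 0)) (.void 1 ⟨⟨0, 0, 0, 0, 0, 0, 0, 0, 0, ⟨0, 0⟩, 0⟩, 0, 100000⟩ 0 0)) (.cut .d 7172869 (.cut .v 33554432 (.cut .d 3586434 (.cut .v 25165824 (.cut .d 1793217 (.cut .v 20971520 (.cut .d 896608 (.cut .d 448304 (.cut .v 18874368 (.cut .s 9306112 (.pos 21 .pp ⟨⟨43007154, 0, 0, 0, 0, 0, 0, 0, 0, ⟨0, 0⟩, 0⟩, 2119125, 0⟩ 0 0) (.pos 21 .pp ⟨⟨48451851, 0, 0, 0, 0, 0, 0, 0, 0, ⟨0, 0⟩, 0⟩, 2683195, 0⟩ 0 0)) (.pos 22 .pp ⟨⟨95569860, 0, 0, 0, 0, 0, 0, 0, 0, ⟨0, 0⟩, 0⟩, 0, 0⟩ 0 0)) (.pos 19 .pp ⟨⟨53643561,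 0, 0, 0, 0, 0, 0, 0, 0, ⟨0, 0⟩, 0⟩, 0, 242779⟩ 0 0)) (.pos 19 .pp ⟨⟨0, 0, 0, 0, 0, 0, 0, 0, 0, ⟨0, 0⟩, 0⟩, 0, 686339⟩ 0 0)) (.cut .d 896608 (.cut .d 448304 (.pos 20 .pp ⟨⟨161790444, 0, 0, 0, 0, 0, 0, 0, 0, ⟨0, 0⟩, 0⟩, 0, 0⟩ 0 0) (.pos 20 .pp ⟨⟨0, 0, 0, 0, 0, 0, 0, 0, 0, ⟨0, 0⟩, 0⟩, 8770309, 0⟩ 0 0)) (.pos 20 .pp ⟨⟨0, 0, 0, 0, 0, 0, 355874, 0, 0, ⟨0, 0⟩, 0⟩, 6504982, 0⟩ 0 0))) (.pos 17 .pp ⟨⟨0, 0, 0, 0, 0, 0, 0, 0, 0, ⟨0, 0⟩, 0⟩, 0, 741246⟩ 0 0)) (.cut .d 1793217 (.cut .d 896608 (.void 18 ⟨⟨0, 0, 0, 0, 0, 0, 0, 0, 0, ⟨0, 0⟩, 0⟩, 100000, 0⟩ 0 0) (.cut .v 29360128 (.pos 77 .pp ⟨⟨0, 0, 0, 0, 0, 0, 16651, 0, 0, ⟨0, 0⟩, 0⟩, 9180990,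 0⟩ 0 0) (.pos 78 .pp ⟨⟨0, 0, 0, 0, 0, 0, 0, 0, 0, ⟨0, 0⟩, 0⟩, 19336485, 0⟩ 0 0))) (.cut .v 29360128 (.pos 77 .pp ⟨⟨0, 0, 0, 0, 0, 0, 524062, 0, 0, ⟨0, 0⟩, 0⟩, 6092295, 0⟩ 0 0) (.cut .d 2689825 (.pos 78 .pp ⟨⟨0, 0, 0, 0, 0, 0, 0, 0, 0, ⟨0, 0⟩, 0⟩, 9155610, 0⟩ 0 0) (.pos 78 .pp ⟨⟨0, 0, 0, 0, 0, 0, 125893251, 0, 0, ⟨0, 0⟩, 0⟩, 0, 0⟩ 0 0))))) (.pos 16 .pp ⟨⟨0, 0, 0, 0, 0, 0, 0, 0, 0, ⟨0, 0⟩, 0⟩, 0, 91609547⟩ 0 0)) (.cut .v 50331648 (.cut .d 3586434 (.cut .d 1793217 (.void 100 ⟨⟨0, 0, 0, 0, 0, 0, 0, 0, 0, ⟨0, 0⟩, 0⟩, 100000, 0⟩ 0 0) (.cut .v 41943040 (.cut .d 2689825 (.pos 102 .pp ⟨⟨0, 0, 0, 0, 0, 0, 55906761, 0, 0, ⟨0, 0⟩, 0⟩, 14018388,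 0⟩ 0 0) (.pos 102 .pp ⟨⟨0, 0, 0, 0, 0, 0, 103961660, 0, 0, ⟨0, 0⟩, 0⟩, 8186808, 0⟩ 0 0)) (.void 103 ⟨⟨0, 0, 0, 0, 0, 0, 0, 0, 0, ⟨0, 0⟩, 0⟩, 100000, 0⟩ 0 0))) (.pos 100 .pp ⟨⟨0, 0, 0, 0, 0, 0, 229028794, 0, 0, ⟨0, 0⟩, 0⟩, 2242653, 0⟩ 0 0)) (.void 101 ⟨⟨0, 0, 0, 0, 0, 0, 100000, 0, 0, ⟨0, 0⟩, 0⟩, 0, 0⟩ 0 0))) (.void 96 ⟨⟨0, 0, 0, 0, 0, 0, 59920, 0, 0, ⟨0, 0⟩, 0⟩, 0, 40080⟩ 0 0)))),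
    by decide +kernel⟩

def covers12 : cell.Covers Vale.Agent.P237.Petty.Cor.Grid.N17.table row12.1 :=
  ⟨(.cut .d 0 (.cut .v 16777216 (.cut .d (-8388608) (.void 1 ⟨⟨0, 0, 0, 0, 0, 100000, 0, 0, 0, ⟨0, 0⟩, 0⟩, 0, 0⟩ 0 0) (.cut .d (-4194304) (.void 1 ⟨⟨0, 0, 0, 0, 0, 100000, 0, 0, 0, ⟨0, 0⟩, 0⟩, 0, 0⟩ 0 0) (.cut .d (-2097152) (.void 1 ⟨⟨0, 0, 0, 0, 0, 100000, 0, 0, 0, ⟨0, 0⟩, 0⟩, 0, 0⟩ 0 0) (.cut .d (-1048576) (.void 1 ⟨⟨0, 0, 0, 0, 0, 100000, 0, 0, 0, ⟨0, 0⟩, 0⟩, 0, 0⟩ 0 0) (.cut .d (-524288) (.void 1 ⟨⟨0, 0, 0, 0, 0, 100000, 0, 0, 0, ⟨0, 0⟩, 0⟩, 0, 0⟩ 0 0) (.cut .d (-262144) (.void 1 ⟨⟨0, 0, 0, 0, 0, 100000, 0, 0, 0, ⟨0, 0⟩,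 0⟩, 0, 0⟩ 0 0) (.cut .d (-131072) (.void 1 ⟨⟨0, 0, 0, 0, 0, 100000, 0, 0, 0, ⟨0, 0⟩, 0⟩, 0, 0⟩ 0 0) (.cut .d (-65536) (.void 1 ⟨⟨0, 0, 0, 0, 0, 100000, 0, 0, 0, ⟨0, 0⟩, 0⟩, 0, 0⟩ 0 0) (.cut .d (-32768) (.void 1 ⟨⟨0, 0, 0, 0, 0, 100000, 0, 0, 0, ⟨0, 0⟩, 0⟩, 0, 0⟩ 0 0) (.cut .v 8388608 (.cut .v 4194304 (.void 4 ⟨⟨0, 0, 100000, 0, 0, 0, 0, 0, 0, ⟨0, 0⟩, 0⟩, 0, 0⟩ 0 0) (.pos 5 .mm ⟨⟨0, 0, 643346, 0, 0, 52460919, 0, 0, 0, ⟨0, 0⟩, 0⟩, 0, 0⟩ 0 0)) (.cut .d (-16384) (.pos 3 .mm ⟨⟨0, 0, 0, 0, 0, 153604247, 0, 0, 0, ⟨0, 0⟩, 0⟩, 0, 0⟩ 0 0) (.cut .l 108558 (.cut .d (-8192) (.pos 3 .mm ⟨⟨0, 0, 0, 0, 0, 153594732, 0, 0, 0, ⟨0, 0⟩, 0⟩, 0, 0⟩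 0 0) (.cut .v 12582912 (.pos 8 .mm ⟨⟨0, 0, 0, 0, 0, 78423865, 0, 0, 0, ⟨0, 0⟩, 0⟩, 0, 0⟩ 0 0) (.cut .v 14680064 (.pos 12 .mm ⟨⟨0, 0, 0, 0, 0, 92304812, 0, 0, 0, ⟨0, 0⟩, 0⟩, 0, 0⟩ 0 0) (.cut .v 15728640 (.pos 14 .mm ⟨⟨0, 0, 0, 0, 0, 99541153, 0, 0, 0, ⟨0, 0⟩, 0⟩, 0, 0⟩ 0 0) (.cut .v 16252928 (.pos 31 .mm ⟨⟨0, 0, 0, 0, 0, 103233290, 0, 0, 0, ⟨0, 0⟩, 0⟩, 0, 0⟩ 0 0) (.cut .v 16515072 (.pos 39 .mm ⟨⟨0, 0, 0, 0, 0, 105097850, 0, 0, 0, ⟨0, 0⟩, 0⟩, 0, 0⟩ 0 0) (.cut .v 16646144 (.pos 41 .mm ⟨⟨0, 0, 0, 0, 0, 113255632, 0, 0, 0, ⟨0, 0⟩, 0⟩, 0, 0⟩ 0 0) (.cut .v 16711680 (.pos 43 .mm ⟨⟨0, 0, 0, 0, 0, 126329071, 0, 0, 0, ⟨0, 0⟩, 0⟩, 0, 0⟩ 0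 0) (.cut .v 16744448 (.pos 47 .mm ⟨⟨0, 0, 0, 0, 0, 130498277, 0, 0, 0, ⟨0, 0⟩, 0⟩, 0, 0⟩ 0 0) (.cut .v 16760832 (.pos 106 .mm ⟨⟨0, 0, 0, 0, 0, 132590683, 0, 0, 0, ⟨0, 0⟩, 0⟩, 0, 0⟩ 0 0) (.cut .l 54279 (.cut .d (-4096) (.pos 107 .mm ⟨⟨0, 0, 0, 0, 0, 153589905, 0, 0, 0, ⟨0, 0⟩, 0⟩, 0, 0⟩ 0 0) (.cut .v 16769024 (.pos 108 .mm ⟨⟨0, 0, 0, 0, 0, 132645858, 0, 0, 0, ⟨0, 0⟩, 0⟩, 0, 0⟩ 0 0) (.cut .l 27139 (.cut .d (-2048) (.pos 109 .mm ⟨⟨0, 0, 0, 0, 0, 153588041, 0, 0, 0, ⟨0, 0⟩, 0⟩, 0, 0⟩ 0 0) (.cut .l 13569 (.cut .d (-1024) (.pos 109 .mm ⟨⟨0, 0, 0, 0, 0, 153587934, 0, 0, 0, ⟨0, 0⟩, 0⟩, 0, 0⟩ 0 0) (.cut .v 16773120 (.pos 110 .mm ⟨⟨0, 0,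 0, 0, 0, 130713530, 0, 0, 0, ⟨0, 0⟩, 0⟩, 0, 0⟩ 0 0) (.cut .v 16775168 (.pos 112 .mm ⟨⟨0, 0, 0, 0, 0, 132688836, 0, 0, 0, ⟨0, 0⟩, 0⟩, 0, 0⟩ 0 0) (.cut .l 6784 (.cut .d (-512) (.pos 113 .mm ⟨⟨0, 0, 0, 0, 0, 153589529, 0, 0, 0, ⟨0, 0⟩, 0⟩, 0, 0⟩ 0 0) (.cut .v 16776192 (.pos 114 .mm ⟨⟨0, 0, 0, 0, 0, 132698083, 0, 0, 0, ⟨0, 0⟩, 0⟩, 0, 0⟩ 0 0) (.cut .l 3392 (.cut .s 9830400 (.cut .s 9699328 (.pos 115 .mm ⟨⟨0, 0, 0, 0, 0, 120077479, 0, 0, 0, ⟨0, 0⟩, 0⟩, 0, 0⟩ 0 0) (.pos 115 .mm ⟨⟨0, 0, 0, 0, 0, 130233267, 0, 0, 0, ⟨0, 0⟩, 0⟩, 0, 0⟩ 0 0)) (.cut .s 9961472 (.pos 115 .mm ⟨⟨0, 0, 0, 0, 0, 141575008, 0, 0, 0, ⟨0, 0⟩, 0⟩, 0, 0⟩ 0 0) (.pos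 115 .mm ⟨⟨0, 0, 0, 0, 0, 154125826, 0, 0, 0, ⟨0, 0⟩, 0⟩, 0, 0⟩ 0 0))) (.pos 115 .mm ⟨⟨0, 0, 0, 0, 0, 121340059, 0, 0, 0, ⟨0, 0⟩, 0⟩, 0, 0⟩ 0 0)))) (.pos 113 .mm ⟨⟨0, 0, 0, 0, 0, 121344083, 0, 0, 0, ⟨0, 0⟩, 0⟩, 0, 0⟩ 0 0))))) (.pos 109 .mm ⟨⟨0, 0, 0, 0, 0, 121350086, 0, 0, 0, ⟨0, 0⟩, 0⟩, 0, 0⟩ 0 0))) (.pos 109 .mm ⟨⟨0, 0, 0, 0, 0, 121365159, 0, 0, 0, ⟨0, 0⟩, 0⟩, 0, 0⟩ 0 0)))) (.pos 107 .mm ⟨⟨0, 0, 0, 0, 0, 121396836, 0, 0, 0, ⟨0, 0⟩, 0⟩, 0, 0⟩ 0 0)))))))))))) (.pos 3 .mm ⟨⟨0, 0, 0, 0, 0, 121461213, 0, 0, 0, ⟨0, 0⟩, 0⟩, 0, 0⟩ 0 0))))))))))))) (.cut .v 33554432 (.cut .v 25165824 (.cut .d (-8388608) (.void 17 ⟨⟨0, 0, 0, 0, 0, 100000,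 0, 0, 0, ⟨0, 0⟩, 0⟩, 0, 0⟩ 0 0) (.cut .v 20971520 (.cut .d (-4194304) (.void 19 ⟨⟨0, 0, 0, 0, 0, 100000, 0, 0, 0, ⟨0, 0⟩, 0⟩, 0, 0⟩ 0 0) (.cut .v 18874368 (.cut .d (-2097152) (.void 21 ⟨⟨100000, 0, 0, 0, 0, 0, 0, 0, 0, ⟨0, 0⟩, 0⟩, 0, 0⟩ 0 0) (.cut .v 17825792 (.cut .d (-1048576) (.void 23 ⟨⟨100000, 0, 0, 0, 0, 0, 0, 0, 0, ⟨0, 0⟩, 0⟩, 0, 0⟩ 0 0) (.cut .d (-524288) (.void 23 ⟨⟨100000, 0, 0, 0, 0, 0, 0, 0, 0, ⟨0, 0⟩, 0⟩, 0, 0⟩ 0 0) (.cut .d (-262144) (.void 23 ⟨⟨100000, 0, 0, 0, 0, 0, 0, 0, 0, ⟨0, 0⟩, 0⟩, 0, 0⟩ 0 0) (.cut .d (-131072) (.void 23 ⟨⟨100000, 0, 0, 0, 0, 0, 0, 0, 0, ⟨0, 0⟩, 0⟩, 0, 0⟩ 0 0) (.cut .d (-65536) (.void 23 ⟨⟨100000,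 0, 0, 0, 0, 0, 0, 0, 0, ⟨0, 0⟩, 0⟩, 0, 0⟩ 0 0) (.cut .d (-32768) (.void 23 ⟨⟨0, 0, 0, 0, 0, 100000, 0, 0, 0, ⟨0, 0⟩, 0⟩, 0, 0⟩ 0 0) (.cut .v 17301504 (.cut .v 17039360 (.cut .v 16908288 (.cut .s 9830400 (.cut .v 16842752 (.cut .s 9699328 (.cut .s 9633792 (.cut .d (-16384) (.cut .s 9601024 (.pos 33 .mp ⟨⟨55022751, 0, 0, 0, 0, 48598999, 0, 0, 0, ⟨0, 0⟩, 0⟩, 0, 0⟩ 0 0) (.pos 33 .mp ⟨⟨56152982, 0, 0, 0, 0, 49253139, 0, 0, 0, ⟨0, 0⟩, 0⟩, 0, 0⟩ 0 0)) (.cut .v 16809984 (.cut .s 9601024 (.cut .s 9584640 (.pos 45 .mp ⟨⟨57084958, 0, 0, 0, 0, 43142637, 0, 0, 0, ⟨0, 0⟩, 0⟩, 0, 0⟩ 0 0) (.pos 45 .mp ⟨⟨57322635, 0, 0, 0, 0, 43898208, 0, 0, 0,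 ⟨0, 0⟩, 0⟩, 0, 0⟩ 0 0)) (.cut .s 9617408 (.pos 45 .mp ⟨⟨57747759, 0, 0, 0, 0, 44429340, 0, 0, 0, ⟨0, 0⟩, 0⟩, 0, 0⟩ 0 0) (.cut .s 9625600 (.pos 45 .mp ⟨⟨58952730, 0, 0, 0, 0, 43758061, 0, 0, 0, ⟨0, 0⟩, 0⟩, 0, 0⟩ 0 0) (.pos 45 .mp ⟨⟨59130914, 0, 0, 0, 0, 44075800, 0, 0, 0, ⟨0, 0⟩, 0⟩, 0, 0⟩ 0 0)))) (.pos 46 .mp ⟨⟨90838602, 0, 0, 0, 0, 0, 0, 0, 0, ⟨0, 0⟩, 0⟩, 0, 0⟩ 0 0))) (.cut .d (-16384) (.cut .s 9666560 (.pos 33 .mp ⟨⟨57303398, 0, 0, 0, 0, 49955554, 0, 0, 0, ⟨0, 0⟩, 0⟩, 0, 0⟩ 0 0) (.pos 33 .mp ⟨⟨58474241, 0, 0, 0, 0, 50707077, 0, 0, 0, ⟨0, 0⟩, 0⟩, 0, 0⟩ 0 0)) (.cut .v 16809984 (.cut .s 9666560 (.cut .l 108558 (.cut .d (-8192)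 (.pos 45 .mp ⟨⟨57272857, 0, 0, 0, 0, 49724215, 0, 0, 0, ⟨0, 0⟩, 0⟩, 0, 0⟩ 0 0) (.cut .s 9650176 (.pos 45 .mp ⟨⟨58495391, 0, 0, 0, 0, 45643378, 0, 0, 0, ⟨0, 0⟩, 0⟩, 0, 0⟩ 0 0) (.cut .s 9658368 (.pos 45 .mp ⟨⟨59172966, 0, 0, 0, 0, 45713013, 0, 0, 0, ⟨0, 0⟩, 0⟩, 0, 0⟩ 0 0) (.pos 45 .mp ⟨⟨59400559, 0, 0, 0, 0, 45983510, 0, 0, 0, ⟨0, 0⟩, 0⟩, 0, 0⟩ 0 0)))) (.pos 45 .mp ⟨⟨58873822, 0, 0, 0, 0, 44795642, 0, 0, 0, ⟨0, 0⟩, 0⟩, 0, 0⟩ 0 0)) (.cut .l 108558 (.cut .d (-8192) (.pos 45 .mp ⟨⟨58437278, 0, 0, 0, 0, 50479254, 0, 0, 0, ⟨0, 0⟩, 0⟩, 0, 0⟩ 0 0) (.cut .v 16793600 (.cut .l 54279 (.cut .d (-4096) (.pos 49 .mp ⟨⟨58419350, 0, 0, 0, 0, 50364557,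 0, 0, 0, ⟨0, 0⟩, 0⟩, 0, 0⟩ 0 0) (.cut .v 16785408 (.cut .l 27139 (.cut .d (-2048) (.pos 53 .mp ⟨⟨58410514, 0, 0, 0, 0, 50307068, 0, 0, 0, ⟨0, 0⟩, 0⟩, 0, 0⟩ 0 0) (.cut .v 16781312 (.cut .s 9682944 (.pos 98 .mp ⟨⟨59130170, 0, 0, 0, 0, 47079381, 0, 0, 0, ⟨0, 0⟩, 0⟩, 0, 0⟩ 0 0) (.cut .s 9691136 (.pos 98 .mp ⟨⟨60464112, 0, 0, 0, 0, 46313177, 0, 0, 0, ⟨0, 0⟩, 0⟩, 0, 0⟩ 0 0) (.pos 98 .mp ⟨⟨60675655, 0, 0, 0, 0, 46622948, 0, 0, 0, ⟨0, 0⟩, 0⟩, 0, 0⟩ 0 0))) (.pos 99 .mp ⟨⟨94072414, 0, 0, 0, 0, 0, 0, 0, 0, ⟨0, 0⟩, 0⟩, 0, 0⟩ 0 0))) (.pos 53 .mp ⟨⟨59702876, 0, 0, 0, 0, 45951126, 0, 0, 0, ⟨0, 0⟩, 0⟩, 0, 0⟩ 0 0)) (.pos 54 .mp ⟨⟨94098823, 0,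 0, 0, 0, 0, 0, 0, 0, ⟨0, 0⟩, 0⟩, 0, 0⟩ 0 0))) (.pos 49 .mp ⟨⟨59825781, 0, 0, 0, 0, 45847268, 0, 0, 0, ⟨0, 0⟩, 0⟩, 0, 0⟩ 0 0)) (.pos 50 .mp ⟨⟨94151102, 0, 0, 0, 0, 0, 0, 0, 0, ⟨0, 0⟩, 0⟩, 0, 0⟩ 0 0))) (.pos 45 .mp ⟨⟨60072224, 0, 0, 0, 0, 45638983, 0, 0, 0, ⟨0, 0⟩, 0⟩, 0, 0⟩ 0 0))) (.pos 46 .mp ⟨⟨93964777, 0, 0, 0, 0, 0, 0, 0, 0, ⟨0, 0⟩, 0⟩, 0, 0⟩ 0 0)))) (.cut .d (-16384) (.cut .d (-24576) (.void 33 ⟨⟨0, 0, 0, 0, 0, 100000, 0, 0, 0, ⟨0, 0⟩, 0⟩, 0, 0⟩ 0 0) (.cut .l 108558 (.void 33 ⟨⟨0, 0, 0, 0, 0, 100000, 0, 0, 0, ⟨0, 0⟩, 0⟩, 0, 0⟩ 0 0) (.cut .s 9764864 (.cut .s 9732096 (.pos 33 .mp ⟨⟨60057431, 0, 0, 0, 0, 50366596, 0, 0, 0, ⟨0,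 0⟩, 0⟩, 0, 0⟩ 0 0) (.cut .s 9748480 (.pos 33 .mp ⟨⟨61307612, 0, 0, 0, 0, 50104698, 0, 0, 0, ⟨0, 0⟩, 0⟩, 0, 0⟩ 0 0) (.pos 33 .mp ⟨⟨61863139, 0, 0, 0, 0, 50659537, 0, 0, 0, ⟨0, 0⟩, 0⟩, 0, 0⟩ 0 0))) (.cut .d (-20480) (.pos 33 .mp ⟨⟨62951046, 0, 0, 0, 0, 55145577, 0, 0, 0, ⟨0, 0⟩, 0⟩, 0, 0⟩ 0 0) (.cut .l 162837 (.pos 33 .mp ⟨⟨62453737, 0, 0, 0, 0, 104411269, 0, 0, 0, ⟨0, 0⟩, 0⟩, 0, 0⟩ 0 0) (.cut .s 9797632 (.pos 33 .mp ⟨⟨63962004, 0, 0, 0, 0, 48352904, 0, 0, 0, ⟨0, 0⟩, 0⟩, 0, 0⟩ 0 0) (.cut .s 9814016 (.pos 33 .mp ⟨⟨64604653, 0, 0, 0, 0, 49725016, 0, 0, 0, ⟨0, 0⟩, 0⟩, 0, 0⟩ 0 0) (.pos 33 .mp ⟨⟨65252867, 0, 0, 0, 0, 50178576, 0, 0,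 0, ⟨0, 0⟩, 0⟩, 0, 0⟩ 0 0)))))))) (.cut .s 9764864 (.cut .v 16809984 (.cut .s 9732096 (.cut .s 9715712 (.cut .s 9707520 (.pos 45 .mp ⟨⟨61038320, 0, 0, 0, 0, 46765093, 0, 0, 0, ⟨0, 0⟩, 0⟩, 0, 0⟩ 0 0) (.pos 45 .mp ⟨⟨61345500, 0, 0, 0, 0, 46962666, 0, 0, 0, ⟨0, 0⟩, 0⟩, 0, 0⟩ 0 0)) (.cut .l 108558 (.cut .d (-8192) (.pos 45 .mp ⟨⟨60222494, 0, 0, 0, 0, 50574198, 0, 0, 0, ⟨0, 0⟩, 0⟩, 0, 0⟩ 0 0) (.cut .s 9723904 (.pos 45 .mp ⟨⟨61157774, 0, 0, 0, 0, 47784173, 0, 0, 0, ⟨0, 0⟩, 0⟩, 0, 0⟩ 0 0) (.pos 45 .mp ⟨⟨61493486, 0, 0, 0, 0, 47945998, 0, 0, 0, ⟨0, 0⟩, 0⟩, 0, 0⟩ 0 0))) (.pos 45 .mp ⟨⟨61291845, 0, 0, 0, 0, 47332103, 0, 0, 0, ⟨0, 0⟩, 0⟩,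 0, 0⟩ 0 0))) (.cut .s 9748480 (.cut .l 108558 (.cut .d (-8192) (.pos 45 .mp ⟨⟨60827980, 0, 0, 0, 0, 50992361, 0, 0, 0, ⟨0, 0⟩, 0⟩, 0, 0⟩ 0 0) (.cut .s 9740288 (.pos 45 .mp ⟨⟨61807420, 0, 0, 0, 0, 48145933, 0, 0, 0, ⟨0, 0⟩, 0⟩, 0, 0⟩ 0 0) (.pos 45 .mp ⟨⟨62116488, 0, 0, 0, 0, 48357871, 0, 0, 0, ⟨0, 0⟩, 0⟩, 0, 0⟩ 0 0))) (.pos 45 .mp ⟨⟨61909693, 0, 0, 0, 0, 47783559, 0, 0, 0, ⟨0, 0⟩, 0⟩, 0, 0⟩ 0 0)) (.cut .l 108558 (.cut .d (-8192) (.pos 45 .mp ⟨⟨61438727, 0, 0, 0, 0, 51423403, 0, 0, 0, ⟨0, 0⟩, 0⟩, 0, 0⟩ 0 0) (.cut .s 9756672 (.pos 45 .mp ⟨⟨62426901, 0, 0, 0, 0, 48572211, 0, 0, 0, ⟨0, 0⟩, 0⟩, 0, 0⟩ 0 0) (.pos 45 .mp ⟨⟨62738665, 0,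 0, 0, 0, 48788952, 0, 0, 0, ⟨0, 0⟩, 0⟩, 0, 0⟩ 0 0))) (.pos 45 .mp ⟨⟨62532943, 0, 0, 0, 0, 48240209, 0, 0, 0, ⟨0, 0⟩, 0⟩, 0, 0⟩ 0 0)))) (.pos 46 .mp ⟨⟨97303335, 0, 0, 0, 0, 0, 0, 0, 0, ⟨0, 0⟩, 0⟩, 0, 0⟩ 0 0)) (.cut .v 16809984 (.cut .s 9797632 (.cut .s 9781248 (.cut .l 108558 (.cut .d (-8192) (.pos 45 .mp ⟨⟨62054767, 0, 0, 0, 0, 51867435, 0, 0, 0, ⟨0, 0⟩, 0⟩, 0, 0⟩ 0 0) (.cut .v 16793600 (.cut .s 9773056 (.pos 49 .mp ⟨⟨62920032, 0, 0, 0, 0, 49180189, 0, 0, 0, ⟨0, 0⟩, 0⟩, 0, 0⟩ 0 0) (.cut .s 9777152 (.pos 49 .mp ⟨⟨63578138, 0, 0, 0, 0, 48833109, 0, 0, 0, ⟨0, 0⟩, 0⟩, 0, 0⟩ 0 0) (.pos 49 .mp ⟨⟨63711557, 0, 0, 0, 0, 48975111, 0, 0,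 0, ⟨0, 0⟩, 0⟩, 0, 0⟩ 0 0))) (.pos 50 .mp ⟨⟨98564153, 0, 0, 0, 0, 0, 0, 0, 0, ⟨0, 0⟩, 0⟩, 0, 0⟩ 0 0))) (.pos 45 .mp ⟨⟨63161630, 0, 0, 0, 0, 48701911, 0, 0, 0, ⟨0, 0⟩, 0⟩, 0, 0⟩ 0 0)) (.cut .l 108558 (.cut .d (-8192) (.pos 45 .mp ⟨⟨62676132, 0, 0, 0, 0, 52324569, 0, 0, 0, ⟨0, 0⟩, 0⟩, 0, 0⟩ 0 0) (.cut .v 16793600 (.cut .l 54279 (.cut .d (-4096) (.pos 49 .mp ⟨⟨62646451, 0, 0, 0, 0, 52217878, 0, 0, 0, ⟨0, 0⟩, 0⟩, 0, 0⟩ 0 0) (.cut .s 9789440 (.pos 49 .mp ⟨⟨63304721, 0, 0, 0, 0, 49930100, 0, 0, 0, ⟨0, 0⟩, 0⟩, 0, 0⟩ 0 0) (.pos 49 .mp ⟨⟨63619464, 0, 0, 0, 0, 50159865, 0, 0, 0, ⟨0, 0⟩, 0⟩, 0, 0⟩ 0 0))) (.pos 49 .mp ⟨⟨63517625, 0, 0, 0,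 0, 49413869, 0, 0, 0, ⟨0, 0⟩, 0⟩, 0, 0⟩ 0 0)) (.pos 50 .mp ⟨⟨99458316, 0, 0, 0, 0, 0, 0, 0, 0, ⟨0, 0⟩, 0⟩, 0, 0⟩ 0 0))) (.pos 45 .mp ⟨⟨63795785, 0, 0, 0, 0, 49168527, 0, 0, 0, ⟨0, 0⟩, 0⟩, 0, 0⟩ 0 0))) (.cut .s 9814016 (.cut .l 108558 (.cut .d (-8192) (.pos 45 .mp ⟨⟨63302856, 0, 0, 0, 0, 52794918, 0, 0, 0, ⟨0, 0⟩, 0⟩, 0, 0⟩ 0 0) (.cut .v 16793600 (.cut .l 54279 (.cut .d (-4096) (.pos 49 .mp ⟨⟨63271425, 0, 0, 0, 0, 52689189, 0, 0, 0, ⟨0, 0⟩, 0⟩, 0, 0⟩ 0 0) (.cut .s 9805824 (.pos 49 .mp ⟨⟨63935563, 0, 0, 0, 0, 50392041, 0, 0, 0, ⟨0, 0⟩, 0⟩, 0, 0⟩ 0 0) (.pos 49 .mp ⟨⟨64253021, 0, 0, 0, 0, 50626623, 0, 0, 0, ⟨0, 0⟩, 0⟩, 0, 0⟩ 0 0)))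 (.pos 49 .mp ⟨⟨64151742, 0, 0, 0, 0, 49891754, 0, 0, 0, ⟨0, 0⟩, 0⟩, 0, 0⟩ 0 0)) (.pos 50 .mp ⟨⟨100366410, 0, 0, 0, 0, 0, 0, 0, 0, ⟨0, 0⟩, 0⟩, 0, 0⟩ 0 0))) (.pos 45 .mp ⟨⟨64435444, 0, 0, 0, 0, 49639914, 0, 0, 0, ⟨0, 0⟩, 0⟩, 0, 0⟩ 0 0)) (.cut .l 108558 (.cut .d (-8192) (.pos 45 .mp ⟨⟨63934971, 0, 0, 0, 0, 53278596, 0, 0, 0, ⟨0, 0⟩, 0⟩, 0, 0⟩ 0 0) (.cut .v 16793600 (.cut .l 54279 (.cut .d (-4096) (.pos 49 .mp ⟨⟨63901773, 0, 0, 0, 0, 53173839, 0, 0, 0, ⟨0, 0⟩, 0⟩, 0, 0⟩ 0 0) (.cut .v 16785408 (.cut .s 9822208 (.pos 53 .mp ⟨⟨64504345, 0, 0, 0, 0, 50952107, 0, 0, 0, ⟨0, 0⟩, 0⟩, 0, 0⟩ 0 0) (.cut .s 9826304 (.pos 53 .mp ⟨⟨65258998, 0,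 0, 0, 0, 50505780, 0, 0, 0, ⟨0, 0⟩, 0⟩, 0, 0⟩ 0 0) (.pos 53 .mp ⟨⟨65408727, 0, 0, 0, 0, 50639654, 0, 0, 0, ⟨0, 0⟩, 0⟩, 0, 0⟩ 0 0))) (.pos 54 .mp ⟨⟨101232564, 0, 0, 0, 0, 0, 0, 0, 0, ⟨0, 0⟩, 0⟩, 0, 0⟩ 0 0))) (.pos 49 .mp ⟨⟨64791322, 0, 0, 0, 0, 50374367, 0, 0, 0, ⟨0, 0⟩, 0⟩, 0, 0⟩ 0 0)) (.pos 50 .mp ⟨⟨101288513, 0, 0, 0, 0, 0, 0, 0, 0, ⟨0, 0⟩, 0⟩, 0, 0⟩ 0 0))) (.pos 45 .mp ⟨⟨65080641, 0, 0, 0, 0, 50115933, 0, 0, 0, ⟨0, 0⟩, 0⟩, 0, 0⟩ 0 0)))) (.pos 46 .mp ⟨⟨100859012, 0, 0, 0, 0, 0, 0, 0, 0, ⟨0, 0⟩, 0⟩, 0, 0⟩ 0 0))))) (.pos 34 .mp ⟨⟨101416342, 0, 0, 0, 0, 0, 0, 0, 0, ⟨0, 0⟩, 0⟩, 0, 0⟩ 0 0)) (.cut .v 16842752 (.cut .s 9961472 (.cut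 .d (-16384) (.cut .d (-24576) (.void 33 ⟨⟨0, 0, 0, 0, 0, 100000, 0, 0, 0, ⟨0, 0⟩, 0⟩, 0, 0⟩ 0 0) (.cut .l 108558 (.void 33 ⟨⟨0, 0, 0, 0, 0, 100000, 0, 0, 0, ⟨0, 0⟩, 0⟩, 0, 0⟩ 0 0) (.cut .l 162837 (.void 33 ⟨⟨0, 0, 0, 0, 0, 100000, 0, 0, 0, ⟨0, 0⟩, 0⟩, 0, 0⟩ 0 0) (.cut .s 9895936 (.cut .d (-20480) (.pos 33 .mp ⟨⟨65399046, 0, 0, 0, 0, 57453338, 0, 0, 0, ⟨0, 0⟩, 0⟩, 0, 0⟩ 0 0) (.cut .s 9863168 (.cut .s 9846784 (.pos 33 .mp ⟨⟨65906682, 0, 0, 0, 0, 50641390, 0, 0, 0, ⟨0, 0⟩, 0⟩, 0, 0⟩ 0 0) (.pos 33 .mp ⟨⟨66566133, 0, 0, 0, 0, 51113430, 0, 0, 0, ⟨0, 0⟩, 0⟩, 0, 0⟩ 0 0)) (.cut .s 9879552 (.pos 33 .mp ⟨⟨67231254, 0, 0, 0, 0, 51594668,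 0, 0, 0, ⟨0, 0⟩, 0⟩, 0, 0⟩ 0 0) (.pos 33 .mp ⟨⟨66600154, 0, 0, 0, 0, 55047734, 0, 0, 0, ⟨0, 0⟩, 0⟩, 0, 0⟩ 0 0)))) (.cut .d (-20480) (.pos 33 .mp ⟨⟨67919001, 0, 0, 0, 0, 60013157, 0, 0, 0, ⟨0, 0⟩, 0⟩, 0, 0⟩ 0 0) (.cut .s 9928704 (.cut .s 9912320 (.pos 33 .mp ⟨⟨67263467, 0, 0, 0, 0, 55578635, 0, 0, 0, ⟨0, 0⟩, 0⟩, 0, 0⟩ 0 0) (.pos 33 .mp ⟨⟨67932416, 0, 0, 0, 0, 56118986, 0, 0, 0, ⟨0, 0⟩, 0⟩, 0, 0⟩ 0 0)) (.pos 33 .mp ⟨⟨68607036, 0, 0, 0, 0, 57657280, 0, 0, 0, ⟨0, 0⟩, 0⟩, 0, 0⟩ 0 0))))))) (.cut .s 9895936 (.cut .v 16809984 (.cut .s 9863168 (.cut .s 9846784 (.cut .l 108558 (.cut .d (-8192) (.pos 45 .mp ⟨⟨64572512, 0, 0, 0, 0, 53775720,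 0, 0, 0, ⟨0, 0⟩, 0⟩, 0, 0⟩ 0 0) (.cut .v 16793600 (.cut .l 54279 (.cut .d (-4096) (.pos 49 .mp ⟨⟨64537529, 0, 0, 0, 0, 53671941, 0, 0, 0, ⟨0, 0⟩, 0⟩, 0, 0⟩ 0 0) (.cut .v 16785408 (.cut .l 27139 (.cut .d (-2048) (.pos 53 .mp ⟨⟨64520176, 0, 0, 0, 0, 53619877, 0, 0, 0, ⟨0, 0⟩, 0⟩, 0, 0⟩ 0 0) (.cut .s 9838592 (.pos 53 .mp ⟨⟨65017666, 0, 0, 0, 0, 51593249, 0, 0, 0, ⟨0, 0⟩, 0⟩, 0, 0⟩ 0 0) (.pos 53 .mp ⟨⟨65339324, 0, 0, 0, 0, 51839226, 0, 0, 0, ⟨0, 0⟩, 0⟩, 0, 0⟩ 0 0))) (.pos 53 .mp ⟨⟨65289241, 0, 0, 0, 0, 50993806, 0, 0, 0, ⟨0, 0⟩, 0⟩, 0, 0⟩ 0 0)) (.pos 54 .mp ⟨⟨102168238, 0, 0, 0, 0, 0, 0, 0, 0, ⟨0, 0⟩, 0⟩, 0, 0⟩ 0 0))) (.pos 49 .mp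 ⟨⟨65436400, 0, 0, 0, 0, 50861568, 0, 0, 0, ⟨0, 0⟩, 0⟩, 0, 0⟩ 0 0)) (.pos 50 .mp ⟨⟨102224707, 0, 0, 0, 0, 0, 0, 0, 0, ⟨0, 0⟩, 0⟩, 0, 0⟩ 0 0))) (.cut .s 9838592 (.pos 45 .mp ⟨⟨65405326, 0, 0, 0, 0, 50808108, 0, 0, 0, ⟨0, 0⟩, 0⟩, 0, 0⟩ 0 0) (.pos 45 .mp ⟨⟨65731409, 0, 0, 0, 0, 51051504, 0, 0, 0, ⟨0, 0⟩, 0⟩, 0, 0⟩ 0 0))) (.cut .l 108558 (.cut .d (-8192) (.pos 45 .mp ⟨⟨65215512, 0, 0, 0, 0, 54286404, 0, 0, 0, ⟨0, 0⟩, 0⟩, 0, 0⟩ 0 0) (.cut .v 16793600 (.cut .l 54279 (.cut .d (-4096) (.pos 49 .mp ⟨⟨65178725, 0, 0, 0, 0, 54183612, 0, 0, 0, ⟨0, 0⟩, 0⟩, 0, 0⟩ 0 0) (.cut .v 16785408 (.cut .l 27139 (.cut .d (-2048) (.pos 53 .mp ⟨⟨65160472,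 0, 0, 0, 0, 54132040, 0, 0, 0, ⟨0, 0⟩, 0⟩, 0, 0⟩ 0 0) (.cut .s 9854976 (.pos 53 .mp ⟨⟨65662354, 0, 0, 0, 0, 52087607, 0, 0, 0, ⟨0, 0⟩, 0⟩, 0, 0⟩ 0 0) (.pos 53 .mp ⟨⟨65986762, 0, 0, 0, 0, 52338388, 0, 0, 0, ⟨0, 0⟩, 0⟩, 0, 0⟩ 0 0))) (.pos 53 .mp ⟨⟨65936972, 0, 0, 0, 0, 51488845, 0, 0, 0, ⟨0, 0⟩, 0⟩, 0, 0⟩ 0 0)) (.pos 54 .mp ⟨⟨103118076, 0, 0, 0, 0, 0, 0, 0, 0, ⟨0, 0⟩, 0⟩, 0, 0⟩ 0 0))) (.pos 49 .mp ⟨⟨66087011, 0, 0, 0, 0, 51353216, 0, 0, 0, ⟨0, 0⟩, 0⟩, 0, 0⟩ 0 0)) (.pos 50 .mp ⟨⟨103175074, 0, 0, 0, 0, 0, 0, 0, 0, ⟨0, 0⟩, 0⟩, 0, 0⟩ 0 0))) (.cut .s 9854976 (.pos 45 .mp ⟨⟨66058894, 0, 0, 0, 0, 51295986, 0, 0, 0, ⟨0, 0⟩, 0⟩, 0, 0⟩ 0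 0) (.pos 45 .mp ⟨⟨66387785, 0, 0, 0, 0, 51541535, 0, 0, 0, ⟨0, 0⟩, 0⟩, 0, 0⟩ 0 0)))) (.cut .s 9879552 (.cut .l 108558 (.cut .d (-8192) (.pos 45 .mp ⟨⟨65864005, 0, 0, 0, 0, 54810766, 0, 0, 0, ⟨0, 0⟩, 0⟩, 0, 0⟩ 0 0) (.cut .v 16793600 (.cut .l 54279 (.cut .d (-4096) (.pos 49 .mp ⟨⟨65825397, 0, 0, 0, 0, 54708969, 0, 0, 0, ⟨0, 0⟩, 0⟩, 0, 0⟩ 0 0) (.cut .v 16785408 (.cut .l 27139 (.cut .d (-2048) (.pos 53 .mp ⟨⟨65806234, 0, 0, 0, 0, 54657894, 0, 0, 0, ⟨0, 0⟩, 0⟩, 0, 0⟩ 0 0) (.cut .s 9871360 (.pos 53 .mp ⟨⟨66312550, 0, 0, 0, 0, 52591565, 0, 0, 0, ⟨0, 0⟩, 0⟩, 0, 0⟩ 0 0) (.pos 53 .mp ⟨⟨66639725, 0, 0, 0, 0, 52847137, 0, 0, 0, ⟨0, 0⟩, 0⟩,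 0, 0⟩ 0 0))) (.pos 53 .mp ⟨⟨66590232, 0, 0, 0, 0, 51988242, 0, 0, 0, ⟨0, 0⟩, 0⟩, 0, 0⟩ 0 0)) (.pos 54 .mp ⟨⟨104082161, 0, 0, 0, 0, 0, 0, 0, 0, ⟨0, 0⟩, 0⟩, 0, 0⟩ 0 0))) (.pos 49 .mp ⟨⟨66743188, 0, 0, 0, 0, 51849173, 0, 0, 0, ⟨0, 0⟩, 0⟩, 0, 0⟩ 0 0)) (.pos 50 .mp ⟨⟨104139695, 0, 0, 0, 0, 0, 0, 0, 0, ⟨0, 0⟩, 0⟩, 0, 0⟩ 0 0))) (.cut .s 9871360 (.pos 45 .mp ⟨⟨66718087, 0, 0, 0, 0, 51788135, 0, 0, 0, ⟨0, 0⟩, 0⟩, 0, 0⟩ 0 0) (.pos 45 .mp ⟨⟨67049803, 0, 0, 0, 0, 52035767, 0, 0, 0, ⟨0, 0⟩, 0⟩, 0, 0⟩ 0 0))) (.cut .l 108558 (.cut .d (-8192) (.pos 45 .mp ⟨⟨66518027, 0, 0, 0, 0, 55348925, 0, 0, 0, ⟨0, 0⟩, 0⟩, 0, 0⟩ 0 0) (.cut .v 16793600 (.cut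 .l 54279 (.cut .d (-4096) (.pos 49 .mp ⟨⟨66477579, 0, 0, 0, 0, 55248131, 0, 0, 0, ⟨0, 0⟩, 0⟩, 0, 0⟩ 0 0) (.cut .v 16785408 (.cut .l 27139 (.cut .d (-2048) (.pos 53 .mp ⟨⟨66457497, 0, 0, 0, 0, 55197556, 0, 0, 0, ⟨0, 0⟩, 0⟩, 0, 0⟩ 0 0) (.cut .s 9887744 (.pos 53 .mp ⟨⟨66968289, 0, 0, 0, 0, 53105098, 0, 0, 0, ⟨0, 0⟩, 0⟩, 0, 0⟩ 0 0) (.pos 53 .mp ⟨⟨67298248, 0, 0, 0, 0, 53365446, 0, 0, 0, ⟨0, 0⟩, 0⟩, 0, 0⟩ 0 0))) (.pos 53 .mp ⟨⟨67249056, 0, 0, 0, 0, 52491856, 0, 0, 0, ⟨0, 0⟩, 0⟩, 0, 0⟩ 0 0)) (.pos 54 .mp ⟨⟨105060576, 0, 0, 0, 0, 0, 0, 0, 0, ⟨0, 0⟩, 0⟩, 0, 0⟩ 0 0))) (.pos 49 .mp ⟨⟨67404967, 0, 0, 0, 0, 52349296, 0, 0, 0, ⟨0, 0⟩, 0⟩,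 0, 0⟩ 0 0)) (.pos 50 .mp ⟨⟨105118654, 0, 0, 0, 0, 0, 0, 0, 0, ⟨0, 0⟩, 0⟩, 0, 0⟩ 0 0))) (.cut .s 9887744 (.pos 45 .mp ⟨⟨67382940, 0, 0, 0, 0, 52284414, 0, 0, 0, ⟨0, 0⟩, 0⟩, 0, 0⟩ 0 0) (.pos 45 .mp ⟨⟨67717500, 0, 0, 0, 0, 52534058, 0, 0, 0, ⟨0, 0⟩, 0⟩, 0, 0⟩ 0 0))))) (.pos 46 .mp ⟨⟨104636728, 0, 0, 0, 0, 0, 0, 0, 0, ⟨0, 0⟩, 0⟩, 0, 0⟩ 0 0)) (.cut .v 16809984 (.cut .s 9928704 (.cut .s 9912320 (.cut .l 108558 (.cut .d (-8192) (.pos 45 .mp ⟨⟨67177612, 0, 0, 0, 0, 55901000, 0, 0, 0, ⟨0, 0⟩, 0⟩, 0, 0⟩ 0 0) (.cut .v 16793600 (.cut .l 54279 (.cut .d (-4096) (.pos 49 .mp ⟨⟨67135306, 0, 0, 0, 0, 55801217, 0, 0, 0, ⟨0, 0⟩, 0⟩, 0, 0⟩ 0 0) (.cut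 .v 16785408 (.cut .l 27139 (.cut .d (-2048) (.pos 53 .mp ⟨⟨67114296, 0, 0, 0, 0, 55751146, 0, 0, 0, ⟨0, 0⟩, 0⟩, 0, 0⟩ 0 0) (.cut .s 9904128 (.pos 53 .mp ⟨⟨67629605, 0, 0, 0, 0, 53628177, 0, 0, 0, ⟨0, 0⟩, 0⟩, 0, 0⟩ 0 0) (.pos 53 .mp ⟨⟨67962366, 0, 0, 0, 0, 53893287, 0, 0, 0, ⟨0, 0⟩, 0⟩, 0, 0⟩ 0 0))) (.pos 53 .mp ⟨⟨67913479, 0, 0, 0, 0, 52999546, 0, 0, 0, ⟨0, 0⟩, 0⟩, 0, 0⟩ 0 0)) (.pos 54 .mp ⟨⟨106053405, 0, 0, 0, 0, 0, 0, 0, 0, ⟨0, 0⟩, 0⟩, 0, 0⟩ 0 0))) (.pos 49 .mp ⟨⟨68072384, 0, 0, 0, 0, 52853445, 0, 0, 0, ⟨0, 0⟩, 0⟩, 0, 0⟩ 0 0)) (.pos 50 .mp ⟨⟨106112036, 0, 0, 0, 0, 0, 0, 0, 0, ⟨0, 0⟩, 0⟩, 0, 0⟩ 0 0))) (.cut .s 9904128 (.pos 45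 .mp ⟨⟨68053488, 0, 0, 0, 0, 52784682, 0, 0, 0, ⟨0, 0⟩, 0⟩, 0, 0⟩ 0 0) (.pos 45 .mp ⟨⟨68390910, 0, 0, 0, 0, 53036266, 0, 0, 0, ⟨0, 0⟩, 0⟩, 0, 0⟩ 0 0))) (.cut .l 108558 (.cut .d (-8192) (.pos 45 .mp ⟨⟨67842796, 0, 0, 0, 0, 56467112, 0, 0, 0, ⟨0, 0⟩, 0⟩, 0, 0⟩ 0 0) (.cut .v 16793600 (.cut .l 54279 (.cut .d (-4096) (.pos 49 .mp ⟨⟨67798612, 0, 0, 0, 0, 56368348, 0, 0, 0, ⟨0, 0⟩, 0⟩, 0, 0⟩ 0 0) (.cut .v 16785408 (.cut .s 9920512 (.cut .s 9916416 (.pos 53 .mp ⟨⟨68896069, 0, 0, 0, 0, 53254285, 0, 0, 0, ⟨0, 0⟩, 0⟩, 0, 0⟩ 0 0) (.pos 53 .mp ⟨⟨69079282, 0, 0, 0, 0, 53368284, 0, 0, 0, ⟨0, 0⟩, 0⟩, 0, 0⟩ 0 0)) (.pos 53 .mp ⟨⟨68771041, 0, 0,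 0, 0, 54256238, 0, 0, 0, ⟨0, 0⟩, 0⟩, 0, 0⟩ 0 0)) (.pos 54 .mp ⟨⟨107060733, 0, 0, 0, 0, 0, 0, 0, 0, ⟨0, 0⟩, 0⟩, 0, 0⟩ 0 0))) (.pos 49 .mp ⟨⟨68745474, 0, 0, 0, 0, 53361480, 0, 0, 0, ⟨0, 0⟩, 0⟩, 0, 0⟩ 0 0)) (.pos 50 .mp ⟨⟨107119925, 0, 0, 0, 0, 0, 0, 0, 0, ⟨0, 0⟩, 0⟩, 0, 0⟩ 0 0))) (.pos 45 .mp ⟨⟨69070071, 0, 0, 0, 0, 53061414, 0, 0, 0, ⟨0, 0⟩, 0⟩, 0, 0⟩ 0 0))) (.cut .s 9945088 (.cut .l 108558 (.cut .d (-8192) (.pos 45 .mp ⟨⟨68513614, 0, 0, 0, 0, 57047381, 0, 0, 0, ⟨0, 0⟩, 0⟩, 0, 0⟩ 0 0) (.cut .v 16793600 (.cut .l 54279 (.cut .d (-4096) (.pos 49 .mp ⟨⟨68467534, 0, 0, 0, 0, 56949645, 0, 0, 0, ⟨0, 0⟩, 0⟩, 0, 0⟩ 0 0) (.cut .s 9936896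 (.pos 49 .mp ⟨⟨69180966, 0, 0, 0, 0, 54431954, 0, 0, 0, ⟨0, 0⟩, 0⟩, 0, 0⟩ 0 0) (.pos 49 .mp ⟨⟨69520767, 0, 0, 0, 0, 54704592, 0, 0, 0, ⟨0, 0⟩, 0⟩, 0, 0⟩ 0 0))) (.pos 49 .mp ⟨⟨69424274, 0, 0, 0, 0, 53873260, 0, 0, 0, ⟨0, 0⟩, 0⟩, 0, 0⟩ 0 0)) (.pos 50 .mp ⟨⟨108142406, 0, 0, 0, 0, 0, 0, 0, 0, ⟨0, 0⟩, 0⟩, 0, 0⟩ 0 0))) (.pos 45 .mp ⟨⟨69755019, 0, 0, 0, 0, 53565900, 0, 0, 0, ⟨0, 0⟩, 0⟩, 0, 0⟩ 0 0)) (.cut .l 108558 (.cut .d (-8192) (.pos 45 .mp ⟨⟨69190102, 0, 0, 0, 0, 57641930, 0, 0, 0, ⟨0, 0⟩, 0⟩, 0, 0⟩ 0 0) (.cut .v 16793600 (.cut .l 54279 (.cut .d (-4096) (.pos 49 .mp ⟨⟨69142108, 0, 0, 0, 0, 57545230, 0, 0, 0, ⟨0, 0⟩, 0⟩, 0, 0⟩ 0 0)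 (.cut .s 9953280 (.pos 49 .mp ⟨⟨69862003, 0, 0, 0, 0, 54979579, 0, 0, 0, ⟨0, 0⟩, 0⟩, 0, 0⟩ 0 0) (.pos 49 .mp ⟨⟨70204677, 0, 0, 0, 0, 55256909, 0, 0, 0, ⟨0, 0⟩, 0⟩, 0, 0⟩ 0 0))) (.pos 49 .mp ⟨⟨70108820, 0, 0, 0, 0, 54388641, 0, 0, 0, ⟨0, 0⟩, 0⟩, 0, 0⟩ 0 0)) (.pos 50 .mp ⟨⟨109179568, 0, 0, 0, 0, 0, 0, 0, 0, ⟨0, 0⟩, 0⟩, 0, 0⟩ 0 0))) (.pos 45 .mp ⟨⟨70445791, 0, 0, 0, 0, 54073885, 0, 0, 0, ⟨0, 0⟩, 0⟩, 0, 0⟩ 0 0)))) (.pos 46 .mp ⟨⟨108641605, 0, 0, 0, 0, 0, 0, 0, 0, ⟨0, 0⟩, 0⟩, 0, 0⟩ 0 0)))) (.cut .d (-16384) (.cut .d (-24576) (.void 33 ⟨⟨0, 0, 0, 0, 0, 100000, 0, 0, 0, ⟨0, 0⟩, 0⟩, 0, 0⟩ 0 0) (.cut .d (-20480) (.pos 33 .mp ⟨⟨70260580,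 0, 0, 0, 0, 70336778, 0, 0, 0, ⟨0, 0⟩, 0⟩, 0, 0⟩ 0 0) (.cut .l 108558 (.void 33 ⟨⟨0, 0, 0, 0, 0, 100000, 0, 0, 0, ⟨0, 0⟩, 0⟩, 0, 0⟩ 0 0) (.cut .l 162837 (.void 33 ⟨⟨0, 0, 0, 0, 0, 100000, 0, 0, 0, ⟨0, 0⟩, 0⟩, 0, 0⟩ 0 0) (.cut .s 10027008 (.cut .s 9994240 (.pos 33 .mp ⟨⟨69973438, 0, 0, 0, 0, 58793584, 0, 0, 0, ⟨0, 0⟩, 0⟩, 0, 0⟩ 0 0) (.pos 33 .mp ⟨⟨71362966, 0, 0, 0, 0, 59966573, 0, 0, 0, ⟨0, 0⟩, 0⟩, 0, 0⟩ 0 0)) (.pos 33 .mp ⟨⟨72775921, 0, 0, 0, 0, 63195966, 0, 0, 0, ⟨0, 0⟩, 0⟩, 0, 0⟩ 0 0)))))) (.cut .s 10027008 (.cut .v 16809984 (.cut .s 9994240 (.cut .s 9977856 (.cut .l 108558 (.cut .d (-8192) (.pos 45 .mp ⟨⟨69872296, 0, 0, 0,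 0, 58250883, 0, 0, 0, ⟨0, 0⟩, 0⟩, 0, 0⟩ 0 0) (.cut .v 16793600 (.cut .s 9969664 (.cut .s 9965568 (.pos 49 .mp ⟨⟨71214026, 0, 0, 0, 0, 54536381, 0, 0, 0, ⟨0, 0⟩, 0⟩, 0, 0⟩ 0 0) (.pos 49 .mp ⟨⟨71417531, 0, 0, 0, 0, 54636678, 0, 0, 0, ⟨0, 0⟩, 0⟩, 0, 0⟩ 0 0)) (.pos 49 .mp ⟨⟨71185276, 0, 0, 0, 0, 55451719, 0, 0, 0, ⟨0, 0⟩, 0⟩, 0, 0⟩ 0 0)) (.pos 50 .mp ⟨⟨110231496, 0, 0, 0, 0, 0, 0, 0, 0, ⟨0, 0⟩, 0⟩, 0, 0⟩ 0 0))) (.pos 45 .mp ⟨⟨71142424, 0, 0, 0, 0, 54585225, 0, 0, 0, ⟨0, 0⟩, 0⟩, 0, 0⟩ 0 0)) (.cut .l 108558 (.cut .d (-8192) (.pos 45 .mp ⟨⟨70560234, 0, 0, 0, 0, 58874365, 0, 0, 0, ⟨0, 0⟩, 0⟩, 0, 0⟩ 0 0) (.cut .s 9986048 (.pos 45 .mp ⟨⟨71682558,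 0, 0, 0, 0, 55536482, 0, 0, 0, ⟨0, 0⟩, 0⟩, 0, 0⟩ 0 0) (.pos 45 .mp ⟨⟨72033907, 0, 0, 0, 0, 55819075, 0, 0, 0, ⟨0, 0⟩, 0⟩, 0, 0⟩ 0 0))) (.pos 45 .mp ⟨⟨71844958, 0, 0, 0, 0, 55099778, 0, 0, 0, ⟨0, 0⟩, 0⟩, 0, 0⟩ 0 0))) (.cut .s 10010624 (.cut .l 108558 (.cut .d (-8192) (.pos 45 .mp ⟨⟨71253952, 0, 0, 0, 0, 59512502, 0, 0, 0, ⟨0, 0⟩, 0⟩, 0, 0⟩ 0 0) (.cut .s 10002432 (.pos 45 .mp ⟨⟨72386736, 0, 0, 0, 0, 56103964, 0, 0, 0, ⟨0, 0⟩, 0⟩, 0, 0⟩ 0 0) (.pos 45 .mp ⟨⟨72741050, 0, 0, 0, 0, 56391146, 0, 0, 0, ⟨0, 0⟩, 0⟩, 0, 0⟩ 0 0))) (.pos 45 .mp ⟨⟨72553428, 0, 0, 0, 0, 55617400, 0, 0, 0, ⟨0, 0⟩, 0⟩, 0, 0⟩ 0 0)) (.cut .l 108558 (.cut .d (-8192)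 (.pos 45 .mp ⟨⟨71953488, 0, 0, 0, 0, 60165420, 0, 0, 0, ⟨0, 0⟩, 0⟩, 0, 0⟩ 0 0) (.cut .s 10018816 (.pos 45 .mp ⟨⟨73089448, 0, 0, 0, 0, 56692247, 0, 0, 0, ⟨0, 0⟩, 0⟩, 0, 0⟩ 0 0) (.pos 45 .mp ⟨⟨73410310, 0, 0, 0, 0, 57041258, 0, 0, 0, ⟨0, 0⟩, 0⟩, 0, 0⟩ 0 0))) (.pos 45 .mp ⟨⟨73267875, 0, 0, 0, 0, 56137947, 0, 0, 0, ⟨0, 0⟩, 0⟩, 0, 0⟩ 0 0)))) (.pos 46 .mp ⟨⟨112878968, 0, 0, 0, 0, 0, 0, 0, 0, ⟨0, 0⟩, 0⟩, 0, 0⟩ 0 0)) (.cut .v 16809984 (.cut .s 10059776 (.cut .s 10043392 (.cut .s 10035200 (.pos 45 .mp ⟨⟨74427014, 0, 0, 0, 0, 56487977, 0, 0, 0, ⟨0, 0⟩, 0⟩, 0, 0⟩ 0 0) (.pos 45 .mp ⟨⟨74791923, 0, 0, 0, 0, 56777854, 0, 0, 0, ⟨0, 0⟩, 0⟩, 0,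 0⟩ 0 0)) (.cut .s 10051584 (.pos 45 .mp ⟨⟨75158371, 0, 0, 0, 0, 57069955, 0, 0, 0, ⟨0, 0⟩, 0⟩, 0, 0⟩ 0 0) (.pos 45 .mp ⟨⟨75526364, 0, 0, 0, 0, 57364274, 0, 0, 0, ⟨0, 0⟩, 0⟩, 0, 0⟩ 0 0))) (.cut .l 108558 (.cut .d (-8192) (.pos 45 .mp ⟨⟨74087384, 0, 0, 0, 0, 63699226, 0, 0, 0, ⟨0, 0⟩, 0⟩, 0, 0⟩ 0 0) (.cut .v 16793600 (.cut .l 54279 (.cut .d (-4096) (.pos 49 .mp ⟨⟨74025451, 0, 0, 0, 0, 63607903, 0, 0, 0, ⟨0, 0⟩, 0⟩, 0, 0⟩ 0 0) (.cut .v 16785408 (.cut .s 10076160 (.cut .s 10067968 (.pos 53 .mp ⟨⟨75973358, 0, 0, 0, 0, 57541675, 0, 0, 0, ⟨0, 0⟩, 0⟩, 0, 0⟩ 0 0) (.pos 53 .mp ⟨⟨76469530, 0, 0, 0, 0, 57678179, 0, 0, 0, ⟨0, 0⟩, 0⟩, 0, 0⟩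 0 0)) (.pos 53 .mp ⟨⟨75808801, 0, 0, 0, 0, 59632684, 0, 0, 0, ⟨0, 0⟩, 0⟩, 0, 0⟩ 0 0)) (.pos 54 .mp ⟨⟨117682989, 0, 0, 0, 0, 0, 0, 0, 0, ⟨0, 0⟩, 0⟩, 0, 0⟩ 0 0))) (.pos 49 .mp ⟨⟨75796576, 0, 0, 0, 0, 57570931, 0, 0, 0, ⟨0, 0⟩, 0⟩, 0, 0⟩ 0 0)) (.pos 50 .mp ⟨⟨117748559, 0, 0, 0, 0, 0, 0, 0, 0, ⟨0, 0⟩, 0⟩, 0, 0⟩ 0 0))) (.pos 45 .mp ⟨⟨76186210, 0, 0, 0, 0, 57193215, 0, 0, 0, ⟨0, 0⟩, 0⟩, 0, 0⟩ 0 0))) (.pos 46 .mp ⟨⟨117354360, 0, 0, 0, 0, 0, 0, 0, 0, ⟨0, 0⟩, 0⟩, 0, 0⟩ 0 0))))) (.pos 34 .mp ⟨⟨117329368, 0, 0, 0, 0, 0, 0, 0, 0, ⟨0, 0⟩, 0⟩, 0, 0⟩ 0 0))) (.pos 30 .mp ⟨⟨116321557, 0, 0, 0, 0, 0, 0, 0, 0, ⟨0, 0⟩, 0⟩, 0, 0⟩ 0 0)) (.void 28 ⟨⟨100000,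 0, 0, 0, 0, 0, 0, 0, 0, ⟨0, 0⟩, 0⟩, 0, 0⟩ 0 0)) (.void 26 ⟨⟨100000, 0, 0, 0, 0, 0, 0, 0, 0, ⟨0, 0⟩, 0⟩, 0, 0⟩ 0 0)))))))) (.void 24 ⟨⟨100000, 0, 0, 0, 0, 0, 0, 0, 0, ⟨0, 0⟩, 0⟩, 0, 0⟩ 0 0))) (.void 22 ⟨⟨100000, 0, 0, 0, 0, 0, 0, 0, 0, ⟨0, 0⟩, 0⟩, 0, 0⟩ 0 0))) (.void 20 ⟨⟨100000, 0, 0, 0, 0, 0, 0, 0, 0, ⟨0, 0⟩, 0⟩, 0, 0⟩ 0 0))) (.void 18 ⟨⟨100000, 0, 0, 0, 0, 0, 0, 0, 0, ⟨0, 0⟩, 0⟩, 0, 0⟩ 0 0)) (.void 97 ⟨⟨100000, 0, 0, 0, 0, 0, 0, 0, 0, ⟨0, 0⟩, 0⟩, 0, 0⟩ 0 0))) (.cut .v 16777216 (.cut .v 8388608 (.cut .v 4194304 (.void 4 ⟨⟨0, 0, 66667, 0, 0, 0, 0, 0, 0, ⟨0, 0⟩, 0⟩, 0, 33333⟩ 0 0) (.pos 5 .pm ⟨⟨0, 0, 590041, 0, 0, 0, 0, 0, 0, ⟨0,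 0⟩, 0⟩, 0, 0⟩ 0 0)) (.pos 3 .pm ⟨⟨0, 0, 0, 0, 0, 0, 0, 0, 0, ⟨0, 0⟩, 0⟩, 0, 0⟩ 0 0)) (.cut .d 6320185 (.cut .v 33554432 (.cut .d 3160092 (.cut .v 25165824 (.cut .d 1580046 (.cut .v 20971520 (.cut .d 790023 (.cut .d 395011 (.cut .v 18874368 (.cut .s 9830400 (.pos 21 .pp ⟨⟨53993743, 0, 0, 0, 0, 0, 0, 0, 0, ⟨0, 0⟩, 0⟩, 3419491, 0⟩ 0 0) (.pos 21 .pp ⟨⟨60610810, 0, 0, 0, 0, 0, 0, 0, 0, ⟨0, 0⟩, 0⟩, 4209406, 0⟩ 0 0)) (.pos 22 .pp ⟨⟨129093855, 0, 0, 0, 0, 0, 0, 0, 0, ⟨0, 0⟩, 0⟩, 0, 0⟩ 0 0)) (.pos 19 .pp ⟨⟨71906283, 0, 0, 0, 0, 0, 0, 0, 0, ⟨0, 0⟩, 0⟩, 0, 98663⟩ 0 0)) (.pos 19 .pp ⟨⟨0, 0, 0, 0, 0, 0, 0, 0, 0, ⟨0, 0⟩, 0⟩, 0, 593538⟩ 0 0))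 (.cut .d 790023 (.cut .d 395011 (.pos 20 .pp ⟨⟨224239577, 0, 0, 0, 0, 0, 0, 0, 0, ⟨0, 0⟩, 0⟩, 0, 0⟩ 0 0) (.pos 20 .pp ⟨⟨0, 0, 0, 0, 0, 0, 0, 0, 0, ⟨0, 0⟩, 0⟩, 11738040, 0⟩ 0 0)) (.pos 20 .pp ⟨⟨0, 0, 0, 0, 0, 0, 290469, 0, 0, ⟨0, 0⟩, 0⟩, 8612700, 0⟩ 0 0))) (.pos 17 .pp ⟨⟨0, 0, 0, 0, 0, 0, 0, 0, 0, ⟨0, 0⟩, 0⟩, 0, 641021⟩ 0 0)) (.cut .d 1580046 (.cut .d 790023 (.void 18 ⟨⟨0, 0, 0, 0, 0, 0, 0, 0, 0, ⟨0, 0⟩, 0⟩, 100000, 0⟩ 0 0) (.pos 18 .pp ⟨⟨0, 0, 0, 0, 0, 0, 0, 0, 0, ⟨0, 0⟩, 0⟩, 14861573, 0⟩ 0 0)) (.pos 18 .pp ⟨⟨0, 0, 0, 0, 0, 0, 118308, 0, 0, ⟨0, 0⟩, 0⟩, 10417197, 0⟩ 0 0))) (.pos 16 .pp ⟨⟨0, 0, 0, 0, 0, 0, 0, 0, 0, ⟨0, 0⟩, 0⟩, 0,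 712245⟩ 0 0)) (.cut .v 50331648 (.cut .d 3160092 (.cut .d 1580046 (.void 100 ⟨⟨0, 0, 0, 0, 0, 0, 0, 0, 0, ⟨0, 0⟩, 0⟩, 100000, 0⟩ 0 0) (.cut .v 41943040 (.pos 102 .pp ⟨⟨0, 0, 0, 0, 0, 0, 0, 0, 0, ⟨0, 0⟩, 0⟩, 16904547, 0⟩ 0 0) (.pos 103 .pp ⟨⟨0, 0, 0, 0, 0, 0, 0, 0, 0, ⟨0, 0⟩, 0⟩, 66734039, 0⟩ 0 0))) (.pos 100 .pp ⟨⟨0, 0, 0, 0, 0, 0, 124573010, 0, 0, ⟨0, 0⟩, 0⟩, 9078929, 0⟩ 0 0)) (.pos 101 .pp ⟨⟨0, 0, 0, 0, 0, 0, 316894556, 0, 0, ⟨0, 0⟩, 0⟩, 39973580, 0⟩ 0 0))) (.pos 96 .pp ⟨⟨0, 0, 0, 0, 0, 0, 236626739, 0, 0, ⟨0, 0⟩, 0⟩, 0, 133726331⟩ 0 0)))),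
    by decide +kernel⟩

def covers13 : cell.Covers Vale.Agent.P237.Petty.Cor.Grid.N17.table row13.1 :=
  ⟨(.cut .d 0 (.cut .v 16777216 (.cut .d (-8388608) (.void 1 ⟨⟨0, 0, 0, 0, 0, 100000, 0, 0, 0, ⟨0, 0⟩, 0⟩, 0, 0⟩ 0 0) (.cut .d (-4194304) (.void 1 ⟨⟨0, 0, 0, 0, 0, 100000, 0, 0, 0, ⟨0, 0⟩, 0⟩, 0, 0⟩ 0 0) (.cut .d (-2097152) (.void 1 ⟨⟨0, 0, 0, 0, 0, 100000, 0, 0, 0, ⟨0, 0⟩, 0⟩, 0, 0⟩ 0 0) (.cut .d (-1048576) (.void 1 ⟨⟨0, 0, 0, 0, 0, 100000, 0, 0, 0, ⟨0, 0⟩, 0⟩, 0, 0⟩ 0 0) (.cut .d (-524288) (.void 1 ⟨⟨0, 0, 0, 0, 0, 100000, 0, 0, 0, ⟨0, 0⟩, 0⟩, 0, 0⟩ 0 0) (.cut .d (-262144) (.void 1 ⟨⟨0, 0, 0, 0, 0, 100000, 0, 0, 0, ⟨0, 0⟩,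 0⟩, 0, 0⟩ 0 0) (.cut .d (-131072) (.void 1 ⟨⟨0, 0, 0, 0, 0, 100000, 0, 0, 0, ⟨0, 0⟩, 0⟩, 0, 0⟩ 0 0) (.cut .d (-65536) (.void 1 ⟨⟨0, 0, 0, 0, 0, 100000, 0, 0, 0, ⟨0, 0⟩, 0⟩, 0, 0⟩ 0 0) (.cut .d (-32768) (.void 1 ⟨⟨0, 0, 0, 0, 0, 100000, 0, 0, 0, ⟨0, 0⟩, 0⟩, 0, 0⟩ 0 0) (.cut .v 8388608 (.cut .v 4194304 (.void 4 ⟨⟨0, 0, 100000, 0, 0, 0, 0, 0, 0, ⟨0, 0⟩, 0⟩, 0, 0⟩ 0 0) (.pos 5 .mm ⟨⟨0, 0, 1393139, 0, 0, 71108872, 0, 0, 0, ⟨0, 0⟩, 0⟩, 0, 0⟩ 0 0)) (.cut .d (-16384) (.pos 3 .mm ⟨⟨0, 0, 0, 0, 0, 206638054, 0, 0, 0, ⟨0, 0⟩, 0⟩, 0, 0⟩ 0 0) (.cut .s 10289152 (.pos 3 .mm ⟨⟨0, 0, 0, 0, 0, 171306279, 0, 0, 0, ⟨0, 0⟩, 0⟩, 0, 0⟩ 0 0) (.cut .s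 10387456 (.pos 3 .mm ⟨⟨0, 0, 0, 0, 0, 189705300, 0, 0, 0, ⟨0, 0⟩, 0⟩, 0, 0⟩ 0 0) (.pos 3 .mm ⟨⟨0, 0, 0, 0, 0, 201931698, 0, 0, 0, ⟨0, 0⟩, 0⟩, 0, 0⟩ 0 0)))))))))))))) (.cut .v 67108864 (.cut .v 33554432 (.cut .v 25165824 (.cut .d (-8388608) (.void 17 ⟨⟨0, 0, 0, 0, 0, 100000, 0, 0, 0, ⟨0, 0⟩, 0⟩, 0, 0⟩ 0 0) (.cut .v 20971520 (.cut .d (-4194304) (.void 19 ⟨⟨100000, 0, 0, 0, 0, 0, 0, 0, 0, ⟨0, 0⟩, 0⟩, 0, 0⟩ 0 0) (.cut .v 18874368 (.cut .d (-2097152) (.void 21 ⟨⟨100000, 0, 0, 0, 0, 0, 0, 0, 0, ⟨0, 0⟩, 0⟩, 0, 0⟩ 0 0) (.cut .v 17825792 (.cut .d (-1048576) (.void 23 ⟨⟨100000, 0, 0, 0, 0, 0, 0, 0, 0, ⟨0, 0⟩, 0⟩, 0, 0⟩ 0 0) (.cut .v 17301504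 (.cut .d (-524288) (.void 25 ⟨⟨100000, 0, 0, 0, 0, 0, 0, 0, 0, ⟨0, 0⟩, 0⟩, 0, 0⟩ 0 0) (.cut .d (-262144) (.void 25 ⟨⟨100000, 0, 0, 0, 0, 0, 0, 0, 0, ⟨0, 0⟩, 0⟩, 0, 0⟩ 0 0) (.cut .d (-131072) (.void 25 ⟨⟨100000, 0, 0, 0, 0, 0, 0, 0, 0, ⟨0, 0⟩, 0⟩, 0, 0⟩ 0 0) (.cut .d (-65536) (.void 25 ⟨⟨100000, 0, 0, 0, 0, 0, 0, 0, 0, ⟨0, 0⟩, 0⟩, 0, 0⟩ 0 0) (.cut .d (-32768) (.void 25 ⟨⟨0, 0, 0, 0, 0, 100000, 0, 0, 0, ⟨0, 0⟩, 0⟩, 0, 0⟩ 0 0) (.cut .v 17039360 (.cut .v 16908288 (.cut .s 10289152 (.cut .v 16842752 (.cut .d (-16384) (.cut .d (-24576) (.void 33 ⟨⟨0, 0, 0, 0, 0, 100000, 0, 0, 0, ⟨0, 0⟩, 0⟩, 0, 0⟩ 0 0) (.cut .d (-20480) (.void 33 ⟨⟨0,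 0, 0, 0, 0, 100000, 0, 0, 0, ⟨0, 0⟩, 0⟩, 0, 0⟩ 0 0) (.cut .l 108558 (.void 33 ⟨⟨0, 0, 0, 0, 0, 100000, 0, 0, 0, ⟨0, 0⟩, 0⟩, 0, 0⟩ 0 0) (.cut .l 162837 (.void 33 ⟨⟨0, 0, 0, 0, 0, 100000, 0, 0, 0, ⟨0, 0⟩, 0⟩, 0, 0⟩ 0 0) (.cut .s 10190848 (.cut .s 10141696 (.pos 33 .mp ⟨⟨76573192, 0, 0, 0, 0, 64165265, 0, 0, 0, ⟨0, 0⟩, 0⟩, 0, 0⟩ 0 0) (.pos 33 .mp ⟨⟨78581563, 0, 0, 0, 0, 66323655, 0, 0, 0, ⟨0, 0⟩, 0⟩, 0, 0⟩ 0 0)) (.cut .s 10240000 (.pos 33 .mp ⟨⟨80691847, 0, 0, 0, 0, 68500048, 0, 0, 0, ⟨0, 0⟩, 0⟩, 0, 0⟩ 0 0) (.cut .s 10264576 (.pos 33 .mp ⟨⟨82927501, 0, 0, 0, 0, 68197478, 0, 0, 0, ⟨0, 0⟩, 0⟩, 0, 0⟩ 0 0) (.pos 33 .mp ⟨⟨84090072, 0,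 0, 0, 0, 69237138, 0, 0, 0, ⟨0, 0⟩, 0⟩, 0, 0⟩ 0 0)))))))) (.cut .s 10190848 (.cut .v 16809984 (.cut .s 10141696 (.cut .s 10117120 (.cut .s 10104832 (.pos 45 .mp ⟨⟨77577259, 0, 0, 0, 0, 58781333, 0, 0, 0, ⟨0, 0⟩, 0⟩, 0, 0⟩ 0 0) (.pos 45 .mp ⟨⟨78145722, 0, 0, 0, 0, 59126228, 0, 0, 0, ⟨0, 0⟩, 0⟩, 0, 0⟩ 0 0)) (.cut .l 108558 (.cut .d (-8192) (.pos 45 .mp ⟨⟨76661808, 0, 0, 0, 0, 65122915, 0, 0, 0, ⟨0, 0⟩, 0⟩, 0, 0⟩ 0 0) (.cut .s 10129408 (.pos 45 .mp ⟨⟨78039645, 0, 0, 0, 0, 60348238, 0, 0, 0, ⟨0, 0⟩, 0⟩, 0, 0⟩ 0 0) (.pos 45 .mp ⟨⟨78617516, 0, 0, 0, 0, 60703276, 0, 0, 0, ⟨0, 0⟩, 0⟩, 0, 0⟩ 0 0))) (.pos 45 .mp ⟨⟨78445063, 0, 0, 0, 0,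 59578152, 0, 0, 0, ⟨0, 0⟩, 0⟩, 0, 0⟩ 0 0))) (.cut .s 10166272 (.cut .l 108558 (.cut .d (-8192) (.pos 45 .mp ⟨⟨77769147, 0, 0, 0, 0, 65896950, 0, 0, 0, ⟨0, 0⟩, 0⟩, 0, 0⟩ 0 0) (.cut .v 16793600 (.cut .s 10153984 (.pos 49 .mp ⟨⟨79027543, 0, 0, 0, 0, 61298362, 0, 0, 0, ⟨0, 0⟩, 0⟩, 0, 0⟩ 0 0) (.cut .s 10160128 (.pos 49 .mp ⟨⟨80251971, 0, 0, 0, 0, 60578614, 0, 0, 0, ⟨0, 0⟩, 0⟩, 0, 0⟩ 0 0) (.pos 49 .mp ⟨⟨80455886, 0, 0, 0, 0, 60883540, 0, 0, 0, ⟨0, 0⟩, 0⟩, 0, 0⟩ 0 0))) (.pos 50 .mp ⟨⟨122710272, 0, 0, 0, 0, 0, 0, 0, 0, ⟨0, 0⟩, 0⟩, 0, 0⟩ 0 0))) (.pos 45 .mp ⟨⟨79597563, 0, 0, 0, 0, 60410633, 0, 0, 0, ⟨0, 0⟩, 0⟩, 0, 0⟩ 0 0)) (.cut .s 10178560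 (.cut .s 10172416 (.pos 45 .mp ⟨⟨80750739, 0, 0, 0, 0, 61093065, 0, 0, 0, ⟨0, 0⟩, 0⟩, 0, 0⟩ 0 0) (.pos 45 .mp ⟨⟨81044973, 0, 0, 0, 0, 61286272, 0, 0, 0, ⟨0, 0⟩, 0⟩, 0, 0⟩ 0 0)) (.cut .s 10184704 (.pos 45 .mp ⟨⟨81340174, 0, 0, 0, 0, 61481265, 0, 0, 0, ⟨0, 0⟩, 0⟩, 0, 0⟩ 0 0) (.pos 45 .mp ⟨⟨81636343, 0, 0, 0, 0, 61678043, 0, 0, 0, ⟨0, 0⟩, 0⟩, 0, 0⟩ 0 0))))) (.pos 46 .mp ⟨⟨124034000, 0, 0, 0, 0, 0, 0, 0, 0, ⟨0, 0⟩, 0⟩, 0, 0⟩ 0 0)) (.cut .v 16809984 (.cut .s 10240000 (.cut .s 10215424 (.cut .s 10203136 (.cut .s 10196992 (.pos 45 .mp ⟨⟨81933483, 0, 0, 0, 0, 61876604, 0, 0, 0, ⟨0, 0⟩, 0⟩, 0, 0⟩ 0 0) (.cut .s 10200064 (.pos 45 .mp ⟨⟨82224881,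 0, 0, 0, 0, 61952421, 0, 0, 0, ⟨0, 0⟩, 0⟩, 0, 0⟩ 0 0) (.pos 45 .mp ⟨⟨82333927, 0, 0, 0, 0, 62107387, 0, 0, 0, ⟨0, 0⟩, 0⟩, 0, 0⟩ 0 0))) (.cut .d (-8192) (.pos 45 .mp ⟨⟨81057088, 0, 0, 0, 0, 65147224, 0, 0, 0, ⟨0, 0⟩, 0⟩, 0, 0⟩ 0 0) (.cut .s 10209280 (.pos 45 .mp ⟨⟨81710613, 0, 0, 0, 0, 63399205, 0, 0, 0, ⟨0, 0⟩, 0⟩, 0, 0⟩ 0 0) (.pos 45 .mp ⟨⟨82036274, 0, 0, 0, 0, 63558370, 0, 0, 0, ⟨0, 0⟩, 0⟩, 0, 0⟩ 0 0)))) (.cut .s 10227712 (.cut .l 108558 (.cut .d (-8192) (.pos 45 .mp ⟨⟨81225051, 0, 0, 0, 0, 67093824, 0, 0, 0, ⟨0, 0⟩, 0⟩, 0, 0⟩ 0 0) (.cut .s 10221568 (.pos 45 .mp ⟨⟨82403072, 0, 0, 0, 0, 63628165, 0, 0, 0, ⟨0, 0⟩, 0⟩, 0, 0⟩ 0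 0) (.pos 45 .mp ⟨⟨82702083, 0, 0, 0, 0, 63839676, 0, 0, 0, ⟨0, 0⟩, 0⟩, 0, 0⟩ 0 0))) (.pos 45 .mp ⟨⟨82545255, 0, 0, 0, 0, 63299064, 0, 0, 0, ⟨0, 0⟩, 0⟩, 0, 0⟩ 0 0)) (.cut .l 108558 (.cut .d (-8192) (.pos 45 .mp ⟨⟨81814094, 0, 0, 0, 0, 67528290, 0, 0, 0, ⟨0, 0⟩, 0⟩, 0, 0⟩ 0 0) (.cut .s 10233856 (.pos 45 .mp ⟨⟨83000981, 0, 0, 0, 0, 64054700, 0, 0, 0, ⟨0, 0⟩, 0⟩, 0, 0⟩ 0 0) (.pos 45 .mp ⟨⟨83300845, 0, 0, 0, 0, 64271527, 0, 0, 0, ⟨0, 0⟩, 0⟩, 0, 0⟩ 0 0))) (.pos 45 .mp ⟨⟨83146337, 0, 0, 0, 0, 63747818, 0, 0, 0, ⟨0, 0⟩, 0⟩, 0, 0⟩ 0 0)))) (.cut .s 10264576 (.cut .s 10252288 (.cut .l 108558 (.cut .d (-8192) (.pos 45 .mp ⟨⟨82406920, 0, 0,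 0, 0, 67973061, 0, 0, 0, ⟨0, 0⟩, 0⟩, 0, 0⟩ 0 0) (.cut .s 10246144 (.pos 45 .mp ⟨⟨83601676, 0, 0, 0, 0, 64490156, 0, 0, 0, ⟨0, 0⟩, 0⟩, 0, 0⟩ 0 0) (.pos 45 .mp ⟨⟨83903478, 0, 0, 0, 0, 64710583, 0, 0, 0, ⟨0, 0⟩, 0⟩, 0, 0⟩ 0 0))) (.pos 45 .mp ⟨⟨83751313, 0, 0, 0, 0, 64200194, 0, 0, 0, ⟨0, 0⟩, 0⟩, 0, 0⟩ 0 0)) (.cut .l 108558 (.cut .d (-8192) (.pos 45 .mp ⟨⟨83003547, 0, 0, 0, 0, 68428207, 0, 0, 0, ⟨0, 0⟩, 0⟩, 0, 0⟩ 0 0) (.cut .s 10258432 (.pos 45 .mp ⟨⟨84206252, 0, 0, 0, 0, 64932808, 0, 0, 0, ⟨0, 0⟩, 0⟩, 0, 0⟩ 0 0) (.pos 45 .mp ⟨⟨84510002, 0, 0, 0, 0, 65156828, 0, 0, 0, ⟨0, 0⟩, 0⟩, 0, 0⟩ 0 0))) (.pos 45 .mp ⟨⟨84360202, 0, 0, 0, 0, 64656114,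 0, 0, 0, ⟨0, 0⟩, 0⟩, 0, 0⟩ 0 0))) (.cut .s 10276864 (.cut .l 108558 (.cut .d (-8192) (.pos 45 .mp ⟨⟨83603994, 0, 0, 0, 0, 68893799, 0, 0, 0, ⟨0, 0⟩, 0⟩, 0, 0⟩ 0 0) (.cut .s 10270720 (.pos 45 .mp ⟨⟨84814729, 0, 0, 0, 0, 65382641, 0, 0, 0, ⟨0, 0⟩, 0⟩, 0, 0⟩ 0 0) (.pos 45 .mp ⟨⟨85120436, 0, 0, 0, 0, 65610245, 0, 0, 0, ⟨0, 0⟩, 0⟩, 0, 0⟩ 0 0))) (.pos 45 .mp ⟨⟨84973024, 0, 0, 0, 0, 65115502, 0, 0, 0, ⟨0, 0⟩, 0⟩, 0, 0⟩ 0 0)) (.cut .l 108558 (.cut .d (-8192) (.pos 45 .mp ⟨⟨84208281, 0, 0, 0, 0, 69369907, 0, 0, 0, ⟨0, 0⟩, 0⟩, 0, 0⟩ 0 0) (.cut .v 16793600 (.cut .s 10283008 (.pos 49 .mp ⟨⟨85253278, 0, 0, 0, 0, 66075500, 0, 0, 0, ⟨0, 0⟩,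 0⟩, 0, 0⟩ 0 0) (.pos 49 .mp ⟨⟨85560378, 0, 0, 0, 0, 66307565, 0, 0, 0, ⟨0, 0⟩, 0⟩, 0, 0⟩ 0 0)) (.pos 50 .mp ⟨⟨131123747, 0, 0, 0, 0, 0, 0, 0, 0, ⟨0, 0⟩, 0⟩, 0, 0⟩ 0 0))) (.pos 45 .mp ⟨⟨85589800, 0, 0, 0, 0, 65578278, 0, 0, 0, ⟨0, 0⟩, 0⟩, 0, 0⟩ 0 0))))) (.pos 46 .mp ⟨⟨130659468, 0, 0, 0, 0, 0, 0, 0, 0, ⟨0, 0⟩, 0⟩, 0, 0⟩ 0 0)))) (.pos 34 .mp ⟨⟨133597295, 0, 0, 0, 0, 0, 0, 0, 0, ⟨0, 0⟩, 0⟩, 0, 0⟩ 0 0)) (.cut .v 16842752 (.cut .d (-16384) (.cut .d (-24576) (.void 33 ⟨⟨0, 0, 0, 0, 0, 100000, 0, 0, 0, ⟨0, 0⟩, 0⟩, 0, 0⟩ 0 0) (.cut .d (-20480) (.void 33 ⟨⟨0, 0, 0, 0, 0, 100000, 0, 0, 0, ⟨0, 0⟩, 0⟩, 0, 0⟩ 0 0) (.cut .d (-18432) (.pos 33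 .mp ⟨⟨85214431, 0, 0, 0, 0, 103266765, 0, 0, 0, ⟨0, 0⟩, 0⟩, 0, 0⟩ 0 0) (.cut .l 108558 (.void 33 ⟨⟨0, 0, 0, 0, 0, 100000, 0, 0, 0, ⟨0, 0⟩, 0⟩, 0, 0⟩ 0 0) (.cut .l 162837 (.void 33 ⟨⟨0, 0, 0, 0, 0, 100000, 0, 0, 0, ⟨0, 0⟩, 0⟩, 0, 0⟩ 0 0) (.cut .l 189977 (.pos 33 .mp ⟨⟨85250398, 0, 0, 0, 0, 119971726, 0, 0, 0, ⟨0, 0⟩, 0⟩, 0, 0⟩ 0 0) (.cut .v 16809984 (.pos 45 .mp ⟨⟨3507774, 0, 0, 0, 0, 188187766, 0, 0, 0, ⟨0, 0⟩, 0⟩, 0, 0⟩ 0 0) (.cut .s 10387456 (.cut .s 10338304 (.pos 46 .mp ⟨⟨88307376, 0, 0, 0, 0, 65917481, 0, 0, 0, ⟨0, 0⟩, 0⟩, 0, 0⟩ 0 0) (.pos 46 .mp ⟨⟨90887661, 0, 0, 0, 0, 67669583, 0, 0, 0, ⟨0, 0⟩, 0⟩, 0, 0⟩ 0 0)) (.pos 46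 .mp ⟨⟨96248362, 0, 0, 0, 0, 68038010, 0, 0, 0, ⟨0, 0⟩, 0⟩, 0, 0⟩ 0 0))))))))) (.cut .s 10387456 (.cut .s 10338304 (.cut .v 16809984 (.cut .s 10313728 (.cut .s 10301440 (.cut .l 108558 (.cut .d (-8192) (.pos 45 .mp ⟨⟨84816427, 0, 0, 0, 0, 69856605, 0, 0, 0, ⟨0, 0⟩, 0⟩, 0, 0⟩ 0 0) (.cut .v 16793600 (.cut .s 10295296 (.pos 49 .mp ⟨⟨85868464, 0, 0, 0, 0, 66541417, 0, 0, 0, ⟨0, 0⟩, 0⟩, 0, 0⟩ 0 0) (.pos 49 .mp ⟨⟨86177539, 0, 0, 0, 0, 66777056, 0, 0, 0, ⟨0, 0⟩, 0⟩, 0, 0⟩ 0 0)) (.pos 50 .mp ⟨⟨132015671, 0, 0, 0, 0, 0, 0, 0, 0, ⟨0, 0⟩, 0⟩, 0, 0⟩ 0 0))) (.pos 45 .mp ⟨⟨86210549, 0, 0, 0, 0, 66044365, 0, 0, 0, ⟨0, 0⟩, 0⟩, 0, 0⟩ 0 0)) (.cut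 .s 10307584 (.cut .s 10304512 (.pos 45 .mp ⟨⟨87293242, 0, 0, 0, 0, 65822525, 0, 0, 0, ⟨0, 0⟩, 0⟩, 0, 0⟩ 0 0) (.pos 45 .mp ⟨⟨87450892, 0, 0, 0, 0, 65938389, 0, 0, 0, ⟨0, 0⟩, 0⟩, 0, 0⟩ 0 0)) (.cut .s 10310656 (.pos 45 .mp ⟨⟨87608797, 0, 0, 0, 0, 66054688, 0, 0, 0, ⟨0, 0⟩, 0⟩, 0, 0⟩ 0 0) (.pos 45 .mp ⟨⟨87766957, 0, 0, 0, 0, 66171424, 0, 0, 0, ⟨0, 0⟩, 0⟩, 0, 0⟩ 0 0)))) (.cut .s 10326016 (.cut .s 10319872 (.cut .s 10316800 (.pos 45 .mp ⟨⟨87925373, 0, 0, 0, 0, 66288594, 0, 0, 0, ⟨0, 0⟩, 0⟩, 0, 0⟩ 0 0) (.pos 45 .mp ⟨⟨88084045, 0, 0, 0, 0, 66406200, 0, 0, 0, ⟨0, 0⟩, 0⟩, 0, 0⟩ 0 0)) (.cut .s 10322944 (.pos 45 .mp ⟨⟨88242972, 0, 0, 0, 0,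 66524240, 0, 0, 0, ⟨0, 0⟩, 0⟩, 0, 0⟩ 0 0) (.pos 45 .mp ⟨⟨88402156, 0, 0, 0, 0, 66642715, 0, 0, 0, ⟨0, 0⟩, 0⟩, 0, 0⟩ 0 0))) (.cut .s 10332160 (.cut .s 10329088 (.pos 45 .mp ⟨⟨88561597, 0, 0, 0, 0, 66761624, 0, 0, 0, ⟨0, 0⟩, 0⟩, 0, 0⟩ 0 0) (.pos 45 .mp ⟨⟨88721295, 0, 0, 0, 0, 66880967, 0, 0, 0, ⟨0, 0⟩, 0⟩, 0, 0⟩ 0 0)) (.cut .s 10335232 (.pos 45 .mp ⟨⟨88881250, 0, 0, 0, 0, 67000743, 0, 0, 0, ⟨0, 0⟩, 0⟩, 0, 0⟩ 0 0) (.pos 45 .mp ⟨⟨89041463, 0, 0, 0, 0, 67120952, 0, 0, 0, ⟨0, 0⟩, 0⟩, 0, 0⟩ 0 0))))) (.pos 46 .mp ⟨⟨134604746, 0, 0, 0, 0, 0, 0, 0, 0, ⟨0, 0⟩, 0⟩, 0, 0⟩ 0 0)) (.cut .v 16809984 (.cut .s 10362880 (.cut .s 10350592 (.cut .l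 108558 (.cut .d (-8192) (.pos 45 .mp ⟨⟨87288008, 0, 0, 0, 0, 71910731, 0, 0, 0, ⟨0, 0⟩, 0⟩, 0, 0⟩ 0 0) (.cut .v 16793600 (.cut .s 10344448 (.pos 49 .mp ⟨⟨88368955, 0, 0, 0, 0, 68476330, 0, 0, 0, ⟨0, 0⟩, 0⟩, 0, 0⟩ 0 0) (.pos 49 .mp ⟨⟨88686030, 0, 0, 0, 0, 68726171, 0, 0, 0, ⟨0, 0⟩, 0⟩, 0, 0⟩ 0 0)) (.pos 50 .mp ⟨⟨135689317, 0, 0, 0, 0, 0, 0, 0, 0, ⟨0, 0⟩, 0⟩, 0, 0⟩ 0 0))) (.pos 45 .mp ⟨⟨88733693, 0, 0, 0, 0, 67940255, 0, 0, 0, ⟨0, 0⟩, 0⟩, 0, 0⟩ 0 0)) (.cut .l 108558 (.cut .d (-8192) (.pos 45 .mp ⟨⟨87915753, 0, 0, 0, 0, 72451464, 0, 0, 0, ⟨0, 0⟩, 0⟩, 0, 0⟩ 0 0) (.cut .s 10356736 (.cut .s 10353664 (.pos 45 .mp ⟨⟨88938769, 0, 0, 0,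 0, 68945698, 0, 0, 0, ⟨0, 0⟩, 0⟩, 0, 0⟩ 0 0) (.pos 45 .mp ⟨⟨89106310, 0, 0, 0, 0, 69061490, 0, 0, 0, ⟨0, 0⟩, 0⟩, 0, 0⟩ 0 0)) (.pos 45 .mp ⟨⟨89504674, 0, 0, 0, 0, 68983529, 0, 0, 0, ⟨0, 0⟩, 0⟩, 0, 0⟩ 0 0))) (.pos 45 .mp ⟨⟨89374620, 0, 0, 0, 0, 68421720, 0, 0, 0, ⟨0, 0⟩, 0⟩, 0, 0⟩ 0 0))) (.cut .s 10375168 (.cut .l 108558 (.cut .d (-8192) (.pos 45 .mp ⟨⟨88547479, 0, 0, 0, 0, 73003227, 0, 0, 0, ⟨0, 0⟩, 0⟩, 0, 0⟩ 0 0) (.cut .s 10369024 (.pos 45 .mp ⟨⟨89825390, 0, 0, 0, 0, 69237732, 0, 0, 0, ⟨0, 0⟩, 0⟩, 0, 0⟩ 0 0) (.pos 45 .mp ⟨⟨90147127, 0, 0, 0, 0, 69493689, 0, 0, 0, ⟨0, 0⟩, 0⟩, 0, 0⟩ 0 0))) (.pos 45 .mp ⟨⟨90019646, 0, 0, 0, 0, 68906024,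 0, 0, 0, ⟨0, 0⟩, 0⟩, 0, 0⟩ 0 0)) (.cut .l 108558 (.cut .d (-8192) (.pos 45 .mp ⟨⟨89183206, 0, 0, 0, 0, 73566095, 0, 0, 0, ⟨0, 0⟩, 0⟩, 0, 0⟩ 0 0) (.cut .s 10381312 (.pos 45 .mp ⟨⟨90469889, 0, 0, 0, 0, 69751399, 0, 0, 0, ⟨0, 0⟩, 0⟩, 0, 0⟩ 0 0) (.pos 45 .mp ⟨⟨90793677, 0, 0, 0, 0, 70010858, 0, 0, 0, ⟨0, 0⟩, 0⟩, 0, 0⟩ 0 0))) (.pos 45 .mp ⟨⟨90668792, 0, 0, 0, 0, 69393088, 0, 0, 0, ⟨0, 0⟩, 0⟩, 0, 0⟩ 0 0)))) (.pos 46 .mp ⟨⟨138374600, 0, 0, 0, 0, 0, 0, 0, 0, ⟨0, 0⟩, 0⟩, 0, 0⟩ 0 0))) (.cut .s 10436608 (.cut .v 16809984 (.cut .s 10412032 (.cut .s 10399744 (.cut .l 108558 (.cut .d (-8192) (.pos 45 .mp ⟨⟨89822956, 0, 0, 0, 0, 74140144, 0,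 0, 0, ⟨0, 0⟩, 0⟩, 0, 0⟩ 0 0) (.cut .s 10393600 (.pos 45 .mp ⟨⟨91118495, 0, 0, 0, 0, 70272064, 0, 0, 0, ⟨0, 0⟩, 0⟩, 0, 0⟩ 0 0) (.pos 45 .mp ⟨⟨91444344, 0, 0, 0, 0, 70535014, 0, 0, 0, ⟨0, 0⟩, 0⟩, 0, 0⟩ 0 0))) (.pos 45 .mp ⟨⟨91322080, 0, 0, 0, 0, 69882833, 0, 0, 0, ⟨0, 0⟩, 0⟩, 0, 0⟩ 0 0)) (.cut .l 108558 (.cut .d (-8192) (.pos 45 .mp ⟨⟨90466750, 0, 0, 0, 0, 74725451, 0, 0, 0, ⟨0, 0⟩, 0⟩, 0, 0⟩ 0 0) (.cut .s 10405888 (.pos 45 .mp ⟨⟨91771229, 0, 0, 0, 0, 70799707, 0, 0, 0, ⟨0, 0⟩, 0⟩, 0, 0⟩ 0 0) (.pos 45 .mp ⟨⟨92099151, 0, 0, 0, 0, 71066139, 0, 0, 0, ⟨0, 0⟩, 0⟩, 0, 0⟩ 0 0))) (.pos 45 .mp ⟨⟨91979531, 0, 0, 0, 0, 70375179, 0, 0, 0, ⟨0,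 0⟩, 0⟩, 0, 0⟩ 0 0))) (.cut .s 10424320 (.cut .d (-8192) (.pos 45 .mp ⟨⟨91523226, 0, 0, 0, 0, 73658055, 0, 0, 0, ⟨0, 0⟩, 0⟩, 0, 0⟩ 0 0) (.cut .s 10418176 (.pos 45 .mp ⟨⟨92366891, 0, 0, 0, 0, 71465892, 0, 0, 0, ⟨0, 0⟩, 0⟩, 0, 0⟩ 0 0) (.pos 45 .mp ⟨⟨92662701, 0, 0, 0, 0, 71794864, 0, 0, 0, ⟨0, 0⟩, 0⟩, 0, 0⟩ 0 0))) (.cut .d (-8192) (.pos 45 .mp ⟨⟨92326158, 0, 0, 0, 0, 73998067, 0, 0, 0, ⟨0, 0⟩, 0⟩, 0, 0⟩ 0 0) (.cut .s 10430464 (.pos 45 .mp ⟨⟨92984532, 0, 0, 0, 0, 72090231, 0, 0, 0, ⟨0, 0⟩, 0⟩, 0, 0⟩ 0 0) (.pos 45 .mp ⟨⟨93373219, 0, 0, 0, 0, 72293022, 0, 0, 0, ⟨0, 0⟩, 0⟩, 0, 0⟩ 0 0))))) (.pos 46 .mp ⟨⟨142316795, 0, 0, 0, 0, 0, 0, 0,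 0, ⟨0, 0⟩, 0⟩, 0, 0⟩ 0 0)) (.cut .v 16809984 (.cut .s 10461184 (.cut .s 10448896 (.cut .s 10442752 (.pos 45 .mp ⟨⟨94644479, 0, 0, 0, 0, 71256154, 0, 0, 0, ⟨0, 0⟩, 0⟩, 0, 0⟩ 0 0) (.pos 45 .mp ⟨⟨94983646, 0, 0, 0, 0, 71525882, 0, 0, 0, ⟨0, 0⟩, 0⟩, 0, 0⟩ 0 0)) (.cut .s 10455040 (.pos 45 .mp ⟨⟨95323896, 0, 0, 0, 0, 71797292, 0, 0, 0, ⟨0, 0⟩, 0⟩, 0, 0⟩ 0 0) (.pos 45 .mp ⟨⟨94638247, 0, 0, 0, 0, 73601906, 0, 0, 0, ⟨0, 0⟩, 0⟩, 0, 0⟩ 0 0))) (.cut .s 10473472 (.cut .s 10467328 (.pos 45 .mp ⟨⟨95276846, 0, 0, 0, 0, 73435398, 0, 0, 0, ⟨0, 0⟩, 0⟩, 0, 0⟩ 0 0) (.pos 45 .mp ⟨⟨95930409, 0, 0, 0, 0, 73249524, 0, 0, 0, ⟨0, 0⟩, 0⟩, 0, 0⟩ 0 0)) (.cut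 .s 10479616 (.pos 45 .mp ⟨⟨96599010, 0, 0, 0, 0, 73044157, 0, 0, 0, ⟨0, 0⟩, 0⟩, 0, 0⟩ 0 0) (.pos 45 .mp ⟨⟨97136197, 0, 0, 0, 0, 73049074, 0, 0, 0, ⟨0, 0⟩, 0⟩, 0, 0⟩ 0 0)))) (.pos 46 .mp ⟨⟨146434679, 0, 0, 0, 0, 0, 0, 0, 0, ⟨0, 0⟩, 0⟩, 0, 0⟩ 0 0))))) (.pos 34 .mp ⟨⟨148294242, 0, 0, 0, 0, 0, 0, 0, 0, ⟨0, 0⟩, 0⟩, 0, 0⟩ 0 0))) (.pos 30 .mp ⟨⟨147146260, 0, 0, 0, 0, 0, 0, 0, 0, ⟨0, 0⟩, 0⟩, 0, 0⟩ 0 0)) (.void 28 ⟨⟨100000, 0, 0, 0, 0, 0, 0, 0, 0, ⟨0, 0⟩, 0⟩, 0, 0⟩ 0 0))))))) (.void 26 ⟨⟨100000, 0, 0, 0, 0, 0, 0, 0, 0, ⟨0, 0⟩, 0⟩, 0, 0⟩ 0 0))) (.void 24 ⟨⟨100000, 0, 0, 0, 0, 0, 0, 0, 0, ⟨0, 0⟩, 0⟩, 0, 0⟩ 0 0))) (.void 22 ⟨⟨100000, 0, 0,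 0, 0, 0, 0, 0, 0, ⟨0, 0⟩, 0⟩, 0, 0⟩ 0 0))) (.void 20 ⟨⟨100000, 0, 0, 0, 0, 0, 0, 0, 0, ⟨0, 0⟩, 0⟩, 0, 0⟩ 0 0))) (.void 18 ⟨⟨100000, 0, 0, 0, 0, 0, 0, 0, 0, ⟨0, 0⟩, 0⟩, 0, 0⟩ 0 0)) (.void 97 ⟨⟨100000, 0, 0, 0, 0, 0, 0, 0, 0, ⟨0, 0⟩, 0⟩, 0, 0⟩ 0 0)) (.void 120 ⟨⟨100000, 0, 0, 0, 0, 0, 0, 0, 0, ⟨0, 0⟩, 0⟩, 0, 0⟩ 0 0))) (.cut .v 16777216 (.cut .v 8388608 (.cut .v 4194304 (.void 4 ⟨⟨0, 0, 66667, 0, 0, 0, 0, 0, 0, ⟨0, 0⟩, 0⟩, 0, 33333⟩ 0 0) (.pos 5 .pm ⟨⟨0, 0, 1328770, 0, 0, 0, 0, 0, 0, ⟨0, 0⟩, 0⟩, 0, 0⟩ 0 0)) (.pos 3 .pm ⟨⟨0, 0, 0, 0, 0, 0, 0, 0, 0, ⟨0, 0⟩, 0⟩, 0, 0⟩ 0 0)) (.cut .v 67108864 (.cut .d 5556092 (.cut .v 33554432 (.cut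 .d 2778046 (.cut .v 25165824 (.cut .d 1389023 (.cut .d 694511 (.cut .v 20971520 (.cut .v 18874368 (.cut .s 10289152 (.pos 21 .pp ⟨⟨58138038, 0, 0, 0, 0, 0, 0, 0, 0, ⟨0, 0⟩, 0⟩, 5838363, 0⟩ 0 0) (.pos 21 .pp ⟨⟨63357101, 0, 0, 0, 0, 0, 0, 0, 0, ⟨0, 0⟩, 0⟩, 6687898, 0⟩ 0 0)) (.pos 22 .pp ⟨⟨151437825, 0, 0, 0, 0, 0, 0, 0, 0, ⟨0, 0⟩, 0⟩, 0, 0⟩ 0 0)) (.pos 20 .pp ⟨⟨0, 0, 0, 0, 0, 0, 0, 0, 0, ⟨0, 0⟩, 0⟩, 18269854, 0⟩ 0 0)) (.pos 17 .pp ⟨⟨0, 0, 0, 0, 0, 0, 0, 0, 0, ⟨0, 0⟩, 0⟩, 10370988, 128903⟩ 0 0)) (.pos 17 .pp ⟨⟨0, 0, 0, 0, 0, 0, 0, 0, 0, ⟨0, 0⟩, 0⟩, 0, 518290⟩ 0 0)) (.cut .d 1389023 (.cut .d 694511 (.void 18 ⟨⟨0, 0, 0, 0, 0, 0, 0,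 0, 0, ⟨0, 0⟩, 0⟩, 100000, 0⟩ 0 0) (.pos 18 .pp ⟨⟨0, 0, 0, 0, 0, 0, 0, 0, 0, ⟨0, 0⟩, 0⟩, 19001687, 0⟩ 0 0)) (.pos 18 .pp ⟨⟨0, 0, 0, 0, 0, 0, 172246, 0, 0, ⟨0, 0⟩, 0⟩, 12807895, 0⟩ 0 0))) (.pos 16 .pp ⟨⟨0, 0, 0, 0, 0, 0, 0, 0, 0, ⟨0, 0⟩, 0⟩, 0, 575877⟩ 0 0)) (.cut .v 50331648 (.cut .d 2778046 (.cut .d 1389023 (.void 100 ⟨⟨0, 0, 0, 0, 0, 0, 0, 0, 0, ⟨0, 0⟩, 0⟩, 100000, 0⟩ 0 0) (.pos 100 .pp ⟨⟨0, 0, 0, 0, 0, 0, 0, 0, 0, ⟨0, 0⟩, 0⟩, 26008092, 0⟩ 0 0)) (.pos 100 .pp ⟨⟨0, 0, 0, 0, 0, 0, 0, 0, 0, ⟨0, 0⟩, 0⟩, 15864513, 0⟩ 0 0)) (.pos 101 .pp ⟨⟨0, 0, 0, 0, 0, 0, 0, 0, 0, ⟨0, 0⟩, 0⟩, 52829475, 0⟩ 0 0))) (.pos 96 .pp ⟨⟨0, 0, 0, 0, 0, 0, 0,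 0, 0, ⟨0, 0⟩, 0⟩, 0, 8606496⟩ 0 0)) (.void 120 ⟨⟨0, 92780, 0, 0, 0, 0, 0, 0, 0, ⟨0, 0⟩, 0⟩, 7220, 0⟩ 0 0)))),
    by decide +kernel⟩

def covers14 : cell.Covers Vale.Agent.P237.Petty.Cor.Grid.N17.table row14.1 :=
  ⟨(.cut .d 0 (.cut .v 16777216 (.cut .d (-8388608) (.void 1 ⟨⟨0, 0, 0, 0, 0, 100000, 0, 0, 0, ⟨0, 0⟩, 0⟩, 0, 0⟩ 0 0) (.cut .d (-4194304) (.void 1 ⟨⟨0, 0, 0, 0, 0, 100000, 0, 0, 0, ⟨0, 0⟩, 0⟩, 0, 0⟩ 0 0) (.cut .d (-2097152) (.void 1 ⟨⟨0, 0, 0, 0, 0, 100000, 0, 0, 0, ⟨0, 0⟩, 0⟩, 0, 0⟩ 0 0) (.cut .d (-1048576) (.void 1 ⟨⟨0, 0, 0, 0, 0, 100000, 0, 0, 0, ⟨0, 0⟩, 0⟩, 0, 0⟩ 0 0) (.cut .d (-524288) (.void 1 ⟨⟨0, 0, 0, 0, 0,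 100000, 0, 0, 0, ⟨0, 0⟩, 0⟩, 0, 0⟩ 0 0) (.cut .d (-262144) (.void 1 ⟨⟨0, 0, 0, 0, 0, 100000, 0, 0, 0, ⟨0, 0⟩, 0⟩, 0, 0⟩ 0 0) (.cut .d (-131072) (.void 1 ⟨⟨0, 0, 0, 0, 0, 100000, 0, 0, 0, ⟨0, 0⟩, 0⟩, 0, 0⟩ 0 0) (.cut .d (-65536) (.void 1 ⟨⟨0, 0, 0, 0, 0, 100000, 0, 0, 0, ⟨0, 0⟩, 0⟩, 0, 0⟩ 0 0) (.cut .d (-32768) (.void 1 ⟨⟨0, 0, 0, 0, 0, 100000, 0, 0, 0, ⟨0, 0⟩, 0⟩, 0, 0⟩ 0 0) (.cut .v 8388608 (.cut .v 4194304 (.void 4 ⟨⟨0, 0, 100000, 0, 0, 0, 0, 0, 0, ⟨0, 0⟩, 0⟩, 0, 0⟩ 0 0) (.pos 5 .mm ⟨⟨0, 0, 2113220, 0, 0, 89222344, 0, 0, 0, ⟨0, 0⟩, 0⟩, 0, 0⟩ 0 0)) (.cut .d (-16384) (.pos 3 .mm ⟨⟨0, 0, 0, 0, 0, 269302863, 0, 0, 0, ⟨0, 0⟩, 0⟩,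 0, 0⟩ 0 0) (.cut .v 12582912 (.pos 8 .mm ⟨⟨0, 0, 0, 0, 0, 139680514, 0, 0, 0, ⟨0, 0⟩, 0⟩, 0, 0⟩ 0 0) (.cut .v 14680064 (.pos 12 .mm ⟨⟨0, 0, 0, 0, 0, 166192511, 0, 0, 0, ⟨0, 0⟩, 0⟩, 0, 0⟩ 0 0) (.cut .v 15728640 (.pos 14 .mm ⟨⟨0, 0, 0, 0, 0, 180023729, 0, 0, 0, ⟨0, 0⟩, 0⟩, 0, 0⟩ 0 0) (.cut .v 16252928 (.pos 31 .mm ⟨⟨0, 0, 0, 0, 0, 187083143, 0, 0, 0, ⟨0, 0⟩, 0⟩, 0, 0⟩ 0 0) (.cut .v 16515072 (.pos 39 .mm ⟨⟨0, 0, 0, 0, 0, 211361231, 0, 0, 0, ⟨0, 0⟩, 0⟩, 0, 0⟩ 0 0) (.cut .v 16646144 (.pos 41 .mm ⟨⟨0, 0, 0, 0, 0, 223668397, 0, 0, 0, ⟨0, 0⟩, 0⟩, 0, 0⟩ 0 0) (.cut .v 16711680 (.pos 43 .mm ⟨⟨0, 0, 0, 0, 0, 228750111, 0, 0, 0, ⟨0, 0⟩, 0⟩,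 0, 0⟩ 0 0) (.cut .v 16744448 (.pos 47 .mm ⟨⟨0, 0, 0, 0, 0, 231307214, 0, 0, 0, ⟨0, 0⟩, 0⟩, 0, 0⟩ 0 0) (.cut .s 10682368 (.cut .s 10584064 (.pos 48 .mm ⟨⟨0, 0, 0, 0, 0, 215202216, 0, 0, 0, ⟨0, 0⟩, 0⟩, 0, 0⟩ 0 0) (.pos 48 .mm ⟨⟨0, 0, 0, 0, 0, 228350639, 0, 0, 0, ⟨0, 0⟩, 0⟩, 0, 0⟩ 0 0)) (.cut .s 10780672 (.pos 48 .mm ⟨⟨0, 0, 0, 0, 0, 242732323, 0, 0, 0, ⟨0, 0⟩, 0⟩, 0, 0⟩ 0 0) (.pos 48 .mm ⟨⟨0, 0, 0, 0, 0, 258381119, 0, 0, 0, ⟨0, 0⟩, 0⟩, 0, 0⟩ 0 0)))))))))))))))))))))) (.cut .v 67108864 (.cut .v 33554432 (.cut .v 25165824 (.cut .d (-8388608) (.void 17 ⟨⟨0, 0, 0, 0, 0, 100000, 0, 0, 0, ⟨0, 0⟩, 0⟩, 0, 0⟩ 0 0) (.cut .v 20971520 (.cut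 .d (-4194304) (.void 19 ⟨⟨100000, 0, 0, 0, 0, 0, 0, 0, 0, ⟨0, 0⟩, 0⟩, 0, 0⟩ 0 0) (.cut .v 18874368 (.cut .d (-2097152) (.void 21 ⟨⟨100000, 0, 0, 0, 0, 0, 0, 0, 0, ⟨0, 0⟩, 0⟩, 0, 0⟩ 0 0) (.cut .v 17825792 (.cut .d (-1048576) (.void 23 ⟨⟨100000, 0, 0, 0, 0, 0, 0, 0, 0, ⟨0, 0⟩, 0⟩, 0, 0⟩ 0 0) (.cut .v 17301504 (.cut .d (-524288) (.void 25 ⟨⟨100000, 0, 0, 0, 0, 0, 0, 0, 0, ⟨0, 0⟩, 0⟩, 0, 0⟩ 0 0) (.cut .v 17039360 (.cut .d (-262144) (.void 27 ⟨⟨100000, 0, 0, 0, 0, 0, 0, 0, 0, ⟨0, 0⟩, 0⟩, 0, 0⟩ 0 0) (.cut .d (-131072) (.void 27 ⟨⟨100000, 0, 0, 0, 0, 0, 0, 0, 0, ⟨0, 0⟩, 0⟩, 0, 0⟩ 0 0) (.cut .d (-65536) (.void 27 ⟨⟨100000, 0, 0, 0, 0,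 0, 0, 0, 0, ⟨0, 0⟩, 0⟩, 0, 0⟩ 0 0) (.cut .d (-32768) (.void 27 ⟨⟨0, 0, 0, 0, 0, 100000, 0, 0, 0, ⟨0, 0⟩, 0⟩, 0, 0⟩ 0 0) (.cut .v 16908288 (.cut .d (-16384) (.cut .v 16842752 (.cut .s 10682368 (.cut .s 10584064 (.pos 33 .mp ⟨⟨97303994, 0, 0, 0, 0, 86857132, 0, 0, 0, ⟨0, 0⟩, 0⟩, 0, 0⟩ 0 0) (.cut .s 10633216 (.pos 33 .mp ⟨⟨101898896, 0, 0, 0, 0, 86522437, 0, 0, 0, ⟨0, 0⟩, 0⟩, 0, 0⟩ 0 0) (.pos 33 .mp ⟨⟨104696091, 0, 0, 0, 0, 89233931, 0, 0, 0, ⟨0, 0⟩, 0⟩, 0, 0⟩ 0 0))) (.pos 33 .mp ⟨⟨106872976, 0, 0, 0, 0, 118365439, 0, 0, 0, ⟨0, 0⟩, 0⟩, 0, 0⟩ 0 0)) (.void 34 ⟨⟨100000, 0, 0, 0, 0, 0, 0, 0, 0, ⟨0, 0⟩, 0⟩, 0, 0⟩ 0 0)) (.cut .s 10682368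 (.cut .v 16842752 (.cut .s 10584064 (.cut .v 16809984 (.cut .s 10534912 (.cut .s 10510336 (.cut .s 10498048 (.cut .s 10491904 (.pos 45 .mp ⟨⟨97586768, 0, 0, 0, 0, 73189143, 0, 0, 0, ⟨0, 0⟩, 0⟩, 0, 0⟩ 0 0) (.pos 45 .mp ⟨⟨97785403, 0, 0, 0, 0, 73617044, 0, 0, 0, ⟨0, 0⟩, 0⟩, 0, 0⟩ 0 0)) (.cut .s 10504192 (.pos 45 .mp ⟨⟨97840735, 0, 0, 0, 0, 74275278, 0, 0, 0, ⟨0, 0⟩, 0⟩, 0, 0⟩ 0 0) (.pos 45 .mp ⟨⟨97835294, 0, 0, 0, 0, 75034439, 0, 0, 0, ⟨0, 0⟩, 0⟩, 0, 0⟩ 0 0))) (.cut .s 10522624 (.cut .s 10516480 (.pos 45 .mp ⟨⟨97843244, 0, 0, 0, 0, 75778034, 0, 0, 0, ⟨0, 0⟩, 0⟩, 0, 0⟩ 0 0) (.pos 45 .mp ⟨⟨97864685, 0, 0, 0, 0, 76505895, 0, 0, 0,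 ⟨0, 0⟩, 0⟩, 0, 0⟩ 0 0)) (.cut .s 10528768 (.pos 45 .mp ⟨⟨97899713, 0, 0, 0, 0, 77217859, 0, 0, 0, ⟨0, 0⟩, 0⟩, 0, 0⟩ 0 0) (.pos 45 .mp ⟨⟨98024177, 0, 0, 0, 0, 77800286, 0, 0, 0, ⟨0, 0⟩, 0⟩, 0, 0⟩ 0 0)))) (.cut .s 10559488 (.cut .s 10547200 (.cut .s 10541056 (.pos 45 .mp ⟨⟨98273908, 0, 0, 0, 0, 78199331, 0, 0, 0, ⟨0, 0⟩, 0⟩, 0, 0⟩ 0 0) (.cut .s 10544128 (.pos 45 .mp ⟨⟨100398472, 0, 0, 0, 0, 75600035, 0, 0, 0, ⟨0, 0⟩, 0⟩, 0, 0⟩ 0 0) (.pos 45 .mp ⟨⟨100467082, 0, 0, 0, 0, 75884883, 0, 0, 0, ⟨0, 0⟩, 0⟩, 0, 0⟩ 0 0))) (.cut .d (-8192) (.pos 45 .mp ⟨⟨99075474, 0, 0, 0, 0, 79469184, 0, 0, 0, ⟨0, 0⟩, 0⟩, 0, 0⟩ 0 0) (.cut .s 10553344 (.pos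 45 .mp ⟨⟨99834918, 0, 0, 0, 0, 77298227, 0, 0, 0, ⟨0, 0⟩, 0⟩, 0, 0⟩ 0 0) (.pos 45 .mp ⟨⟨100230250, 0, 0, 0, 0, 77480528, 0, 0, 0, ⟨0, 0⟩, 0⟩, 0, 0⟩ 0 0)))) (.cut .s 10571776 (.cut .d (-8192) (.pos 45 .mp ⟨⟨99620965, 0, 0, 0, 0, 80236639, 0, 0, 0, ⟨0, 0⟩, 0⟩, 0, 0⟩ 0 0) (.cut .s 10565632 (.pos 45 .mp ⟨⟨100624726, 0, 0, 0, 0, 77668642, 0, 0, 0, ⟨0, 0⟩, 0⟩, 0, 0⟩ 0 0) (.pos 45 .mp ⟨⟨101003552, 0, 0, 0, 0, 77885936, 0, 0, 0, ⟨0, 0⟩, 0⟩, 0, 0⟩ 0 0))) (.cut .l 108558 (.cut .d (-8192) (.pos 45 .mp ⟨⟨100191106, 0, 0, 0, 0, 82020204, 0, 0, 0, ⟨0, 0⟩, 0⟩, 0, 0⟩ 0 0) (.cut .s 10577920 (.pos 45 .mp ⟨⟨101361171, 0, 0, 0, 0, 78119039, 0, 0,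 0, ⟨0, 0⟩, 0⟩, 0, 0⟩ 0 0) (.pos 45 .mp ⟨⟨101719952, 0, 0, 0, 0, 78381949, 0, 0, 0, ⟨0, 0⟩, 0⟩, 0, 0⟩ 0 0))) (.pos 45 .mp ⟨⟨98930219, 0, 0, 0, 0, 81785183, 0, 0, 0, ⟨0, 0⟩, 0⟩, 0, 0⟩ 0 0))))) (.pos 46 .mp ⟨⟨148594796, 0, 0, 0, 0, 9036061, 0, 0, 0, ⟨0, 0⟩, 0⟩, 0, 0⟩ 0 0)) (.cut .s 10633216 (.cut .v 16809984 (.cut .s 10608640 (.cut .s 10596352 (.cut .l 108558 (.cut .d (-8192) (.pos 45 .mp ⟨⟨100894327, 0, 0, 0, 0, 82570625, 0, 0, 0, ⟨0, 0⟩, 0⟩, 0, 0⟩ 0 0) (.cut .s 10590208 (.pos 45 .mp ⟨⟨102079897, 0, 0, 0, 0, 78647213, 0, 0, 0, ⟨0, 0⟩, 0⟩, 0, 0⟩ 0 0) (.pos 45 .mp ⟨⟨102441010, 0, 0, 0, 0, 78914831, 0, 0, 0, ⟨0, 0⟩, 0⟩, 0, 0⟩ 0 0)))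 (.pos 45 .mp ⟨⟨99628387, 0, 0, 0, 0, 82375955, 0, 0, 0, ⟨0, 0⟩, 0⟩, 0, 0⟩ 0 0)) (.cut .d (-8192) (.cut .s 10602496 (.pos 45 .mp ⟨⟨102045838, 0, 0, 0, 0, 80865449, 0, 0, 0, ⟨0, 0⟩, 0⟩, 0, 0⟩ 0 0) (.pos 45 .mp ⟨⟨102361778, 0, 0, 0, 0, 81212484, 0, 0, 0, ⟨0, 0⟩, 0⟩, 0, 0⟩ 0 0)) (.cut .s 10602496 (.pos 45 .mp ⟨⟨102803294, 0, 0, 0, 0, 79189368, 0, 0, 0, ⟨0, 0⟩, 0⟩, 0, 0⟩ 0 0) (.pos 45 .mp ⟨⟨103166752, 0, 0, 0, 0, 79458153, 0, 0, 0, ⟨0, 0⟩, 0⟩, 0, 0⟩ 0 0)))) (.cut .s 10620928 (.cut .d (-8192) (.cut .s 10614784 (.pos 45 .mp ⟨⟨102683505, 0, 0, 0, 0, 81554989, 0, 0, 0, ⟨0, 0⟩, 0⟩, 0, 0⟩ 0 0) (.pos 45 .mp ⟨⟨103011073, 0, 0, 0, 0, 81892879,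 0, 0, 0, ⟨0, 0⟩, 0⟩, 0, 0⟩ 0 0)) (.cut .v 16793600 (.cut .s 10614784 (.pos 49 .mp ⟨⟨102504675, 0, 0, 0, 0, 81260622, 0, 0, 0, ⟨0, 0⟩, 0⟩, 0, 0⟩ 0 0) (.pos 49 .mp ⟨⟨102730701, 0, 0, 0, 0, 81746091, 0, 0, 0, ⟨0, 0⟩, 0⟩, 0, 0⟩ 0 0)) (.pos 50 .mp ⟨⟨109806187, 0, 0, 0, 0, 71304237, 0, 0, 0, ⟨0, 0⟩, 0⟩, 0, 0⟩ 0 0))) (.cut .d (-8192) (.cut .s 10627072 (.pos 45 .mp ⟨⟨103344532, 0, 0, 0, 0, 82226069, 0, 0, 0, ⟨0, 0⟩, 0⟩, 0, 0⟩ 0 0) (.pos 45 .mp ⟨⟨103683937, 0, 0, 0, 0, 82554474, 0, 0, 0, ⟨0, 0⟩, 0⟩, 0, 0⟩ 0 0)) (.cut .v 16793600 (.cut .s 10627072 (.pos 49 .mp ⟨⟨103045760, 0, 0, 0, 0, 82101969, 0, 0, 0, ⟨0, 0⟩, 0⟩, 0, 0⟩ 0 0) (.pos 49 .mp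 ⟨⟨103373966, 0, 0, 0, 0, 82442578, 0, 0, 0, ⟨0, 0⟩, 0⟩, 0, 0⟩ 0 0)) (.pos 50 .mp ⟨⟨110470771, 0, 0, 0, 0, 71950046, 0, 0, 0, ⟨0, 0⟩, 0⟩, 0, 0⟩ 0 0))))) (.pos 46 .mp ⟨⟨130461911, 0, 0, 0, 0, 42686914, 0, 0, 0, ⟨0, 0⟩, 0⟩, 0, 0⟩ 0 0)) (.cut .v 16809984 (.cut .s 10657792 (.cut .s 10645504 (.cut .d (-8192) (.cut .s 10639360 (.pos 45 .mp ⟨⟨102411977, 0, 0, 0, 0, 85691490, 0, 0, 0, ⟨0, 0⟩, 0⟩, 0, 0⟩ 0 0) (.pos 45 .mp ⟨⟨102773866, 0, 0, 0, 0, 85993219, 0, 0, 0, ⟨0, 0⟩, 0⟩, 0, 0⟩ 0 0)) (.cut .v 16793600 (.cut .l 108558 (.cut .d (-4096) (.pos 49 .mp ⟨⟨102784978, 0, 0, 0, 0, 85325111, 0, 0, 0, ⟨0, 0⟩, 0⟩, 0, 0⟩ 0 0) (.cut .s 10639360 (.pos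 49 .mp ⟨⟨104219869, 0, 0, 0, 0, 81953839, 0, 0, 0, ⟨0, 0⟩, 0⟩, 0, 0⟩ 0 0) (.pos 49 .mp ⟨⟨104574922, 0, 0, 0, 0, 82260907, 0, 0, 0, ⟨0, 0⟩, 0⟩, 0, 0⟩ 0 0))) (.pos 49 .mp ⟨⟨0, 0, 0, 0, 0, 0, 0, 0, 0, ⟨0, 0⟩, 0⟩, 0, 0⟩ 0 0)) (.pos 50 .mp ⟨⟨111176975, 0, 0, 0, 0, 72554070, 0, 0, 0, ⟨0, 0⟩, 0⟩, 0, 0⟩ 0 0))) (.cut .d (-8192) (.cut .s 10651648 (.pos 45 .mp ⟨⟨103136904, 0, 0, 0, 0, 86298517, 0, 0, 0, ⟨0, 0⟩, 0⟩, 0, 0⟩ 0 0) (.pos 45 .mp ⟨⟨103501094, 0, 0, 0, 0, 86607396, 0, 0, 0, ⟨0, 0⟩, 0⟩, 0, 0⟩ 0 0)) (.cut .l 108558 (.cut .v 16793600 (.cut .d (-4096) (.pos 49 .mp ⟨⟨103510146, 0, 0, 0, 0, 85934086, 0, 0, 0, ⟨0, 0⟩, 0⟩, 0, 0⟩ 0 0) (.cut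 .s 10651648 (.pos 49 .mp ⟨⟨104934827, 0, 0, 0, 0, 82565651, 0, 0, 0, ⟨0, 0⟩, 0⟩, 0, 0⟩ 0 0) (.pos 49 .mp ⟨⟨105299636, 0, 0, 0, 0, 82868003, 0, 0, 0, ⟨0, 0⟩, 0⟩, 0, 0⟩ 0 0))) (.pos 50 .mp ⟨⟨115282122, 0, 0, 0, 0, 68856531, 0, 0, 0, ⟨0, 0⟩, 0⟩, 0, 0⟩ 0 0)) (.pos 45 .mp ⟨⟨104990853, 0, 0, 0, 0, 0, 0, 0, 0, ⟨0, 0⟩, 0⟩, 0, 0⟩ 0 0)))) (.cut .s 10670080 (.cut .d (-8192) (.cut .s 10663936 (.pos 45 .mp ⟨⟨103866439, 0, 0, 0, 0, 86919869, 0, 0, 0, ⟨0, 0⟩, 0⟩, 0, 0⟩ 0 0) (.pos 45 .mp ⟨⟨104232942, 0, 0, 0, 0, 87235949, 0, 0, 0, ⟨0, 0⟩, 0⟩, 0, 0⟩ 0 0)) (.cut .l 108558 (.cut .v 16793600 (.cut .d (-4096) (.pos 49 .mp ⟨⟨104239937, 0, 0, 0, 0,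 86557352, 0, 0, 0, ⟨0, 0⟩, 0⟩, 0, 0⟩ 0 0) (.cut .s 10663936 (.pos 49 .mp ⟨⟨105669397, 0, 0, 0, 0, 83167892, 0, 0, 0, ⟨0, 0⟩, 0⟩, 0, 0⟩ 0 0) (.pos 49 .mp ⟨⟨106044161, 0, 0, 0, 0, 83465248, 0, 0, 0, ⟨0, 0⟩, 0⟩, 0, 0⟩ 0 0))) (.pos 50 .mp ⟨⟨116111385, 0, 0, 0, 0, 69320804, 0, 0, 0, ⟨0, 0⟩, 0⟩, 0, 0⟩ 0 0)) (.pos 45 .mp ⟨⟨105732706, 0, 0, 0, 0, 0, 0, 0, 0, ⟨0, 0⟩, 0⟩, 0, 0⟩ 0 0))) (.cut .d (-8192) (.cut .s 10676224 (.pos 45 .mp ⟨⟨104600606, 0, 0, 0, 0, 87555648, 0, 0, 0, ⟨0, 0⟩, 0⟩, 0, 0⟩ 0 0) (.pos 45 .mp ⟨⟨104969435, 0, 0, 0, 0, 87878980, 0, 0, 0, ⟨0, 0⟩, 0⟩, 0, 0⟩ 0 0)) (.cut .l 108558 (.cut .v 16793600 (.cut .d (-4096) (.pos 49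 .mp ⟨⟨104974378, 0, 0, 0, 0, 87195009, 0, 0, 0, ⟨0, 0⟩, 0⟩, 0, 0⟩ 0 0) (.cut .s 10676224 (.pos 49 .mp ⟨⟨106423977, 0, 0, 0, 0, 83760001, 0, 0, 0, ⟨0, 0⟩, 0⟩, 0, 0⟩ 0 0) (.pos 49 .mp ⟨⟨106808898, 0, 0, 0, 0, 84052079, 0, 0, 0, ⟨0, 0⟩, 0⟩, 0, 0⟩ 0 0))) (.pos 50 .mp ⟨⟨116984899, 0, 0, 0, 0, 69739145, 0, 0, 0, ⟨0, 0⟩, 0⟩, 0, 0⟩ 0 0)) (.pos 45 .mp ⟨⟨106479309, 0, 0, 0, 0, 0, 0, 0, 0, ⟨0, 0⟩, 0⟩, 0, 0⟩ 0 0))))) (.pos 46 .mp ⟨⟨134044937, 0, 0, 0, 0, 43960518, 0, 0, 0, ⟨0, 0⟩, 0⟩, 0, 0⟩ 0 0)))) (.pos 34 .mp ⟨⟨161178024, 0, 0, 0, 0, 0, 0, 0, 0, ⟨0, 0⟩, 0⟩, 0, 0⟩ 0 0)) (.cut .v 16842752 (.cut .s 10780672 (.cut .s 10731520 (.cut .v 16809984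 (.cut .s 10706944 (.cut .s 10694656 (.cut .d (-8192) (.cut .s 10688512 (.pos 45 .mp ⟨⟨105339431, 0, 0, 0, 0, 88205958, 0, 0, 0, ⟨0, 0⟩, 0⟩, 0, 0⟩ 0 0) (.pos 45 .mp ⟨⟨105710599, 0, 0, 0, 0, 88536594, 0, 0, 0, ⟨0, 0⟩, 0⟩, 0, 0⟩ 0 0)) (.cut .v 16793600 (.cut .s 10688512 (.pos 49 .mp ⟨⟨106676032, 0, 0, 0, 0, 85186850, 0, 0, 0, ⟨0, 0⟩, 0⟩, 0, 0⟩ 0 0) (.pos 49 .mp ⟨⟨107082925, 0, 0, 0, 0, 85454002, 0, 0, 0, ⟨0, 0⟩, 0⟩, 0, 0⟩ 0 0)) (.pos 50 .mp ⟨⟨114435143, 0, 0, 0, 0, 74525912, 0, 0, 0, ⟨0, 0⟩, 0⟩, 0, 0⟩ 0 0))) (.cut .d (-8192) (.cut .s 10700800 (.pos 45 .mp ⟨⟨106082940, 0, 0, 0, 0, 88870901, 0, 0, 0, ⟨0, 0⟩, 0⟩, 0, 0⟩ 0 0) (.pos 45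 .mp ⟨⟨106456460, 0, 0, 0, 0, 89208893, 0, 0, 0, ⟨0, 0⟩, 0⟩, 0, 0⟩ 0 0)) (.cut .v 16793600 (.cut .s 10700800 (.pos 49 .mp ⟨⟨107498081, 0, 0, 0, 0, 85713180, 0, 0, 0, ⟨0, 0⟩, 0⟩, 0, 0⟩ 0 0) (.pos 49 .mp ⟨⟨107999878, 0, 0, 0, 0, 85845573, 0, 0, 0, ⟨0, 0⟩, 0⟩, 0, 0⟩ 0 0)) (.pos 50 .mp ⟨⟨115362353, 0, 0, 0, 0, 74901117, 0, 0, 0, ⟨0, 0⟩, 0⟩, 0, 0⟩ 0 0)))) (.cut .s 10719232 (.cut .d (-8192) (.cut .s 10713088 (.pos 45 .mp ⟨⟨106831160, 0, 0, 0, 0, 89550584, 0, 0, 0, ⟨0, 0⟩, 0⟩, 0, 0⟩ 0 0) (.pos 45 .mp ⟨⟨107207044, 0, 0, 0, 0, 89895985, 0, 0, 0, ⟨0, 0⟩, 0⟩, 0, 0⟩ 0 0)) (.cut .s 10713088 (.cut .s 10710016 (.pos 45 .mp ⟨⟨109360953, 0, 0,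 0, 0, 84583025, 0, 0, 0, ⟨0, 0⟩, 0⟩, 0, 0⟩ 0 0) (.pos 45 .mp ⟨⟨109569802, 0, 0, 0, 0, 84718503, 0, 0, 0, ⟨0, 0⟩, 0⟩, 0, 0⟩ 0 0)) (.pos 45 .mp ⟨⟨109913512, 0, 0, 0, 0, 84759998, 0, 0, 0, ⟨0, 0⟩, 0⟩, 0, 0⟩ 0 0))) (.cut .d (-8192) (.cut .s 10725376 (.pos 45 .mp ⟨⟨107584116, 0, 0, 0, 0, 90245110, 0, 0, 0, ⟨0, 0⟩, 0⟩, 0, 0⟩ 0 0) (.pos 45 .mp ⟨⟨107962379, 0, 0, 0, 0, 90597973, 0, 0, 0, ⟨0, 0⟩, 0⟩, 0, 0⟩ 0 0)) (.cut .s 10725376 (.pos 45 .mp ⟨⟨110299905, 0, 0, 0, 0, 85080399, 0, 0, 0, ⟨0, 0⟩, 0⟩, 0, 0⟩ 0 0) (.pos 45 .mp ⟨⟨110687539, 0, 0, 0, 0, 85403531, 0, 0, 0, ⟨0, 0⟩, 0⟩, 0, 0⟩ 0 0))))) (.pos 46 .mp ⟨⟨138312623, 0, 0, 0, 0, 44527004,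 0, 0, 0, ⟨0, 0⟩, 0⟩, 0, 0⟩ 0 0)) (.cut .v 16809984 (.cut .s 10756096 (.cut .s 10743808 (.cut .d (-8192) (.pos 45 .mp ⟨⟨108341836, 0, 0, 0, 0, 91445225, 0, 0, 0, ⟨0, 0⟩, 0⟩, 0, 0⟩ 0 0) (.cut .s 10737664 (.pos 45 .mp ⟨⟨111076417, 0, 0, 0, 0, 85729395, 0, 0, 0, ⟨0, 0⟩, 0⟩, 0, 0⟩ 0 0) (.pos 45 .mp ⟨⟨111466543, 0, 0, 0, 0, 86057991, 0, 0, 0, ⟨0, 0⟩, 0⟩, 0, 0⟩ 0 0))) (.cut .d (-8192) (.pos 45 .mp ⟨⟨109104345, 0, 0, 0, 0, 92174689, 0, 0, 0, ⟨0, 0⟩, 0⟩, 0, 0⟩ 0 0) (.cut .s 10749952 (.pos 45 .mp ⟨⟨111857920, 0, 0, 0, 0, 86389322, 0, 0, 0, ⟨0, 0⟩, 0⟩, 0, 0⟩ 0 0) (.pos 45 .mp ⟨⟨112250553, 0, 0, 0, 0, 86723389, 0, 0, 0, ⟨0, 0⟩, 0⟩, 0, 0⟩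 0 0)))) (.cut .s 10768384 (.cut .d (-8192) (.pos 45 .mp ⟨⟨109871671, 0, 0, 0, 0, 92919334, 0, 0, 0, ⟨0, 0⟩, 0⟩, 0, 0⟩ 0 0) (.cut .s 10762240 (.pos 45 .mp ⟨⟨112606832, 0, 0, 0, 0, 87120283, 0, 0, 0, ⟨0, 0⟩, 0⟩, 0, 0⟩ 0 0) (.pos 45 .mp ⟨⟨112954993, 0, 0, 0, 0, 87534952, 0, 0, 0, ⟨0, 0⟩, 0⟩, 0, 0⟩ 0 0))) (.cut .d (-8192) (.pos 45 .mp ⟨⟨110643842, 0, 0, 0, 0, 93679269, 0, 0, 0, ⟨0, 0⟩, 0⟩, 0, 0⟩ 0 0) (.cut .s 10774528 (.pos 45 .mp ⟨⟨113301161, 0, 0, 0, 0, 87957626, 0, 0, 0, ⟨0, 0⟩, 0⟩, 0, 0⟩ 0 0) (.pos 45 .mp ⟨⟨113739796, 0, 0, 0, 0, 88248601, 0, 0, 0, ⟨0, 0⟩, 0⟩, 0, 0⟩ 0 0))))) (.pos 46 .mp ⟨⟨143319526, 0, 0, 0, 0, 44301748, 0, 0,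 0, ⟨0, 0⟩, 0⟩, 0, 0⟩ 0 0))) (.cut .v 16809984 (.cut .s 10829824 (.cut .s 10805248 (.cut .s 10792960 (.cut .s 10786816 (.pos 45 .mp ⟨⟨113093401, 0, 0, 0, 0, 90305998, 0, 0, 0, ⟨0, 0⟩, 0⟩, 0, 0⟩ 0 0) (.pos 45 .mp ⟨⟨113634703, 0, 0, 0, 0, 90434440, 0, 0, 0, ⟨0, 0⟩, 0⟩, 0, 0⟩ 0 0)) (.cut .s 10799104 (.pos 45 .mp ⟨⟨114363254, 0, 0, 0, 0, 90281934, 0, 0, 0, ⟨0, 0⟩, 0⟩, 0, 0⟩ 0 0) (.pos 45 .mp ⟨⟨115109725, 0, 0, 0, 0, 90105982, 0, 0, 0, ⟨0, 0⟩, 0⟩, 0, 0⟩ 0 0))) (.cut .s 10817536 (.cut .s 10811392 (.pos 45 .mp ⟨⟨115874214, 0, 0, 0, 0, 89906414, 0, 0, 0, ⟨0, 0⟩, 0⟩, 0, 0⟩ 0 0) (.pos 45 .mp ⟨⟨116656815, 0, 0, 0, 0, 89683057, 0, 0, 0, ⟨0,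 0⟩, 0⟩, 0, 0⟩ 0 0)) (.cut .s 10823680 (.pos 45 .mp ⟨⟨117457625, 0, 0, 0, 0, 89435737, 0, 0, 0, ⟨0, 0⟩, 0⟩, 0, 0⟩ 0 0) (.pos 45 .mp ⟨⟨118276741, 0, 0, 0, 0, 89164283, 0, 0, 0, ⟨0, 0⟩, 0⟩, 0, 0⟩ 0 0)))) (.cut .s 10854400 (.cut .l 108558 (.cut .d (-8192) (.void 45 ⟨⟨0, 0, 0, 0, 0, 100000, 0, 0, 0, ⟨0, 0⟩, 0⟩, 0, 0⟩ 0 0) (.cut .s 10842112 (.pos 45 .mp ⟨⟨117881183, 0, 0, 0, 0, 91005984, 0, 0, 0, ⟨0, 0⟩, 0⟩, 0, 0⟩ 0 0) (.pos 45 .mp ⟨⟨118706275, 0, 0, 0, 0, 91725852, 0, 0, 0, ⟨0, 0⟩, 0⟩, 0, 0⟩ 0 0))) (.pos 45 .mp ⟨⟨114558305, 0, 0, 0, 0, 96079732, 0, 0, 0, ⟨0, 0⟩, 0⟩, 0, 0⟩ 0 0)) (.cut .s 10866688 (.cut .s 10860544 (.pos 45 .mp ⟨⟨121384184,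 0, 0, 0, 0, 89482830, 0, 0, 0, ⟨0, 0⟩, 0⟩, 0, 0⟩ 0 0) (.pos 45 .mp ⟨⟨122028457, 0, 0, 0, 0, 89526905, 0, 0, 0, ⟨0, 0⟩, 0⟩, 0, 0⟩ 0 0)) (.pos 45 .mp ⟨⟨119275387, 0, 0, 0, 0, 95098002, 0, 0, 0, ⟨0, 0⟩, 0⟩, 0, 0⟩ 0 0)))) (.pos 46 .mp ⟨⟨179382129, 0, 0, 0, 0, 4326585, 0, 0, 0, ⟨0, 0⟩, 0⟩, 0, 0⟩ 0 0))) (.pos 34 .mp ⟨⟨179433428, 0, 0, 0, 0, 0, 0, 0, 0, ⟨0, 0⟩, 0⟩, 0, 0⟩ 0 0)))) (.pos 30 .mp ⟨⟨183033744, 0, 0, 0, 0, 0, 0, 0, 0, ⟨0, 0⟩, 0⟩, 0, 0⟩ 0 0)))))) (.void 28 ⟨⟨100000, 0, 0, 0, 0, 0, 0, 0, 0, ⟨0, 0⟩, 0⟩, 0, 0⟩ 0 0))) (.void 26 ⟨⟨100000, 0, 0, 0, 0, 0, 0, 0, 0, ⟨0, 0⟩, 0⟩, 0, 0⟩ 0 0))) (.void 24 ⟨⟨100000, 0, 0, 0, 0, 0, 0, 0, 0,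 ⟨0, 0⟩, 0⟩, 0, 0⟩ 0 0))) (.void 22 ⟨⟨100000, 0, 0, 0, 0, 0, 0, 0, 0, ⟨0, 0⟩, 0⟩, 0, 0⟩ 0 0))) (.void 20 ⟨⟨100000, 0, 0, 0, 0, 0, 0, 0, 0, ⟨0, 0⟩, 0⟩, 0, 0⟩ 0 0))) (.void 18 ⟨⟨100000, 0, 0, 0, 0, 0, 0, 0, 0, ⟨0, 0⟩, 0⟩, 0, 0⟩ 0 0)) (.void 97 ⟨⟨100000, 0, 0, 0, 0, 0, 0, 0, 0, ⟨0, 0⟩, 0⟩, 0, 0⟩ 0 0)) (.void 120 ⟨⟨100000, 0, 0, 0, 0, 0, 0, 0, 0, ⟨0, 0⟩, 0⟩, 0, 0⟩ 0 0))) (.cut .v 16777216 (.cut .v 8388608 (.cut .v 4194304 (.cut .v 2097152 (.void 6 ⟨⟨0, 0, 66667, 0, 0, 0, 0, 0, 0, ⟨0, 0⟩, 0⟩, 0, 33333⟩ 0 0) (.pos 7 .pm ⟨⟨0, 0, 31082255, 0, 0, 0, 0, 0, 0, ⟨0, 0⟩, 0⟩, 0, 141322⟩ 0 0)) (.pos 5 .pm ⟨⟨0, 0, 2039014, 0, 0, 0, 0, 0, 0, ⟨0,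 0⟩, 0⟩, 0, 0⟩ 0 0)) (.pos 3 .pm ⟨⟨0, 0, 0, 0, 0, 0, 0, 0, 0, ⟨0, 0⟩, 0⟩, 0, 0⟩ 0 0)) (.cut .v 67108864 (.cut .d 5033166 (.cut .v 33554432 (.cut .d 2516583 (.cut .v 25165824 (.cut .d 1258291 (.cut .d 629145 (.cut .v 20971520 (.cut .v 18874368 (.cut .s 10682368 (.pos 21 .pp ⟨⟨66544497, 0, 0, 0, 0, 0, 0, 0, 0, ⟨0, 0⟩, 0⟩, 7931127, 0⟩ 0 0) (.pos 21 .pp ⟨⟨74059572, 0, 0, 0, 0, 0, 0, 0, 0, ⟨0, 0⟩, 0⟩, 8848359, 0⟩ 0 0)) (.pos 22 .pp ⟨⟨188405926, 0, 0, 0, 0, 0, 0, 0, 0, ⟨0, 0⟩, 0⟩, 0, 0⟩ 0 0)) (.pos 20 .pp ⟨⟨0, 0, 0, 0, 0, 0, 0, 0, 0, ⟨0, 0⟩, 0⟩, 22719945, 0⟩ 0 0)) (.pos 17 .pp ⟨⟨0, 0, 0, 0, 0, 0, 0, 0, 0, ⟨0, 0⟩, 0⟩, 12088458, 120533⟩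 0 0)) (.pos 17 .pp ⟨⟨0, 0, 0, 0, 0, 0, 0, 0, 0, ⟨0, 0⟩, 0⟩, 0, 423965⟩ 0 0)) (.cut .d 1258291 (.pos 18 .pp ⟨⟨0, 0, 0, 0, 0, 0, 0, 0, 0, ⟨0, 0⟩, 0⟩, 29931551, 0⟩ 0 0) (.pos 18 .pp ⟨⟨0, 0, 0, 0, 0, 0, 226420, 0, 0, ⟨0, 0⟩, 0⟩, 14415886, 0⟩ 0 0))) (.pos 16 .pp ⟨⟨0, 0, 0, 0, 0, 0, 0, 0, 0, ⟨0, 0⟩, 0⟩, 0, 471072⟩ 0 0)) (.cut .d 2516583 (.cut .v 50331648 (.pos 100 .pp ⟨⟨0, 0, 0, 0, 0, 0, 0, 0, 0, ⟨0, 0⟩, 0⟩, 45011915, 0⟩ 0 0) (.void 101 ⟨⟨0, 0, 0, 0, 0, 0, 0, 0, 0, ⟨0, 0⟩, 0⟩, 100000, 0⟩ 0 0)) (.pos 97 .pp ⟨⟨0, 0, 0, 0, 0, 0, 0, 0, 0, ⟨0, 0⟩, 0⟩, 25008947, 0⟩ 0 0))) (.pos 96 .pp ⟨⟨0, 0, 0, 0, 0, 0, 0, 0, 0, ⟨0, 0⟩, 0⟩, 0, 353304⟩ 0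 0)) (.void 120 ⟨⟨0, 92965, 0, 0, 0, 0, 0, 0, 0, ⟨0, 0⟩, 0⟩, 7035, 0⟩ 0 0)))),
    by decide +kernel⟩

def covers15 : cell.Covers Vale.Agent.P237.Petty.Cor.Grid.N17.table row15.1 :=
  ⟨(.cut .d 0 (.cut .v 16777216 (.cut .d (-8388608) (.void 1 ⟨⟨0, 0, 0, 0, 0, 100000, 0, 0, 0, ⟨0, 0⟩, 0⟩, 0, 0⟩ 0 0) (.cut .d (-4194304) (.void 1 ⟨⟨0, 0, 0, 0, 0, 100000, 0, 0, 0, ⟨0, 0⟩, 0⟩, 0, 0⟩ 0 0) (.cut .d (-2097152) (.void 1 ⟨⟨0, 0, 0, 0, 0, 100000, 0, 0, 0, ⟨0, 0⟩, 0⟩, 0, 0⟩ 0 0) (.cut .d (-1048576) (.void 1 ⟨⟨0, 0, 0, 0, 0, 100000, 0, 0, 0, ⟨0, 0⟩, 0⟩, 0, 0⟩ 0 0) (.cut .d (-524288) (.void 1 ⟨⟨0, 0, 0, 0, 0, 100000, 0, 0, 0, ⟨0, 0⟩, 0⟩, 0,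 0⟩ 0 0) (.cut .d (-262144) (.void 1 ⟨⟨0, 0, 0, 0, 0, 100000, 0, 0, 0, ⟨0, 0⟩, 0⟩, 0, 0⟩ 0 0) (.cut .d (-131072) (.void 1 ⟨⟨0, 0, 0, 0, 0, 100000, 0, 0, 0, ⟨0, 0⟩, 0⟩, 0, 0⟩ 0 0) (.cut .d (-65536) (.void 1 ⟨⟨0, 0, 0, 0, 0, 100000, 0, 0, 0, ⟨0, 0⟩, 0⟩, 0, 0⟩ 0 0) (.cut .d (-32768) (.void 1 ⟨⟨0, 0, 0, 0, 0, 100000, 0, 0, 0, ⟨0, 0⟩, 0⟩, 0, 0⟩ 0 0) (.cut .d (-16384) (.void 1 ⟨⟨0, 0, 0, 0, 0, 100000, 0, 0, 0, ⟨0, 0⟩, 0⟩, 0, 0⟩ 0 0) (.cut .v 8388608 (.cut .v 4194304 (.void 4 ⟨⟨0, 0, 100000, 0, 0, 0, 0, 0, 0, ⟨0, 0⟩, 0⟩, 0, 0⟩ 0 0) (.pos 5 .mm ⟨⟨0, 0, 3003570, 0, 0, 111870916, 0, 0, 0, ⟨0, 0⟩, 0⟩, 0, 0⟩ 0 0)) (.cut .v 12582912 (.pos 8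 .mm ⟨⟨0, 0, 0, 0, 0, 177932305, 0, 0, 0, ⟨0, 0⟩, 0⟩, 0, 0⟩ 0 0) (.cut .v 14680064 (.pos 12 .mm ⟨⟨0, 0, 0, 0, 0, 212529059, 0, 0, 0, ⟨0, 0⟩, 0⟩, 0, 0⟩ 0 0) (.cut .v 15728640 (.pos 14 .mm ⟨⟨0, 0, 0, 0, 0, 230594398, 0, 0, 0, ⟨0, 0⟩, 0⟩, 0, 0⟩ 0 0) (.cut .v 16252928 (.pos 31 .mm ⟨⟨0, 0, 0, 0, 0, 239818807, 0, 0, 0, ⟨0, 0⟩, 0⟩, 0, 0⟩ 0 0) (.cut .v 16515072 (.pos 39 .mm ⟨⟨0, 0, 0, 0, 0, 280231398, 0, 0, 0, ⟨0, 0⟩, 0⟩, 0, 0⟩ 0 0) (.cut .v 16646144 (.pos 41 .mm ⟨⟨0, 0, 0, 0, 0, 293776059, 0, 0, 0, ⟨0, 0⟩, 0⟩, 0, 0⟩ 0 0) (.cut .v 16711680 (.pos 43 .mm ⟨⟨0, 0, 0, 0, 0, 300635423, 0, 0, 0, ⟨0, 0⟩, 0⟩, 0, 0⟩ 0 0) (.cut .v 16744448 (.pos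 47 .mm ⟨⟨0, 0, 0, 0, 0, 304086883, 0, 0, 0, ⟨0, 0⟩, 0⟩, 0, 0⟩ 0 0) (.cut .s 11108352 (.cut .s 10993664 (.pos 48 .mm ⟨⟨0, 0, 0, 0, 0, 276302236, 0, 0, 0, ⟨0, 0⟩, 0⟩, 0, 0⟩ 0 0) (.pos 48 .mm ⟨⟨0, 0, 0, 0, 0, 295611474, 0, 0, 0, ⟨0, 0⟩, 0⟩, 0, 0⟩ 0 0)) (.cut .s 11223040 (.pos 48 .mm ⟨⟨0, 0, 0, 0, 0, 317129105, 0, 0, 0, ⟨0, 0⟩, 0⟩, 0, 0⟩ 0 0) (.pos 48 .mm ⟨⟨0, 0, 0, 0, 0, 340926385, 0, 0, 0, ⟨0, 0⟩, 0⟩, 0, 0⟩ 0 0)))))))))))))))))))))) (.cut .v 67108864 (.cut .v 33554432 (.cut .v 25165824 (.cut .d (-8388608) (.void 17 ⟨⟨0, 0, 0, 0, 0, 100000, 0, 0, 0, ⟨0, 0⟩, 0⟩, 0, 0⟩ 0 0) (.cut .v 20971520 (.cut .d (-4194304) (.void 19 ⟨⟨100000,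 0, 0, 0, 0, 0, 0, 0, 0, ⟨0, 0⟩, 0⟩, 0, 0⟩ 0 0) (.cut .v 18874368 (.cut .d (-2097152) (.void 21 ⟨⟨100000, 0, 0, 0, 0, 0, 0, 0, 0, ⟨0, 0⟩, 0⟩, 0, 0⟩ 0 0) (.cut .v 17825792 (.cut .d (-1048576) (.void 23 ⟨⟨100000, 0, 0, 0, 0, 0, 0, 0, 0, ⟨0, 0⟩, 0⟩, 0, 0⟩ 0 0) (.cut .v 17301504 (.cut .d (-524288) (.void 25 ⟨⟨100000, 0, 0, 0, 0, 0, 0, 0, 0, ⟨0, 0⟩, 0⟩, 0, 0⟩ 0 0) (.cut .v 17039360 (.cut .d (-262144) (.void 27 ⟨⟨100000, 0, 0, 0, 0, 0, 0, 0, 0, ⟨0, 0⟩, 0⟩, 0, 0⟩ 0 0) (.cut .d (-131072) (.void 27 ⟨⟨100000, 0, 0, 0, 0, 0, 0, 0, 0, ⟨0, 0⟩, 0⟩, 0, 0⟩ 0 0) (.cut .d (-65536) (.void 27 ⟨⟨100000, 0, 0, 0, 0, 0, 0, 0, 0, ⟨0, 0⟩, 0⟩, 0, 0⟩ 0 0)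 (.cut .d (-32768) (.void 27 ⟨⟨100000, 0, 0, 0, 0, 0, 0, 0, 0, ⟨0, 0⟩, 0⟩, 0, 0⟩ 0 0) (.cut .d (-16384) (.void 27 ⟨⟨0, 0, 0, 0, 0, 100000, 0, 0, 0, ⟨0, 0⟩, 0⟩, 0, 0⟩ 0 0) (.cut .v 16908288 (.cut .s 11108352 (.cut .v 16842752 (.cut .s 10993664 (.cut .s 10936320 (.cut .v 16809984 (.cut .s 10907648 (.cut .d (-8192) (.pos 45 .mp ⟨⟨117820475, 0, 0, 0, 0, 102665039, 0, 0, 0, ⟨0, 0⟩, 0⟩, 0, 0⟩ 0 0) (.cut .s 10893312 (.pos 45 .mp ⟨⟨121270076, 0, 0, 0, 0, 94082171, 0, 0, 0, ⟨0, 0⟩, 0⟩, 0, 0⟩ 0 0) (.pos 45 .mp ⟨⟨122347313, 0, 0, 0, 0, 94546574, 0, 0, 0, ⟨0, 0⟩, 0⟩, 0, 0⟩ 0 0))) (.cut .s 10921984 (.cut .s 10914816 (.pos 45 .mp ⟨⟨124336419,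 0, 0, 0, 0, 93339956, 0, 0, 0, ⟨0, 0⟩, 0⟩, 0, 0⟩ 0 0) (.pos 45 .mp ⟨⟨124382550, 0, 0, 0, 0, 94358759, 0, 0, 0, ⟨0, 0⟩, 0⟩, 0, 0⟩ 0 0)) (.cut .s 10929152 (.pos 45 .mp ⟨⟨124286495, 0, 0, 0, 0, 95618127, 0, 0, 0, ⟨0, 0⟩, 0⟩, 0, 0⟩ 0 0) (.pos 45 .mp ⟨⟨124213857, 0, 0, 0, 0, 96849636, 0, 0, 0, ⟨0, 0⟩, 0⟩, 0, 0⟩ 0 0)))) (.pos 46 .mp ⟨⟨159496377, 0, 0, 0, 0, 44116820, 0, 0, 0, ⟨0, 0⟩, 0⟩, 0, 0⟩ 0 0)) (.cut .v 16809984 (.cut .s 10964992 (.cut .s 10950656 (.cut .s 10943488 (.pos 45 .mp ⟨⟨124164842, 0, 0, 0, 0, 98052929, 0, 0, 0, ⟨0, 0⟩, 0⟩, 0, 0⟩ 0 0) (.pos 45 .mp ⟨⟨124139659, 0, 0, 0, 0, 99227650, 0, 0, 0, ⟨0, 0⟩, 0⟩, 0, 0⟩ 0 0)) (.cut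 .s 10957824 (.pos 45 .mp ⟨⟨124455049, 0, 0, 0, 0, 99887170, 0, 0, 0, ⟨0, 0⟩, 0⟩, 0, 0⟩ 0 0) (.cut .s 10961408 (.pos 45 .mp ⟨⟨127344263, 0, 0, 0, 0, 96292660, 0, 0, 0, ⟨0, 0⟩, 0⟩, 0, 0⟩ 0 0) (.pos 45 .mp ⟨⟨127370913, 0, 0, 0, 0, 96828734, 0, 0, 0, ⟨0, 0⟩, 0⟩, 0, 0⟩ 0 0)))) (.cut .s 10979328 (.cut .d (-8192) (.pos 45 .mp ⟨⟨123712428, 0, 0, 0, 0, 105292355, 0, 0, 0, ⟨0, 0⟩, 0⟩, 0, 0⟩ 0 0) (.cut .s 10972160 (.pos 45 .mp ⟨⟨126863222, 0, 0, 0, 0, 98297775, 0, 0, 0, ⟨0, 0⟩, 0⟩, 0, 0⟩ 0 0) (.pos 45 .mp ⟨⟨127408508, 0, 0, 0, 0, 98608784, 0, 0, 0, ⟨0, 0⟩, 0⟩, 0, 0⟩ 0 0))) (.cut .d (-8192) (.pos 45 .mp ⟨⟨124720449, 0, 0, 0, 0, 106033637,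 0, 0, 0, ⟨0, 0⟩, 0⟩, 0, 0⟩ 0 0) (.cut .s 10986496 (.pos 45 .mp ⟨⟨127925360, 0, 0, 0, 0, 98973909, 0, 0, 0, ⟨0, 0⟩, 0⟩, 0, 0⟩ 0 0) (.pos 45 .mp ⟨⟨128444190, 0, 0, 0, 0, 99343964, 0, 0, 0, ⟨0, 0⟩, 0⟩, 0, 0⟩ 0 0))))) (.pos 46 .mp ⟨⟨163027923, 0, 0, 0, 0, 47461178, 0, 0, 0, ⟨0, 0⟩, 0⟩, 0, 0⟩ 0 0))) (.cut .s 11051008 (.cut .s 11022336 (.cut .v 16809984 (.cut .s 11008000 (.cut .d (-8192) (.pos 45 .mp ⟨⟨125736044, 0, 0, 0, 0, 106800539, 0, 0, 0, ⟨0, 0⟩, 0⟩, 0, 0⟩ 0 0) (.cut .s 11000832 (.pos 45 .mp ⟨⟨128965005, 0, 0, 0, 0, 99718952, 0, 0, 0, ⟨0, 0⟩, 0⟩, 0, 0⟩ 0 0) (.cut .s 11004416 (.pos 45 .mp ⟨⟨129326424, 0, 0, 0, 0, 100180735, 0,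 0, 0, ⟨0, 0⟩, 0⟩, 0, 0⟩ 0 0) (.pos 45 .mp ⟨⟨129543203, 0, 0, 0, 0, 100436441, 0, 0, 0, ⟨0, 0⟩, 0⟩, 0, 0⟩ 0 0)))) (.cut .d (-8192) (.pos 45 .mp ⟨⟨126759265, 0, 0, 0, 0, 107593285, 0, 0, 0, ⟨0, 0⟩, 0⟩, 0, 0⟩ 0 0) (.cut .l 108558 (.cut .v 16793600 (.cut .d (-4096) (.pos 49 .mp ⟨⟨127128854, 0, 0, 0, 0, 106696594, 0, 0, 0, ⟨0, 0⟩, 0⟩, 0, 0⟩ 0 0) (.cut .s 11015168 (.pos 49 .mp ⟨⟨128965792, 0, 0, 0, 0, 102006356, 0, 0, 0, ⟨0, 0⟩, 0⟩, 0, 0⟩ 0 0) (.pos 49 .mp ⟨⟨129482132, 0, 0, 0, 0, 102405411, 0, 0, 0, ⟨0, 0⟩, 0⟩, 0, 0⟩ 0 0))) (.pos 50 .mp ⟨⟨142952850, 0, 0, 0, 0, 83023939, 0, 0, 0, ⟨0, 0⟩, 0⟩, 0, 0⟩ 0 0)) (.pos 45 .mp ⟨⟨129163691, 0,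 0, 0, 0, 100576503, 0, 0, 0, ⟨0, 0⟩, 0⟩, 0, 0⟩ 0 0)))) (.pos 46 .mp ⟨⟨150113293, 0, 0, 0, 0, 72205998, 0, 0, 0, ⟨0, 0⟩, 0⟩, 0, 0⟩ 0 0)) (.cut .v 16809984 (.cut .s 11036672 (.cut .d (-8192) (.cut .s 11029504 (.pos 45 .mp ⟨⟨127790165, 0, 0, 0, 0, 107676982, 0, 0, 0, ⟨0, 0⟩, 0⟩, 0, 0⟩ 0 0) (.pos 45 .mp ⟨⟨128308511, 0, 0, 0, 0, 108091482, 0, 0, 0, ⟨0, 0⟩, 0⟩, 0, 0⟩ 0 0)) (.cut .l 108558 (.cut .v 16793600 (.cut .d (-4096) (.pos 49 .mp ⟨⟨128158593, 0, 0, 0, 0, 107513799, 0, 0, 0, ⟨0, 0⟩, 0⟩, 0, 0⟩ 0 0) (.cut .s 11029504 (.pos 49 .mp ⟨⟨130055827, 0, 0, 0, 0, 102726960, 0, 0, 0, ⟨0, 0⟩, 0⟩, 0, 0⟩ 0 0) (.pos 49 .mp ⟨⟨130580819, 0, 0, 0,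 0, 103135762, 0, 0, 0, ⟨0, 0⟩, 0⟩, 0, 0⟩ 0 0))) (.pos 50 .mp ⟨⟨143841587, 0, 0, 0, 0, 84055661, 0, 0, 0, ⟨0, 0⟩, 0⟩, 0, 0⟩ 0 0)) (.pos 45 .mp ⟨⟨130212833, 0, 0, 0, 0, 101417008, 0, 0, 0, ⟨0, 0⟩, 0⟩, 0, 0⟩ 0 0))) (.cut .d (-8192) (.cut .s 11043840 (.pos 45 .mp ⟨⟨128828797, 0, 0, 0, 0, 108512575, 0, 0, 0, ⟨0, 0⟩, 0⟩, 0, 0⟩ 0 0) (.pos 45 .mp ⟨⟨129351030, 0, 0, 0, 0, 108940291, 0, 0, 0, ⟨0, 0⟩, 0⟩, 0, 0⟩ 0 0)) (.cut .l 108558 (.cut .v 16793600 (.cut .d (-4096) (.pos 49 .mp ⟨⟨129196081, 0, 0, 0, 0, 108357238, 0, 0, 0, ⟨0, 0⟩, 0⟩, 0, 0⟩ 0 0) (.cut .s 11043840 (.pos 49 .mp ⟨⟨131107802, 0, 0, 0, 0, 103549576, 0, 0, 0, ⟨0, 0⟩, 0⟩, 0, 0⟩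 0 0) (.pos 49 .mp ⟨⟨131636783, 0, 0, 0, 0, 103968403, 0, 0, 0, ⟨0, 0⟩, 0⟩, 0, 0⟩ 0 0))) (.pos 50 .mp ⟨⟨144808545, 0, 0, 0, 0, 85004428, 0, 0, 0, ⟨0, 0⟩, 0⟩, 0, 0⟩ 0 0)) (.pos 45 .mp ⟨⟨131269921, 0, 0, 0, 0, 102266444, 0, 0, 0, ⟨0, 0⟩, 0⟩, 0, 0⟩ 0 0)))) (.pos 46 .mp ⟨⟨152167888, 0, 0, 0, 0, 73858237, 0, 0, 0, ⟨0, 0⟩, 0⟩, 0, 0⟩ 0 0))) (.cut .s 11079680 (.cut .v 16809984 (.cut .s 11065344 (.cut .d (-8192) (.cut .s 11058176 (.pos 45 .mp ⟨⟨129875217, 0, 0, 0, 0, 109374660, 0, 0, 0, ⟨0, 0⟩, 0⟩, 0, 0⟩ 0 0) (.pos 45 .mp ⟨⟨130401363, 0, 0, 0, 0, 109815710, 0, 0, 0, ⟨0, 0⟩, 0⟩, 0, 0⟩ 0 0)) (.cut .l 108558 (.cut .v 16793600 (.cut .d (-4096)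 (.pos 49 .mp ⟨⟨130241374, 0, 0, 0, 0, 109227142, 0, 0, 0, ⟨0, 0⟩, 0⟩, 0, 0⟩ 0 0) (.cut .l 54279 (.cut .d (-2048) (.pos 49 .mp ⟨⟨131876623, 0, 0, 0, 0, 106302042, 0, 0, 0, ⟨0, 0⟩, 0⟩, 0, 0⟩ 0 0) (.cut .s 11058176 (.pos 49 .mp ⟨⟨131745958, 0, 0, 0, 0, 105008770, 0, 0, 0, ⟨0, 0⟩, 0⟩, 0, 0⟩ 0 0) (.pos 49 .mp ⟨⟨132287965, 0, 0, 0, 0, 105421025, 0, 0, 0, ⟨0, 0⟩, 0⟩, 0, 0⟩ 0 0))) (.pos 49 .mp ⟨⟨131997362, 0, 0, 0, 0, 103478976, 0, 0, 0, ⟨0, 0⟩, 0⟩, 0, 0⟩ 0 0))) (.pos 50 .mp ⟨⟨145855610, 0, 0, 0, 0, 85867266, 0, 0, 0, ⟨0, 0⟩, 0⟩, 0, 0⟩ 0 0)) (.pos 45 .mp ⟨⟨132335012, 0, 0, 0, 0, 103124609, 0, 0, 0, ⟨0, 0⟩, 0⟩, 0, 0⟩ 0 0))) (.cut .d (-8192)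 (.cut .s 11072512 (.pos 45 .mp ⟨⟨130929477, 0, 0, 0, 0, 110263471, 0, 0, 0, ⟨0, 0⟩, 0⟩, 0, 0⟩ 0 0) (.pos 45 .mp ⟨⟨131459565, 0, 0, 0, 0, 110717973, 0, 0, 0, ⟨0, 0⟩, 0⟩, 0, 0⟩ 0 0)) (.cut .l 108558 (.cut .v 16793600 (.cut .d (-4096) (.pos 49 .mp ⟨⟨131294526, 0, 0, 0, 0, 110123744, 0, 0, 0, ⟨0, 0⟩, 0⟩, 0, 0⟩ 0 0) (.cut .l 54279 (.cut .d (-2048) (.pos 49 .mp ⟨⟨132890227, 0, 0, 0, 0, 107277949, 0, 0, 0, ⟨0, 0⟩, 0⟩, 0, 0⟩ 0 0) (.cut .s 11072512 (.pos 49 .mp ⟨⟨132829698, 0, 0, 0, 0, 105842367, 0, 0, 0, ⟨0, 0⟩, 0⟩, 0, 0⟩ 0 0) (.pos 49 .mp ⟨⟨133371126, 0, 0, 0, 0, 106272869, 0, 0, 0, ⟨0, 0⟩, 0⟩, 0, 0⟩ 0 0))) (.pos 49 .mp ⟨⟨133055546,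 0, 0, 0, 0, 104368387, 0, 0, 0, ⟨0, 0⟩, 0⟩, 0, 0⟩ 0 0))) (.pos 50 .mp ⟨⟨146984683, 0, 0, 0, 0, 86641166, 0, 0, 0, ⟨0, 0⟩, 0⟩, 0, 0⟩ 0 0)) (.pos 45 .mp ⟨⟨133400832, 0, 0, 0, 0, 104004090, 0, 0, 0, ⟨0, 0⟩, 0⟩, 0, 0⟩ 0 0)))) (.pos 46 .mp ⟨⟨154540624, 0, 0, 0, 0, 75169225, 0, 0, 0, ⟨0, 0⟩, 0⟩, 0, 0⟩ 0 0)) (.cut .v 16809984 (.cut .s 11094016 (.cut .d (-8192) (.cut .s 11086848 (.pos 45 .mp ⟨⟨131991634, 0, 0, 0, 0, 111179245, 0, 0, 0, ⟨0, 0⟩, 0⟩, 0, 0⟩ 0 0) (.pos 45 .mp ⟨⟨132525692, 0, 0, 0, 0, 111647316, 0, 0, 0, ⟨0, 0⟩, 0⟩, 0, 0⟩ 0 0)) (.cut .l 108558 (.cut .v 16793600 (.cut .d (-4096) (.pos 49 .mp ⟨⟨132355591, 0, 0, 0, 0, 111047278,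 0, 0, 0, ⟨0, 0⟩, 0⟩, 0, 0⟩ 0 0) (.cut .l 54279 (.cut .v 16785408 (.cut .d (-2048) (.pos 53 .mp ⟨⟨132537954, 0, 0, 0, 0, 110593906, 0, 0, 0, ⟨0, 0⟩, 0⟩, 0, 0⟩ 0 0) (.cut .s 11086848 (.pos 53 .mp ⟨⟨133743605, 0, 0, 0, 0, 106967366, 0, 0, 0, ⟨0, 0⟩, 0⟩, 0, 0⟩ 0 0) (.pos 53 .mp ⟨⟨134281079, 0, 0, 0, 0, 107421454, 0, 0, 0, ⟨0, 0⟩, 0⟩, 0, 0⟩ 0 0))) (.pos 54 .mp ⟨⟨148585581, 0, 0, 0, 0, 86546254, 0, 0, 0, ⟨0, 0⟩, 0⟩, 0, 0⟩ 0 0)) (.pos 49 .mp ⟨⟨134115282, 0, 0, 0, 0, 105277554, 0, 0, 0, ⟨0, 0⟩, 0⟩, 0, 0⟩ 0 0))) (.pos 50 .mp ⟨⟨148197677, 0, 0, 0, 0, 87323091, 0, 0, 0, ⟨0, 0⟩, 0⟩, 0, 0⟩ 0 0)) (.pos 45 .mp ⟨⟨134467243, 0, 0, 0, 0, 104905030,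 0, 0, 0, ⟨0, 0⟩, 0⟩, 0, 0⟩ 0 0))) (.cut .d (-8192) (.cut .s 11101184 (.pos 45 .mp ⟨⟨133061744, 0, 0, 0, 0, 112122218, 0, 0, 0, ⟨0, 0⟩, 0⟩, 0, 0⟩ 0 0) (.pos 45 .mp ⟨⟨133599798, 0, 0, 0, 0, 112603980, 0, 0, 0, ⟨0, 0⟩, 0⟩, 0, 0⟩ 0 0)) (.cut .l 108558 (.cut .v 16793600 (.cut .d (-4096) (.pos 49 .mp ⟨⟨133424627, 0, 0, 0, 0, 111997983, 0, 0, 0, ⟨0, 0⟩, 0⟩, 0, 0⟩ 0 0) (.cut .l 54279 (.cut .v 16785408 (.cut .d (-2048) (.pos 53 .mp ⟨⟨133606457, 0, 0, 0, 0, 111543631, 0, 0, 0, ⟨0, 0⟩, 0⟩, 0, 0⟩ 0 0) (.cut .s 11101184 (.pos 53 .mp ⟨⟨134820387, 0, 0, 0, 0, 107881558, 0, 0, 0, ⟨0, 0⟩, 0⟩, 0, 0⟩ 0 0) (.pos 53 .mp ⟨⟨135366751, 0, 0, 0, 0, 108339799,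 0, 0, 0, ⟨0, 0⟩, 0⟩, 0, 0⟩ 0 0))) (.pos 54 .mp ⟨⟨149890028, 0, 0, 0, 0, 87122178, 0, 0, 0, ⟨0, 0⟩, 0⟩, 0, 0⟩ 0 0)) (.pos 49 .mp ⟨⟨135182843, 0, 0, 0, 0, 106195430, 0, 0, 0, ⟨0, 0⟩, 0⟩, 0, 0⟩ 0 0))) (.pos 50 .mp ⟨⟨149496521, 0, 0, 0, 0, 87909972, 0, 0, 0, ⟨0, 0⟩, 0⟩, 0, 0⟩ 0 0)) (.pos 45 .mp ⟨⟨135541543, 0, 0, 0, 0, 105814592, 0, 0, 0, ⟨0, 0⟩, 0⟩, 0, 0⟩ 0 0)))) (.pos 46 .mp ⟨⟨157246709, 0, 0, 0, 0, 76114889, 0, 0, 0, ⟨0, 0⟩, 0⟩, 0, 0⟩ 0 0))))) (.pos 34 .mp ⟨⟨202938651, 0, 0, 0, 0, 0, 0, 0, 0, ⟨0, 0⟩, 0⟩, 0, 0⟩ 0 0)) (.cut .v 16842752 (.cut .s 11223040 (.cut .s 11165696 (.cut .s 11137024 (.cut .v 16809984 (.cut .s 11122688 (.cut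 .d (-8192) (.cut .s 11115520 (.pos 45 .mp ⟨⟨134139862, 0, 0, 0, 0, 113092632, 0, 0, 0, ⟨0, 0⟩, 0⟩, 0, 0⟩ 0 0) (.pos 45 .mp ⟨⟨134681942, 0, 0, 0, 0, 113588204, 0, 0, 0, ⟨0, 0⟩, 0⟩, 0, 0⟩ 0 0)) (.cut .l 108558 (.cut .v 16793600 (.cut .d (-4096) (.pos 49 .mp ⟨⟨134501690, 0, 0, 0, 0, 112976098, 0, 0, 0, ⟨0, 0⟩, 0⟩, 0, 0⟩ 0 0) (.cut .l 54279 (.cut .d (-2048) (.pos 49 .mp ⟨⟨136135670, 0, 0, 0, 0, 110049549, 0, 0, 0, ⟨0, 0⟩, 0⟩, 0, 0⟩ 0 0) (.cut .s 11115520 (.pos 49 .mp ⟨⟨136072613, 0, 0, 0, 0, 108565409, 0, 0, 0, ⟨0, 0⟩, 0⟩, 0, 0⟩ 0 0) (.pos 49 .mp ⟨⟨136611562, 0, 0, 0, 0, 109052453, 0, 0, 0, ⟨0, 0⟩, 0⟩, 0, 0⟩ 0 0))) (.pos 49 .mp ⟨⟨136258285,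 0, 0, 0, 0, 107121812, 0, 0, 0, ⟨0, 0⟩, 0⟩, 0, 0⟩ 0 0))) (.pos 50 .mp ⟨⟨150883157, 0, 0, 0, 0, 88398707, 0, 0, 0, ⟨0, 0⟩, 0⟩, 0, 0⟩ 0 0)) (.pos 45 .mp ⟨⟨136623787, 0, 0, 0, 0, 106732572, 0, 0, 0, ⟨0, 0⟩, 0⟩, 0, 0⟩ 0 0))) (.cut .d (-8192) (.cut .s 11129856 (.pos 45 .mp ⟨⟨135226045, 0, 0, 0, 0, 114090728, 0, 0, 0, ⟨0, 0⟩, 0⟩, 0, 0⟩ 0 0) (.pos 45 .mp ⟨⟨135772180, 0, 0, 0, 0, 114600234, 0, 0, 0, ⟨0, 0⟩, 0⟩, 0, 0⟩ 0 0)) (.cut .l 108558 (.cut .v 16793600 (.cut .d (-4096) (.pos 49 .mp ⟨⟨135586835, 0, 0, 0, 0, 113981865, 0, 0, 0, ⟨0, 0⟩, 0⟩, 0, 0⟩ 0 0) (.cut .s 11129856 (.cut .s 11126272 (.pos 49 .mp ⟨⟨137929742, 0, 0, 0, 0, 108237111,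 0, 0, 0, ⟨0, 0⟩, 0⟩, 0, 0⟩ 0 0) (.pos 49 .mp ⟨⟨138226577, 0, 0, 0, 0, 108446278, 0, 0, 0, ⟨0, 0⟩, 0⟩, 0, 0⟩ 0 0)) (.pos 49 .mp ⟨⟨138142977, 0, 0, 0, 0, 109386479, 0, 0, 0, ⟨0, 0⟩, 0⟩, 0, 0⟩ 0 0))) (.pos 50 .mp ⟨⟨152359542, 0, 0, 0, 0, 88786164, 0, 0, 0, ⟨0, 0⟩, 0⟩, 0, 0⟩ 0 0)) (.pos 45 .mp ⟨⟨137714034, 0, 0, 0, 0, 107658765, 0, 0, 0, ⟨0, 0⟩, 0⟩, 0, 0⟩ 0 0)))) (.pos 46 .mp ⟨⟨160301580, 0, 0, 0, 0, 76670649, 0, 0, 0, ⟨0, 0⟩, 0⟩, 0, 0⟩ 0 0)) (.cut .v 16809984 (.cut .s 11151360 (.cut .d (-8192) (.cut .s 11144192 (.pos 45 .mp ⟨⟨136320352, 0, 0, 0, 0, 115116753, 0, 0, 0, ⟨0, 0⟩, 0⟩, 0, 0⟩ 0 0) (.pos 45 .mp ⟨⟨136870569, 0, 0, 0, 0, 115640316,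 0, 0, 0, ⟨0, 0⟩, 0⟩, 0, 0⟩ 0 0)) (.cut .l 108558 (.cut .v 16793600 (.cut .d (-4096) (.pos 49 .mp ⟨⟨136680122, 0, 0, 0, 0, 115015530, 0, 0, 0, ⟨0, 0⟩, 0⟩, 0, 0⟩ 0 0) (.cut .s 11144192 (.pos 49 .mp ⟨⟨138698580, 0, 0, 0, 0, 109870750, 0, 0, 0, ⟨0, 0⟩, 0⟩, 0, 0⟩ 0 0) (.pos 49 .mp ⟨⟨139256283, 0, 0, 0, 0, 110360073, 0, 0, 0, ⟨0, 0⟩, 0⟩, 0, 0⟩ 0 0))) (.pos 50 .mp ⟨⟨153927649, 0, 0, 0, 0, 89069176, 0, 0, 0, ⟨0, 0⟩, 0⟩, 0, 0⟩ 0 0)) (.pos 45 .mp ⟨⟨138812342, 0, 0, 0, 0, 108592967, 0, 0, 0, ⟨0, 0⟩, 0⟩, 0, 0⟩ 0 0))) (.cut .d (-8192) (.cut .s 11158528 (.pos 45 .mp ⟨⟨137422839, 0, 0, 0, 0, 116170954, 0, 0, 0, ⟨0, 0⟩, 0⟩, 0, 0⟩ 0 0) (.pos 45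 .mp ⟨⟨137977169, 0, 0, 0, 0, 116708698, 0, 0, 0, ⟨0, 0⟩, 0⟩, 0, 0⟩ 0 0)) (.cut .l 108558 (.cut .v 16793600 (.cut .d (-4096) (.pos 49 .mp ⟨⟨137781608, 0, 0, 0, 0, 116077339, 0, 0, 0, ⟨0, 0⟩, 0⟩, 0, 0⟩ 0 0) (.cut .s 11158528 (.pos 49 .mp ⟨⟨139816093, 0, 0, 0, 0, 110854452, 0, 0, 0, ⟨0, 0⟩, 0⟩, 0, 0⟩ 0 0) (.pos 49 .mp ⟨⟨140378017, 0, 0, 0, 0, 111353888, 0, 0, 0, ⟨0, 0⟩, 0⟩, 0, 0⟩ 0 0))) (.pos 50 .mp ⟨⟨155589466, 0, 0, 0, 0, 89244544, 0, 0, 0, ⟨0, 0⟩, 0⟩, 0, 0⟩ 0 0)) (.pos 45 .mp ⟨⟨139918769, 0, 0, 0, 0, 109534971, 0, 0, 0, ⟨0, 0⟩, 0⟩, 0, 0⟩ 0 0)))) (.pos 46 .mp ⟨⟨163720912, 0, 0, 0, 0, 76811405, 0, 0, 0, ⟨0, 0⟩, 0⟩, 0, 0⟩ 0 0)))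 (.cut .v 16809984 (.cut .s 11194368 (.cut .s 11180032 (.cut .d (-8192) (.pos 45 .mp ⟨⟨138533567, 0, 0, 0, 0, 118085687, 0, 0, 0, ⟨0, 0⟩, 0⟩, 0, 0⟩ 0 0) (.cut .l 108558 (.cut .d (-4096) (.pos 45 .mp ⟨⟨140718294, 0, 0, 0, 0, 114178459, 0, 0, 0, ⟨0, 0⟩, 0⟩, 0, 0⟩ 0 0) (.cut .s 11172864 (.pos 45 .mp ⟨⟨141219887, 0, 0, 0, 0, 111445599, 0, 0, 0, ⟨0, 0⟩, 0⟩, 0, 0⟩ 0 0) (.pos 45 .mp ⟨⟨141770566, 0, 0, 0, 0, 111982988, 0, 0, 0, ⟨0, 0⟩, 0⟩, 0, 0⟩ 0 0))) (.pos 45 .mp ⟨⟨141033375, 0, 0, 0, 0, 110484572, 0, 0, 0, ⟨0, 0⟩, 0⟩, 0, 0⟩ 0 0))) (.cut .d (-8192) (.pos 45 .mp ⟨⟨139652593, 0, 0, 0, 0, 119206905, 0, 0, 0, ⟨0, 0⟩, 0⟩, 0, 0⟩ 0 0) (.cut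 .s 11187200 (.cut .s 11183616 (.pos 45 .mp ⟨⟨143044969, 0, 0, 0, 0, 111294978, 0, 0, 0, ⟨0, 0⟩, 0⟩, 0, 0⟩ 0 0) (.pos 45 .mp ⟨⟨143385483, 0, 0, 0, 0, 111473412, 0, 0, 0, ⟨0, 0⟩, 0⟩, 0, 0⟩ 0 0)) (.pos 45 .mp ⟨⟨143803256, 0, 0, 0, 0, 111719106, 0, 0, 0, ⟨0, 0⟩, 0⟩, 0, 0⟩ 0 0)))) (.cut .s 11208704 (.cut .d (-8192) (.pos 45 .mp ⟨⟨140779978, 0, 0, 0, 0, 120357096, 0, 0, 0, ⟨0, 0⟩, 0⟩, 0, 0⟩ 0 0) (.cut .s 11201536 (.pos 45 .mp ⟨⟨144382568, 0, 0, 0, 0, 112233358, 0, 0, 0, ⟨0, 0⟩, 0⟩, 0, 0⟩ 0 0) (.pos 45 .mp ⟨⟨144964079, 0, 0, 0, 0, 112752616, 0, 0, 0, ⟨0, 0⟩, 0⟩, 0, 0⟩ 0 0))) (.cut .d (-8192) (.pos 45 .mp ⟨⟨141915783, 0, 0, 0, 0, 121536517,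 0, 0, 0, ⟨0, 0⟩, 0⟩, 0, 0⟩ 0 0) (.cut .s 11215872 (.pos 45 .mp ⟨⟨145547797, 0, 0, 0, 0, 113276883, 0, 0, 0, ⟨0, 0⟩, 0⟩, 0, 0⟩ 0 0) (.pos 45 .mp ⟨⟨146133729, 0, 0, 0, 0, 113806159, 0, 0, 0, ⟨0, 0⟩, 0⟩, 0, 0⟩ 0 0))))) (.pos 46 .mp ⟨⟨189772826, 0, 0, 0, 0, 47227563, 0, 0, 0, ⟨0, 0⟩, 0⟩, 0, 0⟩ 0 0))) (.cut .s 11280384 (.cut .v 16809984 (.cut .s 11251712 (.cut .s 11237376 (.cut .d (-8192) (.pos 45 .mp ⟨⟨143060068, 0, 0, 0, 0, 122745428, 0, 0, 0, ⟨0, 0⟩, 0⟩, 0, 0⟩ 0 0) (.cut .s 11230208 (.pos 45 .mp ⟨⟨146635017, 0, 0, 0, 0, 114483096, 0, 0, 0, ⟨0, 0⟩, 0⟩, 0, 0⟩ 0 0) (.pos 45 .mp ⟨⟨147184955, 0, 0, 0, 0, 115097737, 0, 0, 0, ⟨0, 0⟩, 0⟩,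 0, 0⟩ 0 0))) (.cut .s 11244544 (.pos 45 .mp ⟨⟨146246007, 0, 0, 0, 0, 118229201, 0, 0, 0, ⟨0, 0⟩, 0⟩, 0, 0⟩ 0 0) (.pos 45 .mp ⟨⟨147344250, 0, 0, 0, 0, 117976508, 0, 0, 0, ⟨0, 0⟩, 0⟩, 0, 0⟩ 0 0))) (.cut .s 11266048 (.cut .s 11258880 (.pos 45 .mp ⟨⟨148539925, 0, 0, 0, 0, 117578411, 0, 0, 0, ⟨0, 0⟩, 0⟩, 0, 0⟩ 0 0) (.pos 45 .mp ⟨⟨149768590, 0, 0, 0, 0, 117135503, 0, 0, 0, ⟨0, 0⟩, 0⟩, 0, 0⟩ 0 0)) (.cut .s 11273216 (.pos 45 .mp ⟨⟨151030459, 0, 0, 0, 0, 116647397, 0, 0, 0, ⟨0, 0⟩, 0⟩, 0, 0⟩ 0 0) (.pos 45 .mp ⟨⟨152325743, 0, 0, 0, 0, 116113705, 0, 0, 0, ⟨0, 0⟩, 0⟩, 0, 0⟩ 0 0)))) (.pos 46 .mp ⟨⟨200232356, 0, 0, 0, 0, 42779669, 0, 0, 0,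 ⟨0, 0⟩, 0⟩, 0, 0⟩ 0 0)) (.cut .v 16809984 (.cut .s 11309056 (.cut .d (-8192) (.pos 45 .mp ⟨⟨147723262, 0, 0, 0, 0, 129717389, 0, 0, 0, ⟨0, 0⟩, 0⟩, 0, 0⟩ 0 0) (.cut .s 11294720 (.cut .s 11287552 (.pos 45 .mp ⟨⟨152789501, 0, 0, 0, 0, 116975366, 0, 0, 0, ⟨0, 0⟩, 0⟩, 0, 0⟩ 0 0) (.pos 45 .mp ⟨⟨153641868, 0, 0, 0, 0, 117200825, 0, 0, 0, ⟨0, 0⟩, 0⟩, 0, 0⟩ 0 0)) (.pos 45 .mp ⟨⟨153340639, 0, 0, 0, 0, 119528970, 0, 0, 0, ⟨0, 0⟩, 0⟩, 0, 0⟩ 0 0))) (.cut .s 11323392 (.cut .s 11316224 (.pos 45 .mp ⟨⟨157543655, 0, 0, 0, 0, 115698089, 0, 0, 0, ⟨0, 0⟩, 0⟩, 0, 0⟩ 0 0) (.pos 45 .mp ⟨⟨158595114, 0, 0, 0, 0, 115633862, 0, 0, 0, ⟨0, 0⟩, 0⟩, 0, 0⟩ 0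 0)) (.pos 45 .mp ⟨⟨154996606, 0, 0, 0, 0, 123400131, 0, 0, 0, ⟨0, 0⟩, 0⟩, 0, 0⟩ 0 0))) (.pos 46 .mp ⟨⟨212462913, 0, 0, 0, 0, 36150524, 0, 0, 0, ⟨0, 0⟩, 0⟩, 0, 0⟩ 0 0)))) (.pos 34 .mp ⟨⟨229650338, 0, 0, 0, 0, 0, 0, 0, 0, ⟨0, 0⟩, 0⟩, 0, 0⟩ 0 0))) (.pos 30 .mp ⟨⟨227531603, 0, 0, 0, 0, 0, 0, 0, 0, ⟨0, 0⟩, 0⟩, 0, 0⟩ 0 0))))))) (.void 28 ⟨⟨100000, 0, 0, 0, 0, 0, 0, 0, 0, ⟨0, 0⟩, 0⟩, 0, 0⟩ 0 0))) (.void 26 ⟨⟨100000, 0, 0, 0, 0, 0, 0, 0, 0, ⟨0, 0⟩, 0⟩, 0, 0⟩ 0 0))) (.void 24 ⟨⟨100000, 0, 0, 0, 0, 0, 0, 0, 0, ⟨0, 0⟩, 0⟩, 0, 0⟩ 0 0))) (.void 22 ⟨⟨100000, 0, 0, 0, 0, 0, 0, 0, 0, ⟨0, 0⟩, 0⟩, 0, 0⟩ 0 0))) (.void 20 ⟨⟨100000, 0, 0, 0, 0, 0,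 0, 0, 0, ⟨0, 0⟩, 0⟩, 0, 0⟩ 0 0))) (.void 18 ⟨⟨100000, 0, 0, 0, 0, 0, 0, 0, 0, ⟨0, 0⟩, 0⟩, 0, 0⟩ 0 0)) (.void 97 ⟨⟨100000, 0, 0, 0, 0, 0, 0, 0, 0, ⟨0, 0⟩, 0⟩, 0, 0⟩ 0 0)) (.void 120 ⟨⟨100000, 0, 0, 0, 0, 0, 0, 0, 0, ⟨0, 0⟩, 0⟩, 0, 0⟩ 0 0))) (.cut .v 16777216 (.cut .v 8388608 (.cut .v 4194304 (.cut .v 2097152 (.cut .v 1048576 (.void 121 ⟨⟨0, 0, 66667, 0, 0, 0, 0, 0, 0, ⟨0, 0⟩, 0⟩, 0, 33333⟩ 0 0) (.pos 122 .pm ⟨⟨0, 0, 27315481, 0, 0, 0, 0, 0, 0, ⟨0, 0⟩, 0⟩, 0, 44615⟩ 0 0)) (.pos 7 .pm ⟨⟨0, 0, 33367324, 0, 0, 0, 0, 0, 0, ⟨0, 0⟩, 0⟩, 0, 80307⟩ 0 0)) (.pos 5 .pm ⟨⟨0, 0, 2919802, 0, 0, 0, 0, 0, 0, ⟨0, 0⟩, 0⟩, 0, 0⟩ 0 0)) (.pos 3 .pm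 ⟨⟨0, 0, 0, 0, 0, 0, 0, 0, 0, ⟨0, 0⟩, 0⟩, 0, 0⟩ 0 0)) (.cut .v 67108864 (.cut .d 4548041 (.cut .d 2274020 (.cut .v 33554432 (.cut .v 25165824 (.cut .d 1137010 (.cut .d 568505 (.cut .v 20971520 (.cut .d 284252 (.cut .v 18874368 (.cut .s 11108352 (.pos 21 .pp ⟨⟨78718568, 0, 0, 0, 0, 0, 0, 0, 0, ⟨0, 0⟩, 0⟩, 10600868, 0⟩ 0 0) (.pos 21 .pp ⟨⟨87386590, 0, 0, 0, 0, 0, 0, 0, 0, ⟨0, 0⟩, 0⟩, 12202252, 0⟩ 0 0)) (.pos 22 .pp ⟨⟨257656491, 0, 0, 0, 0, 0, 0, 0, 0, ⟨0, 0⟩, 0⟩, 0, 0⟩ 0 0)) (.pos 19 .pp ⟨⟨0, 0, 0, 0, 0, 0, 0, 0, 0, ⟨0, 0⟩, 0⟩, 13715289, 111302⟩ 0 0)) (.pos 20 .pp ⟨⟨0, 0, 0, 0, 0, 0, 0, 0, 0, ⟨0, 0⟩, 0⟩, 28833286, 0⟩ 0 0)) (.pos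 17 .pp ⟨⟨0, 0, 0, 0, 0, 0, 0, 0, 0, ⟨0, 0⟩, 0⟩, 14105957, 106527⟩ 0 0)) (.pos 17 .pp ⟨⟨0, 0, 0, 0, 0, 0, 0, 0, 0, ⟨0, 0⟩, 0⟩, 0, 334720⟩ 0 0)) (.cut .d 1137010 (.pos 18 .pp ⟨⟨0, 0, 0, 0, 0, 0, 0, 0, 0, ⟨0, 0⟩, 0⟩, 37844476, 0⟩ 0 0) (.pos 18 .pp ⟨⟨0, 0, 0, 0, 0, 0, 241582, 0, 0, ⟨0, 0⟩, 0⟩, 16220079, 0⟩ 0 0))) (.cut .d 1137010 (.void 97 ⟨⟨0, 0, 0, 0, 0, 0, 0, 0, 0, ⟨0, 0⟩, 0⟩, 100000, 0⟩ 0 0) (.pos 97 .pp ⟨⟨0, 0, 0, 0, 0, 0, 0, 0, 0, ⟨0, 0⟩, 0⟩, 48126163, 0⟩ 0 0))) (.cut .v 33554432 (.pos 16 .pp ⟨⟨0, 0, 0, 0, 0, 0, 0, 0, 0, ⟨0, 0⟩, 0⟩, 0, 371911⟩ 0 0) (.pos 97 .pp ⟨⟨0, 0, 0, 0, 0, 0, 0, 0, 0, ⟨0, 0⟩, 0⟩, 26742990, 0⟩ 0 0))) (.pos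 96 .pp ⟨⟨0, 0, 0, 0, 0, 0, 0, 0, 0, ⟨0, 0⟩, 0⟩, 0, 278933⟩ 0 0)) (.void 120 ⟨⟨0, 93171, 0, 0, 0, 0, 0, 0, 0, ⟨0, 0⟩, 0⟩, 6829, 0⟩ 0 0)))),
    by decide +kernel⟩

def covers16 : cell.Covers Vale.Agent.P237.Petty.Cor.Grid.N17.table row16.1 :=
  ⟨(.cut .d 0 (.cut .v 16777216 (.cut .d (-8388608) (.void 1 ⟨⟨0, 0, 0, 0, 0, 100000, 0, 0, 0, ⟨0, 0⟩, 0⟩, 0, 0⟩ 0 0) (.cut .d (-4194304) (.void 1 ⟨⟨0, 0, 0, 0, 0, 100000, 0, 0, 0, ⟨0, 0⟩, 0⟩, 0, 0⟩ 0 0) (.cut .d (-2097152) (.void 1 ⟨⟨0, 0, 0, 0, 0, 100000, 0, 0, 0, ⟨0, 0⟩, 0⟩, 0, 0⟩ 0 0) (.cut .d (-1048576) (.void 1 ⟨⟨0, 0, 0, 0, 0, 100000, 0, 0, 0, ⟨0, 0⟩, 0⟩, 0, 0⟩ 0 0) (.cut .d (-524288)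 (.void 1 ⟨⟨0, 0, 0, 0, 0, 100000, 0, 0, 0, ⟨0, 0⟩, 0⟩, 0, 0⟩ 0 0) (.cut .d (-262144) (.void 1 ⟨⟨0, 0, 0, 0, 0, 100000, 0, 0, 0, ⟨0, 0⟩, 0⟩, 0, 0⟩ 0 0) (.cut .d (-131072) (.void 1 ⟨⟨0, 0, 0, 0, 0, 100000, 0, 0, 0, ⟨0, 0⟩, 0⟩, 0, 0⟩ 0 0) (.cut .d (-65536) (.void 1 ⟨⟨0, 0, 0, 0, 0, 100000, 0, 0, 0, ⟨0, 0⟩, 0⟩, 0, 0⟩ 0 0) (.cut .d (-32768) (.void 1 ⟨⟨0, 0, 0, 0, 0, 100000, 0, 0, 0, ⟨0, 0⟩, 0⟩, 0, 0⟩ 0 0) (.cut .d (-16384) (.void 1 ⟨⟨0, 0, 0, 0, 0, 100000, 0, 0, 0, ⟨0, 0⟩, 0⟩, 0, 0⟩ 0 0) (.cut .v 8388608 (.cut .v 4194304 (.void 4 ⟨⟨0, 0, 100000, 0, 0, 0, 0, 0, 0, ⟨0, 0⟩, 0⟩, 0, 0⟩ 0 0) (.pos 5 .mm ⟨⟨0, 0, 4320944, 0, 0, 145976989,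 0, 0, 0, ⟨0, 0⟩, 0⟩, 0, 0⟩ 0 0)) (.cut .d (-8192) (.pos 3 .mm ⟨⟨0, 0, 0, 0, 0, 428776030, 0, 0, 0, ⟨0, 0⟩, 0⟩, 0, 0⟩ 0 0) (.cut .l 108558 (.cut .d (-4096) (.pos 3 .mm ⟨⟨0, 0, 0, 0, 0, 428745754, 0, 0, 0, ⟨0, 0⟩, 0⟩, 0, 0⟩ 0 0) (.cut .l 54279 (.cut .d (-2048) (.pos 3 .mm ⟨⟨0, 0, 0, 0, 0, 428730492, 0, 0, 0, ⟨0, 0⟩, 0⟩, 0, 0⟩ 0 0) (.cut .v 12582912 (.pos 8 .mm ⟨⟨0, 0, 0, 0, 0, 235293286, 0, 0, 0, ⟨0, 0⟩, 0⟩, 0, 0⟩ 0 0) (.cut .v 14680064 (.pos 12 .mm ⟨⟨0, 0, 0, 0, 0, 282120241, 0, 0, 0, ⟨0, 0⟩, 0⟩, 0, 0⟩ 0 0) (.cut .v 15728640 (.pos 14 .mm ⟨⟨0, 0, 0, 0, 0, 306597058, 0, 0, 0, ⟨0, 0⟩, 0⟩, 0, 0⟩ 0 0) (.cut .v 16252928 (.pos 31 .mm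 ⟨⟨0, 0, 0, 0, 0, 319101302, 0, 0, 0, ⟨0, 0⟩, 0⟩, 0, 0⟩ 0 0) (.cut .v 16515072 (.pos 39 .mm ⟨⟨0, 0, 0, 0, 0, 325419883, 0, 0, 0, ⟨0, 0⟩, 0⟩, 0, 0⟩ 0 0) (.cut .v 16646144 (.pos 41 .mm ⟨⟨0, 0, 0, 0, 0, 328595788, 0, 0, 0, ⟨0, 0⟩, 0⟩, 0, 0⟩ 0 0) (.cut .v 16711680 (.pos 43 .mm ⟨⟨0, 0, 0, 0, 0, 341776832, 0, 0, 0, ⟨0, 0⟩, 0⟩, 0, 0⟩ 0 0) (.cut .v 16744448 (.pos 47 .mm ⟨⟨0, 0, 0, 0, 0, 376760819, 0, 0, 0, ⟨0, 0⟩, 0⟩, 0, 0⟩ 0 0) (.cut .v 16760832 (.pos 106 .mm ⟨⟨0, 0, 0, 0, 0, 384836451, 0, 0, 0, ⟨0, 0⟩, 0⟩, 0, 0⟩ 0 0) (.cut .v 16769024 (.pos 108 .mm ⟨⟨0, 0, 0, 0, 0, 388881536, 0, 0, 0, ⟨0, 0⟩, 0⟩, 0, 0⟩ 0 0) (.cut .v 16773120 (.pos 110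 .mm ⟨⟨0, 0, 0, 0, 0, 390905896, 0, 0, 0, ⟨0, 0⟩, 0⟩, 0, 0⟩ 0 0) (.cut .l 27139 (.cut .d (-1024) (.pos 111 .mm ⟨⟨0, 0, 0, 0, 0, 428723852, 0, 0, 0, ⟨0, 0⟩, 0⟩, 0, 0⟩ 0 0) (.cut .l 13569 (.cut .d (-512) (.pos 111 .mm ⟨⟨0, 0, 0, 0, 0, 428722019, 0, 0, 0, ⟨0, 0⟩, 0⟩, 0, 0⟩ 0 0) (.cut .v 16775168 (.pos 112 .mm ⟨⟨0, 0, 0, 0, 0, 389021637, 0, 0, 0, ⟨0, 0⟩, 0⟩, 0, 0⟩ 0 0) (.cut .v 16776192 (.pos 114 .mm ⟨⟨0, 0, 0, 0, 0, 390968172, 0, 0, 0, ⟨0, 0⟩, 0⟩, 0, 0⟩ 0 0) (.cut .l 6784 (.cut .s 11534336 (.cut .s 11436032 (.pos 115 .mm ⟨⟨0, 0, 0, 0, 0, 365845919, 0, 0, 0, ⟨0, 0⟩, 0⟩, 0, 0⟩ 0 0) (.pos 115 .mm ⟨⟨0, 0, 0, 0, 0, 387180760, 0, 0, 0,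 ⟨0, 0⟩, 0⟩, 0, 0⟩ 0 0)) (.cut .s 11632640 (.pos 115 .mm ⟨⟨0, 0, 0, 0, 0, 410681100, 0, 0, 0, ⟨0, 0⟩, 0⟩, 0, 0⟩ 0 0) (.pos 115 .mm ⟨⟨0, 0, 0, 0, 0, 436407187, 0, 0, 0, ⟨0, 0⟩, 0⟩, 0, 0⟩ 0 0))) (.pos 115 .mm ⟨⟨0, 0, 0, 0, 0, 351197572, 0, 0, 0, ⟨0, 0⟩, 0⟩, 0, 0⟩ 0 0))))) (.pos 111 .mm ⟨⟨0, 0, 0, 0, 0, 351208781, 0, 0, 0, ⟨0, 0⟩, 0⟩, 0, 0⟩ 0 0))) (.pos 111 .mm ⟨⟨0, 0, 0, 0, 0, 351238708, 0, 0, 0, ⟨0, 0⟩, 0⟩, 0, 0⟩ 0 0)))))))))))))) (.pos 3 .mm ⟨⟨0, 0, 0, 0, 0, 351302316, 0, 0, 0, ⟨0, 0⟩, 0⟩, 0, 0⟩ 0 0))) (.pos 3 .mm ⟨⟨0, 0, 0, 0, 0, 351432033, 0, 0, 0, ⟨0, 0⟩, 0⟩, 0, 0⟩ 0 0)))))))))))))) (.cut .v 268435456 (.cut .v 67108864 (.cut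 .v 33554432 (.cut .v 25165824 (.cut .d (-8388608) (.void 17 ⟨⟨100000, 0, 0, 0, 0, 0, 0, 0, 0, ⟨0, 0⟩, 0⟩, 0, 0⟩ 0 0) (.cut .v 20971520 (.cut .d (-4194304) (.void 19 ⟨⟨100000, 0, 0, 0, 0, 0, 0, 0, 0, ⟨0, 0⟩, 0⟩, 0, 0⟩ 0 0) (.cut .d (-2097152) (.void 19 ⟨⟨100000, 0, 0, 0, 0, 0, 0, 0, 0, ⟨0, 0⟩, 0⟩, 0, 0⟩ 0 0) (.cut .v 18874368 (.cut .d (-1048576) (.void 21 ⟨⟨100000, 0, 0, 0, 0, 0, 0, 0, 0, ⟨0, 0⟩, 0⟩, 0, 0⟩ 0 0) (.cut .v 17825792 (.cut .d (-524288) (.void 23 ⟨⟨100000, 0, 0, 0, 0, 0, 0, 0, 0, ⟨0, 0⟩, 0⟩, 0, 0⟩ 0 0) (.cut .d (-262144) (.void 23 ⟨⟨100000, 0, 0, 0, 0, 0, 0, 0, 0, ⟨0, 0⟩, 0⟩, 0, 0⟩ 0 0) (.cut .d (-131072) (.void 23 ⟨⟨100000,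 0, 0, 0, 0, 0, 0, 0, 0, ⟨0, 0⟩, 0⟩, 0, 0⟩ 0 0) (.cut .d (-65536) (.void 23 ⟨⟨100000, 0, 0, 0, 0, 0, 0, 0, 0, ⟨0, 0⟩, 0⟩, 0, 0⟩ 0 0) (.cut .d (-32768) (.void 23 ⟨⟨100000, 0, 0, 0, 0, 0, 0, 0, 0, ⟨0, 0⟩, 0⟩, 0, 0⟩ 0 0) (.cut .d (-16384) (.void 23 ⟨⟨0, 0, 0, 0, 0, 100000, 0, 0, 0, ⟨0, 0⟩, 0⟩, 0, 0⟩ 0 0) (.cut .v 17301504 (.cut .v 17039360 (.cut .v 16908288 (.cut .s 11534336 (.cut .v 16842752 (.cut .s 11436032 (.cut .s 11386880 (.cut .v 16809984 (.cut .d (-8192) (.pos 45 .mp ⟨⟨152526149, 0, 0, 0, 0, 138246487, 0, 0, 0, ⟨0, 0⟩, 0⟩, 0, 0⟩ 0 0) (.cut .l 108558 (.cut .v 16793600 (.cut .d (-4096) (.pos 49 .mp ⟨⟨152873679, 0, 0, 0, 0, 137286115,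 0, 0, 0, ⟨0, 0⟩, 0⟩, 0, 0⟩ 0 0) (.cut .l 54279 (.cut .v 16785408 (.cut .d (-2048) (.pos 53 .mp ⟨⟨153047906, 0, 0, 0, 0, 136805118, 0, 0, 0, ⟨0, 0⟩, 0⟩, 0, 0⟩ 0 0) (.cut .l 27139 (.cut .d (-1024) (.pos 53 .mp ⟨⟨157718646, 0, 0, 0, 0, 128213152, 0, 0, 0, ⟨0, 0⟩, 0⟩, 0, 0⟩ 0 0) (.cut .v 16781312 (.cut .l 13569 (.cut .d (-512) (.pos 98 .mp ⟨⟨157659555, 0, 0, 0, 0, 128236878, 0, 0, 0, ⟨0, 0⟩, 0⟩, 0, 0⟩ 0 0) (.cut .v 16779264 (.cut .l 6784 (.cut .s 11362304 (.cut .s 11350016 (.pos 116 .mp ⟨⟨158043560, 0, 0, 0, 0, 121438574, 0, 0, 0, ⟨0, 0⟩, 0⟩, 0, 0⟩ 0 0) (.pos 116 .mp ⟨⟨158620709, 0, 0, 0, 0, 122851228, 0, 0, 0, ⟨0, 0⟩, 0⟩, 0, 0⟩ 0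 0)) (.cut .s 11374592 (.pos 116 .mp ⟨⟨159225612, 0, 0, 0, 0, 124253636, 0, 0, 0, ⟨0, 0⟩, 0⟩, 0, 0⟩ 0 0) (.pos 116 .mp ⟨⟨159858928, 0, 0, 0, 0, 125644822, 0, 0, 0, ⟨0, 0⟩, 0⟩, 0, 0⟩ 0 0))) (.pos 116 .mp ⟨⟨157515708, 0, 0, 0, 0, 120592271, 0, 0, 0, ⟨0, 0⟩, 0⟩, 0, 0⟩ 0 0)) (.pos 117 .mp ⟨⟨238757939, 0, 0, 0, 0, 0, 0, 0, 0, ⟨0, 0⟩, 0⟩, 0, 0⟩ 0 0))) (.pos 98 .mp ⟨⟨157578860, 0, 0, 0, 0, 120521285, 0, 0, 0, ⟨0, 0⟩, 0⟩, 0, 0⟩ 0 0)) (.pos 99 .mp ⟨⟨238797913, 0, 0, 0, 0, 0, 0, 0, 0, ⟨0, 0⟩, 0⟩, 0, 0⟩ 0 0))) (.pos 53 .mp ⟨⟨157705230, 0, 0, 0, 0, 120380065, 0, 0, 0, ⟨0, 0⟩, 0⟩, 0, 0⟩ 0 0))) (.pos 54 .mp ⟨⟨200777120, 0, 0, 0, 0, 63191248,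 0, 0, 0, ⟨0, 0⟩, 0⟩, 0, 0⟩ 0 0)) (.pos 49 .mp ⟨⟨157958233, 0, 0, 0, 0, 120097719, 0, 0, 0, ⟨0, 0⟩, 0⟩, 0, 0⟩ 0 0))) (.pos 50 .mp ⟨⟨200267813, 0, 0, 0, 0, 64212457, 0, 0, 0, ⟨0, 0⟩, 0⟩, 0, 0⟩ 0 0)) (.pos 45 .mp ⟨⟨158465151, 0, 0, 0, 0, 119532193, 0, 0, 0, ⟨0, 0⟩, 0⟩, 0, 0⟩ 0 0))) (.pos 46 .mp ⟨⟨199257649, 0, 0, 0, 0, 66241014, 0, 0, 0, ⟨0, 0⟩, 0⟩, 0, 0⟩ 0 0)) (.cut .v 16809984 (.cut .s 11411456 (.cut .d (-8192) (.pos 45 .mp ⟨⟨156782554, 0, 0, 0, 0, 137576022, 0, 0, 0, ⟨0, 0⟩, 0⟩, 0, 0⟩ 0 0) (.cut .s 11399168 (.pos 45 .mp ⟨⟨161227132, 0, 0, 0, 0, 126056901, 0, 0, 0, ⟨0, 0⟩, 0⟩, 0, 0⟩ 0 0) (.pos 45 .mp ⟨⟨162361715, 0, 0, 0, 0, 126751567,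 0, 0, 0, ⟨0, 0⟩, 0⟩, 0, 0⟩ 0 0))) (.cut .d (-8192) (.pos 45 .mp ⟨⟨158952770, 0, 0, 0, 0, 139066504, 0, 0, 0, ⟨0, 0⟩, 0⟩, 0, 0⟩ 0 0) (.cut .l 108558 (.cut .d (-4096) (.pos 45 .mp ⟨⟨162734635, 0, 0, 0, 0, 132021415, 0, 0, 0, ⟨0, 0⟩, 0⟩, 0, 0⟩ 0 0) (.cut .s 11423744 (.pos 45 .mp ⟨⟨162362357, 0, 0, 0, 0, 129157738, 0, 0, 0, ⟨0, 0⟩, 0⟩, 0, 0⟩ 0 0) (.pos 45 .mp ⟨⟨163516469, 0, 0, 0, 0, 129876335, 0, 0, 0, ⟨0, 0⟩, 0⟩, 0, 0⟩ 0 0))) (.pos 45 .mp ⟨⟨162875697, 0, 0, 0, 0, 126784698, 0, 0, 0, ⟨0, 0⟩, 0⟩, 0, 0⟩ 0 0)))) (.pos 46 .mp ⟨⟨254718993, 0, 0, 0, 0, 0, 0, 0, 0, ⟨0, 0⟩, 0⟩, 0, 0⟩ 0 0))) (.cut .s 11485184 (.cut .s 11460608 (.cut .v 16809984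 (.cut .d (-8192) (.pos 45 .mp ⟨⟨161151483, 0, 0, 0, 0, 140661526, 0, 0, 0, ⟨0, 0⟩, 0⟩, 0, 0⟩ 0 0) (.cut .l 108558 (.cut .d (-4096) (.pos 45 .mp ⟨⟨164372294, 0, 0, 0, 0, 134780425, 0, 0, 0, ⟨0, 0⟩, 0⟩, 0, 0⟩ 0 0) (.cut .v 16793600 (.cut .l 54279 (.cut .d (-2048) (.pos 49 .mp ⟨⟨164659652, 0, 0, 0, 0, 133757889, 0, 0, 0, ⟨0, 0⟩, 0⟩, 0, 0⟩ 0 0) (.cut .s 11448320 (.pos 49 .mp ⟨⟨163766833, 0, 0, 0, 0, 131980822, 0, 0, 0, ⟨0, 0⟩, 0⟩, 0, 0⟩ 0 0) (.cut .s 11454464 (.pos 49 .mp ⟨⟨165214986, 0, 0, 0, 0, 131993294, 0, 0, 0, ⟨0, 0⟩, 0⟩, 0, 0⟩ 0 0) (.pos 49 .mp ⟨⟨165680741, 0, 0, 0, 0, 132558333, 0, 0, 0, ⟨0, 0⟩, 0⟩, 0, 0⟩ 0 0)))) (.pos 49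 .mp ⟨⟨164566717, 0, 0, 0, 0, 129224464, 0, 0, 0, ⟨0, 0⟩, 0⟩, 0, 0⟩ 0 0)) (.pos 50 .mp ⟨⟨248537342, 0, 0, 0, 0, 0, 0, 0, 0, ⟨0, 0⟩, 0⟩, 0, 0⟩ 0 0))) (.pos 45 .mp ⟨⟨165125006, 0, 0, 0, 0, 128593203, 0, 0, 0, ⟨0, 0⟩, 0⟩, 0, 0⟩ 0 0))) (.pos 46 .mp ⟨⟨260567631, 0, 0, 0, 0, 0, 0, 0, 0, ⟨0, 0⟩, 0⟩, 0, 0⟩ 0 0)) (.cut .v 16809984 (.cut .d (-8192) (.cut .s 11472896 (.pos 45 .mp ⟨⟨163379063, 0, 0, 0, 0, 140507823, 0, 0, 0, ⟨0, 0⟩, 0⟩, 0, 0⟩ 0 0) (.pos 45 .mp ⟨⟨164503798, 0, 0, 0, 0, 141377805, 0, 0, 0, ⟨0, 0⟩, 0⟩, 0, 0⟩ 0 0)) (.cut .l 108558 (.cut .v 16793600 (.cut .d (-4096) (.pos 49 .mp ⟨⟨163693716, 0, 0, 0, 0, 141427185, 0, 0, 0, ⟨0,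 0⟩, 0⟩, 0, 0⟩ 0 0) (.cut .l 54279 (.cut .d (-2048) (.pos 49 .mp ⟨⟨166427427, 0, 0, 0, 0, 136406080, 0, 0, 0, ⟨0, 0⟩, 0⟩, 0, 0⟩ 0 0) (.cut .v 16785408 (.cut .l 27139 (.cut .d (-1024) (.pos 53 .mp ⟨⟨166573007, 0, 0, 0, 0, 135886079, 0, 0, 0, ⟨0, 0⟩, 0⟩, 0, 0⟩ 0 0) (.cut .v 16781312 (.cut .l 13569 (.cut .d (-512) (.pos 98 .mp ⟨⟨166476550, 0, 0, 0, 0, 135980070, 0, 0, 0, ⟨0, 0⟩, 0⟩, 0, 0⟩ 0 0) (.cut .v 16779264 (.cut .l 6784 (.cut .s 11472896 (.cut .s 11466752 (.pos 116 .mp ⟨⟨166693617, 0, 0, 0, 0, 132153500, 0, 0, 0, ⟨0, 0⟩, 0⟩, 0, 0⟩ 0 0) (.pos 116 .mp ⟨⟨167139707, 0, 0, 0, 0, 132772965, 0, 0, 0, ⟨0, 0⟩, 0⟩, 0, 0⟩ 0 0)) (.cut .s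 11479040 (.pos 116 .mp ⟨⟨167594335, 0, 0, 0, 0, 133387453, 0, 0, 0, ⟨0, 0⟩, 0⟩, 0, 0⟩ 0 0) (.pos 116 .mp ⟨⟨168057592, 0, 0, 0, 0, 133996829, 0, 0, 0, ⟨0, 0⟩, 0⟩, 0, 0⟩ 0 0))) (.pos 116 .mp ⟨⟨166325313, 0, 0, 0, 0, 131662156, 0, 0, 0, ⟨0, 0⟩, 0⟩, 0, 0⟩ 0 0)) (.pos 117 .mp ⟨⟨251415287, 0, 0, 0, 0, 0, 0, 0, 0, ⟨0, 0⟩, 0⟩, 0, 0⟩ 0 0))) (.pos 98 .mp ⟨⟨166397080, 0, 0, 0, 0, 131580387, 0, 0, 0, ⟨0, 0⟩, 0⟩, 0, 0⟩ 0 0)) (.pos 99 .mp ⟨⟨251453740, 0, 0, 0, 0, 0, 0, 0, 0, ⟨0, 0⟩, 0⟩, 0, 0⟩ 0 0))) (.pos 53 .mp ⟨⟨166540685, 0, 0, 0, 0, 131417229, 0, 0, 0, ⟨0, 0⟩, 0⟩, 0, 0⟩ 0 0)) (.pos 54 .mp ⟨⟨251524497, 0, 0, 0, 0, 0, 0, 0, 0, ⟨0, 0⟩, 0⟩,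 0, 0⟩ 0 0))) (.pos 49 .mp ⟨⟨166828183, 0, 0, 0, 0, 131090789, 0, 0, 0, ⟨0, 0⟩, 0⟩, 0, 0⟩ 0 0))) (.pos 50 .mp ⟨⟨263468876, 0, 0, 0, 0, 0, 0, 0, 0, ⟨0, 0⟩, 0⟩, 0, 0⟩ 0 0)) (.pos 45 .mp ⟨⟨167404188, 0, 0, 0, 0, 130436829, 0, 0, 0, ⟨0, 0⟩, 0⟩, 0, 0⟩ 0 0))) (.pos 46 .mp ⟨⟨264007714, 0, 0, 0, 0, 0, 0, 0, 0, ⟨0, 0⟩, 0⟩, 0, 0⟩ 0 0))) (.cut .s 11509760 (.cut .v 16809984 (.cut .d (-8192) (.cut .s 11497472 (.pos 45 .mp ⟨⟨165635892, 0, 0, 0, 0, 142274906, 0, 0, 0, ⟨0, 0⟩, 0⟩, 0, 0⟩ 0 0) (.pos 45 .mp ⟨⟨166775395, 0, 0, 0, 0, 143199347, 0, 0, 0, ⟨0, 0⟩, 0⟩, 0, 0⟩ 0 0)) (.cut .l 108558 (.cut .v 16793600 (.cut .s 11497472 (.cut .s 11491328 (.pos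 49 .mp ⟨⟨168703501, 0, 0, 0, 0, 134450488, 0, 0, 0, ⟨0, 0⟩, 0⟩, 0, 0⟩ 0 0) (.pos 49 .mp ⟨⟨168950719, 0, 0, 0, 0, 135437279, 0, 0, 0, ⟨0, 0⟩, 0⟩, 0, 0⟩ 0 0)) (.cut .s 11503616 (.pos 49 .mp ⟨⟨169224767, 0, 0, 0, 0, 136389110, 0, 0, 0, ⟨0, 0⟩, 0⟩, 0, 0⟩ 0 0) (.pos 49 .mp ⟨⟨169525822, 0, 0, 0, 0, 137305661, 0, 0, 0, ⟨0, 0⟩, 0⟩, 0, 0⟩ 0 0))) (.pos 50 .mp ⟨⟨266950082, 0, 0, 0, 0, 0, 0, 0, 0, ⟨0, 0⟩, 0⟩, 0, 0⟩ 0 0)) (.pos 45 .mp ⟨⟨169713635, 0, 0, 0, 0, 132314204, 0, 0, 0, ⟨0, 0⟩, 0⟩, 0, 0⟩ 0 0))) (.pos 46 .mp ⟨⟨267498034, 0, 0, 0, 0, 0, 0, 0, 0, ⟨0, 0⟩, 0⟩, 0, 0⟩ 0 0)) (.cut .v 16809984 (.cut .d (-8192) (.cut .s 11522048 (.pos 45 .mp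 ⟨⟨167922356, 0, 0, 0, 0, 144151346, 0, 0, 0, ⟨0, 0⟩, 0⟩, 0, 0⟩ 0 0) (.pos 45 .mp ⟨⟨169076824, 0, 0, 0, 0, 145131127, 0, 0, 0, ⟨0, 0⟩, 0⟩, 0, 0⟩ 0 0)) (.cut .l 108558 (.cut .v 16793600 (.cut .s 11522048 (.cut .s 11515904 (.pos 49 .mp ⟨⟨169854065, 0, 0, 0, 0, 138186609, 0, 0, 0, ⟨0, 0⟩, 0⟩, 0, 0⟩ 0 0) (.pos 49 .mp ⟨⟨170209675, 0, 0, 0, 0, 139031632, 0, 0, 0, ⟨0, 0⟩, 0⟩, 0, 0⟩ 0 0)) (.cut .s 11528192 (.pos 49 .mp ⟨⟨170661542, 0, 0, 0, 0, 139731344, 0, 0, 0, ⟨0, 0⟩, 0⟩, 0, 0⟩ 0 0) (.pos 49 .mp ⟨⟨171173861, 0, 0, 0, 0, 140342449, 0, 0, 0, ⟨0, 0⟩, 0⟩, 0, 0⟩ 0 0))) (.pos 50 .mp ⟨⟨270480607, 0, 0, 0, 0, 0, 0, 0, 0, ⟨0, 0⟩, 0⟩, 0, 0⟩ 0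 0)) (.pos 45 .mp ⟨⟨172053752, 0, 0, 0, 0, 134223948, 0, 0, 0, ⟨0, 0⟩, 0⟩, 0, 0⟩ 0 0))) (.pos 46 .mp ⟨⟨271037859, 0, 0, 0, 0, 0, 0, 0, 0, ⟨0, 0⟩, 0⟩, 0, 0⟩ 0 0))))) (.pos 34 .mp ⟨⟨258532577, 0, 0, 0, 0, 0, 0, 0, 0, ⟨0, 0⟩, 0⟩, 0, 0⟩ 0 0)) (.cut .v 16842752 (.cut .s 11632640 (.cut .s 11583488 (.cut .s 11558912 (.cut .v 16809984 (.cut .d (-8192) (.cut .s 11546624 (.pos 45 .mp ⟨⟨170238849, 0, 0, 0, 0, 146138914, 0, 0, 0, ⟨0, 0⟩, 0⟩, 0, 0⟩ 0 0) (.pos 45 .mp ⟨⟨171408482, 0, 0, 0, 0, 147174933, 0, 0, 0, ⟨0, 0⟩, 0⟩, 0, 0⟩ 0 0)) (.cut .l 108558 (.cut .v 16793600 (.cut .s 11546624 (.cut .d (-4096) (.pos 49 .mp ⟨⟨170533935, 0, 0, 0, 0, 145216393,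 0, 0, 0, ⟨0, 0⟩, 0⟩, 0, 0⟩ 0 0) (.cut .s 11540480 (.pos 49 .mp ⟨⟨172864751, 0, 0, 0, 0, 138937115, 0, 0, 0, ⟨0, 0⟩, 0⟩, 0, 0⟩ 0 0) (.pos 49 .mp ⟨⟨173484917, 0, 0, 0, 0, 139383540, 0, 0, 0, ⟨0, 0⟩, 0⟩, 0, 0⟩ 0 0))) (.cut .d (-4096) (.pos 49 .mp ⟨⟨171700319, 0, 0, 0, 0, 146253872, 0, 0, 0, ⟨0, 0⟩, 0⟩, 0, 0⟩ 0 0) (.cut .s 11552768 (.pos 49 .mp ⟨⟨174100509, 0, 0, 0, 0, 139845851, 0, 0, 0, ⟨0, 0⟩, 0⟩, 0, 0⟩ 0 0) (.pos 49 .mp ⟨⟨174711441, 0, 0, 0, 0, 140324214, 0, 0, 0, ⟨0, 0⟩, 0⟩, 0, 0⟩ 0 0)))) (.pos 50 .mp ⟨⟨274059729, 0, 0, 0, 0, 0, 0, 0, 0, ⟨0, 0⟩, 0⟩, 0, 0⟩ 0 0)) (.pos 45 .mp ⟨⟨174424946, 0, 0, 0, 0, 136164668, 0, 0, 0, ⟨0, 0⟩,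 0⟩, 0, 0⟩ 0 0))) (.pos 46 .mp ⟨⟨274626463, 0, 0, 0, 0, 0, 0, 0, 0, ⟨0, 0⟩, 0⟩, 0, 0⟩ 0 0)) (.cut .v 16809984 (.cut .d (-8192) (.cut .s 11571200 (.pos 45 .mp ⟨⟨172585774, 0, 0, 0, 0, 148239414, 0, 0, 0, ⟨0, 0⟩, 0⟩, 0, 0⟩ 0 0) (.pos 45 .mp ⟨⟨173770775, 0, 0, 0, 0, 149332587, 0, 0, 0, ⟨0, 0⟩, 0⟩, 0, 0⟩ 0 0)) (.cut .l 108558 (.cut .v 16793600 (.cut .s 11571200 (.cut .d (-4096) (.pos 49 .mp ⟨⟨172874364, 0, 0, 0, 0, 147319772, 0, 0, 0, ⟨0, 0⟩, 0⟩, 0, 0⟩ 0 0) (.cut .s 11565056 (.pos 49 .mp ⟨⟨175310391, 0, 0, 0, 0, 140830910, 0, 0, 0, ⟨0, 0⟩, 0⟩, 0, 0⟩ 0 0) (.pos 49 .mp ⟨⟨175908449, 0, 0, 0, 0, 141347407, 0, 0, 0, ⟨0, 0⟩, 0⟩, 0, 0⟩ 0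 0))) (.cut .d (-4096) (.pos 49 .mp ⟨⟨174056123, 0, 0, 0, 0, 148414321, 0, 0, 0, ⟨0, 0⟩, 0⟩, 0, 0⟩ 0 0) (.cut .s 11577344 (.pos 49 .mp ⟨⟨176508489, 0, 0, 0, 0, 141868909, 0, 0, 0, ⟨0, 0⟩, 0⟩, 0, 0⟩ 0 0) (.pos 49 .mp ⟨⟨177106857, 0, 0, 0, 0, 142401552, 0, 0, 0, ⟨0, 0⟩, 0⟩, 0, 0⟩ 0 0)))) (.pos 50 .mp ⟨⟨277686737, 0, 0, 0, 0, 0, 0, 0, 0, ⟨0, 0⟩, 0⟩, 0, 0⟩ 0 0)) (.pos 45 .mp ⟨⟨176827636, 0, 0, 0, 0, 138134964, 0, 0, 0, ⟨0, 0⟩, 0⟩, 0, 0⟩ 0 0))) (.pos 46 .mp ⟨⟨278263133, 0, 0, 0, 0, 0, 0, 0, 0, ⟨0, 0⟩, 0⟩, 0, 0⟩ 0 0))) (.cut .s 11608064 (.cut .v 16809984 (.cut .d (-8192) (.cut .s 11595776 (.pos 45 .mp ⟨⟨174963539, 0, 0, 0, 0, 150454684,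 0, 0, 0, ⟨0, 0⟩, 0⟩, 0, 0⟩ 0 0) (.pos 45 .mp ⟨⟨176164117, 0, 0, 0, 0, 151605942, 0, 0, 0, ⟨0, 0⟩, 0⟩, 0, 0⟩ 0 0)) (.cut .l 108558 (.cut .v 16793600 (.cut .s 11595776 (.cut .d (-4096) (.pos 49 .mp ⟨⟨175245647, 0, 0, 0, 0, 149537753, 0, 0, 0, ⟨0, 0⟩, 0⟩, 0, 0⟩ 0 0) (.cut .s 11589632 (.pos 49 .mp ⟨⟨177693196, 0, 0, 0, 0, 142962708, 0, 0, 0, ⟨0, 0⟩, 0⟩, 0, 0⟩ 0 0) (.pos 49 .mp ⟨⟨178274353, 0, 0, 0, 0, 143540939, 0, 0, 0, ⟨0, 0⟩, 0⟩, 0, 0⟩ 0 0))) (.cut .s 11601920 (.cut .s 11598848 (.pos 49 .mp ⟨⟨180434185, 0, 0, 0, 0, 141412246, 0, 0, 0, ⟨0, 0⟩, 0⟩, 0, 0⟩ 0 0) (.pos 49 .mp ⟨⟨180778806, 0, 0, 0, 0, 141622019, 0, 0, 0, ⟨0, 0⟩, 0⟩, 0,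 0⟩ 0 0)) (.pos 49 .mp ⟨⟨178304144, 0, 0, 0, 0, 146682050, 0, 0, 0, ⟨0, 0⟩, 0⟩, 0, 0⟩ 0 0))) (.pos 50 .mp ⟨⟨281360928, 0, 0, 0, 0, 0, 0, 0, 0, ⟨0, 0⟩, 0⟩, 0, 0⟩ 0 0)) (.pos 45 .mp ⟨⟨179262248, 0, 0, 0, 0, 140133419, 0, 0, 0, ⟨0, 0⟩, 0⟩, 0, 0⟩ 0 0))) (.pos 46 .mp ⟨⟨281947162, 0, 0, 0, 0, 0, 0, 0, 0, ⟨0, 0⟩, 0⟩, 0, 0⟩ 0 0)) (.cut .v 16809984 (.cut .d (-8192) (.cut .s 11620352 (.pos 45 .mp ⟨⟨177372562, 0, 0, 0, 0, 152786596, 0, 0, 0, ⟨0, 0⟩, 0⟩, 0, 0⟩ 0 0) (.pos 45 .mp ⟨⟨178588928, 0, 0, 0, 0, 153996886, 0, 0, 0, ⟨0, 0⟩, 0⟩, 0, 0⟩ 0 0)) (.cut .l 108558 (.cut .v 16793600 (.cut .s 11620352 (.cut .s 11614208 (.pos 49 .mp ⟨⟨178983409,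 0, 0, 0, 0, 147122011, 0, 0, 0, ⟨0, 0⟩, 0⟩, 0, 0⟩ 0 0) (.pos 49 .mp ⟨⟨179768629, 0, 0, 0, 0, 147400154, 0, 0, 0, ⟨0, 0⟩, 0⟩, 0, 0⟩ 0 0)) (.cut .s 11626496 (.pos 49 .mp ⟨⟨180617160, 0, 0, 0, 0, 147584373, 0, 0, 0, ⟨0, 0⟩, 0⟩, 0, 0⟩ 0 0) (.pos 49 .mp ⟨⟨181496331, 0, 0, 0, 0, 147726728, 0, 0, 0, ⟨0, 0⟩, 0⟩, 0, 0⟩ 0 0))) (.pos 50 .mp ⟨⟨285081609, 0, 0, 0, 0, 0, 0, 0, 0, ⟨0, 0⟩, 0⟩, 0, 0⟩ 0 0)) (.pos 45 .mp ⟨⟨181729215, 0, 0, 0, 0, 142158610, 0, 0, 0, ⟨0, 0⟩, 0⟩, 0, 0⟩ 0 0))) (.pos 46 .mp ⟨⟨285677855, 0, 0, 0, 0, 0, 0, 0, 0, ⟨0, 0⟩, 0⟩, 0, 0⟩ 0 0)))) (.cut .s 11681792 (.cut .v 16809984 (.cut .s 11657216 (.cut .d (-8192) (.cut .s 11644928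 (.pos 45 .mp ⟨⟨179813269, 0, 0, 0, 0, 155237054, 0, 0, 0, ⟨0, 0⟩, 0⟩, 0, 0⟩ 0 0) (.pos 45 .mp ⟨⟨181045639, 0, 0, 0, 0, 156507344, 0, 0, 0, ⟨0, 0⟩, 0⟩, 0, 0⟩ 0 0)) (.cut .l 108558 (.cut .v 16793600 (.cut .d (-4096) (.pos 49 .mp ⟨⟨180082451, 0, 0, 0, 0, 156477317, 0, 0, 0, ⟨0, 0⟩, 0⟩, 0, 0⟩ 0 0) (.cut .l 54279 (.cut .v 16785408 (.cut .d (-2048) (.pos 53 .mp ⟨⟨180217619, 0, 0, 0, 0, 156018251, 0, 0, 0, ⟨0, 0⟩, 0⟩, 0, 0⟩ 0 0) (.cut .l 27139 (.cut .v 16781312 (.cut .d (-1024) (.pos 98 .mp ⟨⟨180285380, 0, 0, 0, 0, 155788496, 0, 0, 0, ⟨0, 0⟩, 0⟩, 0, 0⟩ 0 0) (.cut .l 13569 (.cut .d (-512) (.pos 98 .mp ⟨⟨182943969, 0, 0, 0, 0, 150799013,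 0, 0, 0, ⟨0, 0⟩, 0⟩, 0, 0⟩ 0 0) (.cut .v 16779264 (.cut .l 6784 (.cut .s 11644928 (.cut .s 11638784 (.pos 116 .mp ⟨⟨182713078, 0, 0, 0, 0, 147154008, 0, 0, 0, ⟨0, 0⟩, 0⟩, 0, 0⟩ 0 0) (.pos 116 .mp ⟨⟨183433419, 0, 0, 0, 0, 147579857, 0, 0, 0, ⟨0, 0⟩, 0⟩, 0, 0⟩ 0 0)) (.cut .s 11651072 (.pos 116 .mp ⟨⟨184164965, 0, 0, 0, 0, 147996588, 0, 0, 0, ⟨0, 0⟩, 0⟩, 0, 0⟩ 0 0) (.pos 116 .mp ⟨⟨184907817, 0, 0, 0, 0, 148404040, 0, 0, 0, ⟨0, 0⟩, 0⟩, 0, 0⟩ 0 0))) (.pos 116 .mp ⟨⟨182901506, 0, 0, 0, 0, 145755355, 0, 0, 0, ⟨0, 0⟩, 0⟩, 0, 0⟩ 0 0)) (.pos 117 .mp ⟨⟨275945761, 0, 0, 0, 0, 0, 0, 0, 0, ⟨0, 0⟩, 0⟩, 0, 0⟩ 0 0))) (.pos 98 .mp ⟨⟨182989816,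 0, 0, 0, 0, 145652186, 0, 0, 0, ⟨0, 0⟩, 0⟩, 0, 0⟩ 0 0))) (.pos 99 .mp ⟨⟨288391959, 0, 0, 0, 0, 0, 0, 0, 0, ⟨0, 0⟩, 0⟩, 0, 0⟩ 0 0)) (.pos 53 .mp ⟨⟨183166522, 0, 0, 0, 0, 145446284, 0, 0, 0, ⟨0, 0⟩, 0⟩, 0, 0⟩ 0 0))) (.pos 54 .mp ⟨⟨288544572, 0, 0, 0, 0, 0, 0, 0, 0, ⟨0, 0⟩, 0⟩, 0, 0⟩ 0 0)) (.pos 49 .mp ⟨⟨183520273, 0, 0, 0, 0, 145034325, 0, 0, 0, ⟨0, 0⟩, 0⟩, 0, 0⟩ 0 0))) (.pos 50 .mp ⟨⟨288848094, 0, 0, 0, 0, 0, 0, 0, 0, ⟨0, 0⟩, 0⟩, 0, 0⟩ 0 0)) (.pos 45 .mp ⟨⟨184228979, 0, 0, 0, 0, 144209097, 0, 0, 0, ⟨0, 0⟩, 0⟩, 0, 0⟩ 0 0))) (.cut .d (-8192) (.pos 45 .mp ⟨⟨182286093, 0, 0, 0, 0, 160008768, 0, 0, 0, ⟨0, 0⟩, 0⟩, 0, 0⟩ 0 0) (.cut .l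 108558 (.cut .v 16793600 (.cut .d (-4096) (.pos 49 .mp ⟨⟨182548833, 0, 0, 0, 0, 159094734, 0, 0, 0, ⟨0, 0⟩, 0⟩, 0, 0⟩ 0 0) (.cut .l 54279 (.cut .d (-2048) (.pos 49 .mp ⟨⟨185639690, 0, 0, 0, 0, 153301515, 0, 0, 0, ⟨0, 0⟩, 0⟩, 0, 0⟩ 0 0) (.cut .v 16785408 (.cut .l 27139 (.cut .d (-1024) (.pos 53 .mp ⟨⟨185802276, 0, 0, 0, 0, 152702662, 0, 0, 0, ⟨0, 0⟩, 0⟩, 0, 0⟩ 0 0) (.cut .v 16781312 (.cut .l 13569 (.cut .d (-512) (.pos 98 .mp ⟨⟨185564857, 0, 0, 0, 0, 153079215, 0, 0, 0, ⟨0, 0⟩, 0⟩, 0, 0⟩ 0 0) (.cut .v 16779264 (.cut .l 6784 (.cut .s 11669504 (.cut .s 11663360 (.pos 116 .mp ⟨⟨185662077, 0, 0, 0, 0, 148802050, 0, 0, 0, ⟨0, 0⟩, 0⟩,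 0, 0⟩ 0 0) (.pos 116 .mp ⟨⟨186427850, 0, 0, 0, 0, 149190455, 0, 0, 0, ⟨0, 0⟩, 0⟩, 0, 0⟩ 0 0)) (.cut .s 11675648 (.pos 116 .mp ⟨⟨187205237, 0, 0, 0, 0, 149569091, 0, 0, 0, ⟨0, 0⟩, 0⟩, 0, 0⟩ 0 0) (.pos 116 .mp ⟨⟨187994343, 0, 0, 0, 0, 149937793, 0, 0, 0, ⟨0, 0⟩, 0⟩, 0, 0⟩ 0 0))) (.pos 116 .mp ⟨⟨185396587, 0, 0, 0, 0, 147879045, 0, 0, 0, ⟨0, 0⟩, 0⟩, 0, 0⟩ 0 0)) (.pos 117 .mp ⟨⟨279845064, 0, 0, 0, 0, 0, 0, 0, 0, ⟨0, 0⟩, 0⟩, 0, 0⟩ 0 0))) (.pos 98 .mp ⟨⟨185487421, 0, 0, 0, 0, 147772585, 0, 0, 0, ⟨0, 0⟩, 0⟩, 0, 0⟩ 0 0)) (.pos 99 .mp ⟨⟨279888105, 0, 0, 0, 0, 0, 0, 0, 0, ⟨0, 0⟩, 0⟩, 0, 0⟩ 0 0))) (.pos 53 .mp ⟨⟨185669177, 0, 0, 0, 0, 147560111,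 0, 0, 0, ⟨0, 0⟩, 0⟩, 0, 0⟩ 0 0)) (.pos 54 .mp ⟨⟨279967002, 0, 0, 0, 0, 0, 0, 0, 0, ⟨0, 0⟩, 0⟩, 0, 0⟩ 0 0))) (.pos 49 .mp ⟨⟨186033037, 0, 0, 0, 0, 147135000, 0, 0, 0, ⟨0, 0⟩, 0⟩, 0, 0⟩ 0 0))) (.pos 50 .mp ⟨⟨292659710, 0, 0, 0, 0, 0, 0, 0, 0, ⟨0, 0⟩, 0⟩, 0, 0⟩ 0 0)) (.pos 45 .mp ⟨⟨186761992, 0, 0, 0, 0, 146283431, 0, 0, 0, ⟨0, 0⟩, 0⟩, 0, 0⟩ 0 0)))) (.pos 46 .mp ⟨⟨290201832, 0, 0, 0, 0, 0, 0, 0, 0, ⟨0, 0⟩, 0⟩, 0, 0⟩ 0 0)) (.cut .v 16809984 (.cut .s 11706368 (.cut .d (-8192) (.pos 45 .mp ⟨⟨184791476, 0, 0, 0, 0, 162746885, 0, 0, 0, ⟨0, 0⟩, 0⟩, 0, 0⟩ 0 0) (.cut .l 108558 (.cut .d (-4096) (.pos 45 .mp ⟨⟨188412971, 0, 0, 0, 0, 155975443,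 0, 0, 0, ⟨0, 0⟩, 0⟩, 0, 0⟩ 0 0) (.cut .v 16793600 (.cut .l 54279 (.cut .d (-2048) (.pos 49 .mp ⟨⟨188742790, 0, 0, 0, 0, 154755763, 0, 0, 0, ⟨0, 0⟩, 0⟩, 0, 0⟩ 0 0) (.cut .s 11694080 (.cut .s 11687936 (.pos 49 .mp ⟨⟨188074932, 0, 0, 0, 0, 151604831, 0, 0, 0, ⟨0, 0⟩, 0⟩, 0, 0⟩ 0 0) (.pos 49 .mp ⟨⟨188838509, 0, 0, 0, 0, 152042386, 0, 0, 0, ⟨0, 0⟩, 0⟩, 0, 0⟩ 0 0)) (.pos 49 .mp ⟨⟨188876782, 0, 0, 0, 0, 153993753, 0, 0, 0, ⟨0, 0⟩, 0⟩, 0, 0⟩ 0 0))) (.pos 49 .mp ⟨⟨188579174, 0, 0, 0, 0, 149258554, 0, 0, 0, ⟨0, 0⟩, 0⟩, 0, 0⟩ 0 0)) (.pos 50 .mp ⟨⟨284128593, 0, 0, 0, 0, 0, 0, 0, 0, ⟨0, 0⟩, 0⟩, 0, 0⟩ 0 0))) (.pos 45 .mp ⟨⟨189328713, 0, 0,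 0, 0, 148380147, 0, 0, 0, ⟨0, 0⟩, 0⟩, 0, 0⟩ 0 0))) (.cut .d (-8192) (.pos 45 .mp ⟨⟨187329870, 0, 0, 0, 0, 165609814, 0, 0, 0, ⟨0, 0⟩, 0⟩, 0, 0⟩ 0 0) (.cut .l 108558 (.cut .d (-4096) (.pos 45 .mp ⟨⟨191683077, 0, 0, 0, 0, 157277101, 0, 0, 0, ⟨0, 0⟩, 0⟩, 0, 0⟩ 0 0) (.cut .s 11718656 (.pos 45 .mp ⟨⟨191241917, 0, 0, 0, 0, 153630443, 0, 0, 0, ⟨0, 0⟩, 0⟩, 0, 0⟩ 0 0) (.pos 45 .mp ⟨⟨192510118, 0, 0, 0, 0, 154968515, 0, 0, 0, ⟨0, 0⟩, 0⟩, 0, 0⟩ 0 0))) (.pos 45 .mp ⟨⟨191929610, 0, 0, 0, 0, 150497769, 0, 0, 0, ⟨0, 0⟩, 0⟩, 0, 0⟩ 0 0)))) (.pos 46 .mp ⟨⟨297860227, 0, 0, 0, 0, 0, 0, 0, 0, ⟨0, 0⟩, 0⟩, 0, 0⟩ 0 0)))) (.pos 34 .mp ⟨⟨287035743, 0,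 0, 0, 0, 0, 0, 0, 0, ⟨0, 0⟩, 0⟩, 0, 0⟩ 0 0))) (.pos 30 .mp ⟨⟨285514775, 0, 0, 0, 0, 0, 0, 0, 0, ⟨0, 0⟩, 0⟩, 0, 0⟩ 0 0)) (.void 28 ⟨⟨100000, 0, 0, 0, 0, 0, 0, 0, 0, ⟨0, 0⟩, 0⟩, 0, 0⟩ 0 0)) (.void 26 ⟨⟨100000, 0, 0, 0, 0, 0, 0, 0, 0, ⟨0, 0⟩, 0⟩, 0, 0⟩ 0 0)))))))) (.void 24 ⟨⟨100000, 0, 0, 0, 0, 0, 0, 0, 0, ⟨0, 0⟩, 0⟩, 0, 0⟩ 0 0))) (.void 22 ⟨⟨100000, 0, 0, 0, 0, 0, 0, 0, 0, ⟨0, 0⟩, 0⟩, 0, 0⟩ 0 0)))) (.void 20 ⟨⟨100000, 0, 0, 0, 0, 0, 0, 0, 0, ⟨0, 0⟩, 0⟩, 0, 0⟩ 0 0))) (.void 18 ⟨⟨100000, 0, 0, 0, 0, 0, 0, 0, 0, ⟨0, 0⟩, 0⟩, 0, 0⟩ 0 0)) (.void 97 ⟨⟨100000, 0, 0, 0, 0, 0, 0, 0, 0, ⟨0, 0⟩, 0⟩, 0, 0⟩ 0 0)) (.void 120 ⟨⟨100000, 0, 0, 0,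 0, 0, 0, 0, 0, ⟨0, 0⟩, 0⟩, 0, 0⟩ 0 0)) (.void 125 ⟨⟨96282, 0, 0, 3718, 0, 0, 0, 0, 0, ⟨0, 0⟩, 0⟩, 0, 0⟩ 0 0))) (.cut .v 16777216 (.cut .v 8388608 (.cut .v 4194304 (.cut .v 2097152 (.cut .v 1048576 (.pos 121 .pm ⟨⟨0, 0, 24235315, 0, 0, 0, 0, 0, 0, ⟨0, 0⟩, 0⟩, 0, 11420⟩ 0 0) (.pos 122 .pm ⟨⟨0, 0, 26687854, 0, 0, 0, 0, 0, 0, ⟨0, 0⟩, 0⟩, 0, 31723⟩ 0 0)) (.pos 7 .pm ⟨⟨0, 0, 32954376, 0, 0, 0, 0, 0, 0, ⟨0, 0⟩, 0⟩, 0, 49225⟩ 0 0)) (.pos 5 .pm ⟨⟨0, 0, 4222683, 0, 0, 0, 0, 0, 0, ⟨0, 0⟩, 0⟩, 0, 0⟩ 0 0)) (.pos 3 .pm ⟨⟨0, 0, 0, 0, 0, 0, 0, 0, 0, ⟨0, 0⟩, 0⟩, 0, 0⟩ 0 0)) (.cut .v 268435456 (.cut .v 67108864 (.cut .d 4024593 (.cut .d 2012296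 (.cut .v 33554432 (.cut .d 1006148 (.cut .v 25165824 (.cut .d 503074 (.cut .v 20971520 (.cut .v 18874368 (.cut .s 11534336 (.pos 21 .pp ⟨⟨100334492, 0, 0, 0, 0, 0, 0, 0, 0, ⟨0, 0⟩, 0⟩, 13300742, 0⟩ 0 0) (.pos 21 .pp ⟨⟨113541803, 0, 0, 0, 0, 0, 0, 0, 0, ⟨0, 0⟩, 0⟩, 14558451, 0⟩ 0 0)) (.pos 22 .pp ⟨⟨298555108, 0, 0, 0, 0, 0, 0, 0, 0, ⟨0, 0⟩, 0⟩, 0, 0⟩ 0 0)) (.pos 20 .pp ⟨⟨0, 0, 0, 0, 0, 0, 0, 0, 0, ⟨0, 0⟩, 0⟩, 36082505, 0⟩ 0 0)) (.pos 17 .pp ⟨⟨0, 0, 0, 0, 0, 0, 0, 0, 0, ⟨0, 0⟩, 0⟩, 16930237, 84931⟩ 0 0)) (.pos 18 .pp ⟨⟨0, 0, 0, 0, 0, 0, 0, 0, 0, ⟨0, 0⟩, 0⟩, 47093490, 0⟩ 0 0)) (.pos 16 .pp ⟨⟨0, 0, 0, 0, 0, 0, 0, 0, 0, ⟨0, 0⟩, 0⟩,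 19707373, 65948⟩ 0 0)) (.cut .d 1006148 (.void 97 ⟨⟨0, 0, 0, 0, 0, 0, 0, 0, 0, ⟨0, 0⟩, 0⟩, 100000, 0⟩ 0 0) (.pos 97 .pp ⟨⟨0, 0, 0, 0, 0, 0, 0, 0, 0, ⟨0, 0⟩, 0⟩, 56935712, 0⟩ 0 0))) (.pos 96 .pp ⟨⟨0, 0, 0, 0, 0, 0, 0, 0, 0, ⟨0, 0⟩, 0⟩, 16643489, 86892⟩ 0 0)) (.pos 96 .pp ⟨⟨0, 0, 0, 0, 0, 0, 0, 0, 0, ⟨0, 0⟩, 0⟩, 0, 200658⟩ 0 0)) (.void 120 ⟨⟨0, 93340, 0, 0, 0, 0, 0, 0, 0, ⟨0, 0⟩, 0⟩, 6660, 0⟩ 0 0)) (.void 125 ⟨⟨0, 0, 0, 0, 0, 0, 0, 0, 0, ⟨0, 0⟩, 0⟩, 100000, 0⟩ 0 0)))),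
    by decide +kernel⟩

def covers17 : cell.Covers Vale.Agent.P237.Petty.Cor.Grid.N17.table row17.1 :=
  ⟨(.cut .d 0 (.cut .v 16777216 (.cut .d (-8388608) (.void 1 ⟨⟨0, 0, 0, 0, 0, 100000, 0, 0, 0, ⟨0, 0⟩, 0⟩, 0, 0⟩ 0 0) (.cut .d (-4194304) (.void 1 ⟨⟨0, 0, 0, 0, 0, 100000, 0, 0, 0, ⟨0, 0⟩, 0⟩, 0, 0⟩ 0 0) (.cut .d (-2097152) (.void 1 ⟨⟨0, 0, 0, 0, 0, 100000, 0, 0, 0, ⟨0, 0⟩, 0⟩, 0, 0⟩ 0 0) (.cut .d (-1048576) (.void 1 ⟨⟨0, 0, 0, 0, 0, 100000, 0, 0, 0, ⟨0, 0⟩, 0⟩, 0, 0⟩ 0 0) (.cut .d (-524288) (.void 1 ⟨⟨0, 0, 0, 0, 0, 100000, 0, 0, 0, ⟨0, 0⟩, 0⟩, 0, 0⟩ 0 0) (.cut .d (-262144) (.void 1 ⟨⟨0, 0, 0, 0, 0, 100000, 0, 0, 0, ⟨0, 0⟩,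 0⟩, 0, 0⟩ 0 0) (.cut .d (-131072) (.void 1 ⟨⟨0, 0, 0, 0, 0, 100000, 0, 0, 0, ⟨0, 0⟩, 0⟩, 0, 0⟩ 0 0) (.cut .d (-65536) (.void 1 ⟨⟨0, 0, 0, 0, 0, 100000, 0, 0, 0, ⟨0, 0⟩, 0⟩, 0, 0⟩ 0 0) (.cut .d (-32768) (.void 1 ⟨⟨0, 0, 0, 0, 0, 100000, 0, 0, 0, ⟨0, 0⟩, 0⟩, 0, 0⟩ 0 0) (.cut .d (-16384) (.void 1 ⟨⟨0, 0, 0, 0, 0, 100000, 0, 0, 0, ⟨0, 0⟩, 0⟩, 0, 0⟩ 0 0) (.cut .v 8388608 (.cut .v 4194304 (.void 4 ⟨⟨0, 0, 100000, 0, 0, 0, 0, 0, 0, ⟨0, 0⟩, 0⟩, 0, 0⟩ 0 0) (.pos 5 .mm ⟨⟨0, 0, 5763404, 0, 0, 183849864, 0, 0, 0, ⟨0, 0⟩, 0⟩, 0, 0⟩ 0 0)) (.cut .s 11862016 (.pos 3 .mm ⟨⟨0, 0, 0, 0, 0, 468314631, 0, 0, 0, ⟨0, 0⟩, 0⟩, 0, 0⟩ 0 0) (.pos 3 .mm ⟨⟨0,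 0, 0, 0, 0, 506419215, 0, 0, 0, ⟨0, 0⟩, 0⟩, 0, 0⟩ 0 0))))))))))))) (.cut .v 268435456 (.cut .v 67108864 (.cut .v 33554432 (.cut .v 25165824 (.cut .d (-8388608) (.void 17 ⟨⟨100038, 0, 0, 0, 0, 0, 0, 0, 0, ⟨0, 0⟩, 0⟩, 0, 0⟩ 0 0) (.cut .v 20971520 (.cut .d (-4194304) (.void 19 ⟨⟨100000, 0, 0, 0, 0, 0, 0, 0, 0, ⟨0, 0⟩, 0⟩, 0, 0⟩ 0 0) (.cut .d (-2097152) (.void 19 ⟨⟨100000, 0, 0, 0, 0, 0, 0, 0, 0, ⟨0, 0⟩, 0⟩, 0, 0⟩ 0 0) (.cut .v 18874368 (.cut .d (-1048576) (.void 21 ⟨⟨100000, 0, 0, 0, 0, 0, 0, 0, 0, ⟨0, 0⟩, 0⟩, 0, 0⟩ 0 0) (.cut .v 17825792 (.cut .d (-524288) (.void 23 ⟨⟨100000, 0, 0, 0, 0, 0, 0, 0, 0, ⟨0, 0⟩, 0⟩, 0, 0⟩ 0 0) (.cut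 .d (-262144) (.void 23 ⟨⟨100000, 0, 0, 0, 0, 0, 0, 0, 0, ⟨0, 0⟩, 0⟩, 0, 0⟩ 0 0) (.cut .d (-131072) (.void 23 ⟨⟨100000, 0, 0, 0, 0, 0, 0, 0, 0, ⟨0, 0⟩, 0⟩, 0, 0⟩ 0 0) (.cut .d (-65536) (.void 23 ⟨⟨100000, 0, 0, 0, 0, 0, 0, 0, 0, ⟨0, 0⟩, 0⟩, 0, 0⟩ 0 0) (.cut .d (-32768) (.void 23 ⟨⟨100000, 0, 0, 0, 0, 0, 0, 0, 0, ⟨0, 0⟩, 0⟩, 0, 0⟩ 0 0) (.cut .d (-16384) (.void 23 ⟨⟨0, 0, 0, 0, 0, 100000, 0, 0, 0, ⟨0, 0⟩, 0⟩, 0, 0⟩ 0 0) (.cut .v 17301504 (.cut .v 17039360 (.cut .v 16908288 (.cut .v 16842752 (.cut .s 11862016 (.cut .s 11796480 (.cut .s 11763712 (.cut .v 16809984 (.cut .d (-8192) (.pos 45 .mp ⟨⟨189896734, 0, 0, 0, 0, 170244962, 0,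 0, 0, ⟨0, 0⟩, 0⟩, 0, 0⟩ 0 0) (.cut .l 108558 (.cut .d (-4096) (.pos 45 .mp ⟨⟨190511133, 0, 0, 0, 0, 170085883, 0, 0, 0, ⟨0, 0⟩, 0⟩, 0, 0⟩ 0 0) (.cut .v 16793600 (.cut .l 54279 (.cut .d (-2048) (.pos 49 .mp ⟨⟨190448236, 0, 0, 0, 0, 169677198, 0, 0, 0, ⟨0, 0⟩, 0⟩, 0, 0⟩ 0 0) (.cut .v 16785408 (.cut .s 11747328 (.pos 53 .mp ⟨⟨193014589, 0, 0, 0, 0, 157871966, 0, 0, 0, ⟨0, 0⟩, 0⟩, 0, 0⟩ 0 0) (.cut .s 11755520 (.pos 53 .mp ⟨⟨196757328, 0, 0, 0, 0, 155432218, 0, 0, 0, ⟨0, 0⟩, 0⟩, 0, 0⟩ 0 0) (.pos 53 .mp ⟨⟨197312391, 0, 0, 0, 0, 156579819, 0, 0, 0, ⟨0, 0⟩, 0⟩, 0, 0⟩ 0 0))) (.pos 54 .mp ⟨⟨293272220, 0, 0, 0, 0, 0, 0, 0, 0, ⟨0, 0⟩, 0⟩,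 0, 0⟩ 0 0))) (.pos 49 .mp ⟨⟨194652520, 0, 0, 0, 0, 153748744, 0, 0, 0, ⟨0, 0⟩, 0⟩, 0, 0⟩ 0 0)) (.pos 50 .mp ⟨⟨293436167, 0, 0, 0, 0, 0, 0, 0, 0, ⟨0, 0⟩, 0⟩, 0, 0⟩ 0 0))) (.pos 45 .mp ⟨⟨195454637, 0, 0, 0, 0, 152801286, 0, 0, 0, ⟨0, 0⟩, 0⟩, 0, 0⟩ 0 0))) (.pos 46 .mp ⟨⟨306103625, 0, 0, 0, 0, 0, 0, 0, 0, ⟨0, 0⟩, 0⟩, 0, 0⟩ 0 0)) (.cut .v 16809984 (.cut .d (-8192) (.pos 45 .mp ⟨⟨193393300, 0, 0, 0, 0, 172834657, 0, 0, 0, ⟨0, 0⟩, 0⟩, 0, 0⟩ 0 0) (.cut .l 108558 (.cut .v 16793600 (.cut .d (-4096) (.pos 49 .mp ⟨⟨193621874, 0, 0, 0, 0, 171936382, 0, 0, 0, ⟨0, 0⟩, 0⟩, 0, 0⟩ 0 0) (.cut .l 54279 (.cut .d (-2048) (.pos 49 .mp ⟨⟨193925222, 0,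 0, 0, 0, 172304326, 0, 0, 0, ⟨0, 0⟩, 0⟩, 0, 0⟩ 0 0) (.cut .v 16785408 (.cut .l 27139 (.cut .d (-1024) (.pos 53 .mp ⟨⟨193888625, 0, 0, 0, 0, 172103798, 0, 0, 0, ⟨0, 0⟩, 0⟩, 0, 0⟩ 0 0) (.cut .v 16781312 (.cut .l 13569 (.cut .d (-512) (.pos 98 .mp ⟨⟨193870410, 0, 0, 0, 0, 172003599, 0, 0, 0, ⟨0, 0⟩, 0⟩, 0, 0⟩ 0 0) (.cut .v 16779264 (.cut .l 6784 (.cut .s 11780096 (.cut .s 11771904 (.pos 116 .mp ⟨⟨197467002, 0, 0, 0, 0, 158212803, 0, 0, 0, ⟨0, 0⟩, 0⟩, 0, 0⟩ 0 0) (.pos 116 .mp ⟨⟨198100349, 0, 0, 0, 0, 159291299, 0, 0, 0, ⟨0, 0⟩, 0⟩, 0, 0⟩ 0 0)) (.cut .s 11788288 (.pos 116 .mp ⟨⟨198753320, 0, 0, 0, 0, 160357361, 0, 0, 0, ⟨0, 0⟩, 0⟩,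 0, 0⟩ 0 0) (.pos 116 .mp ⟨⟨199426196, 0, 0, 0, 0, 161410548, 0, 0, 0, ⟨0, 0⟩, 0⟩, 0, 0⟩ 0 0))) (.pos 116 .mp ⟨⟨197485059, 0, 0, 0, 0, 157558424, 0, 0, 0, ⟨0, 0⟩, 0⟩, 0, 0⟩ 0 0)) (.pos 117 .mp ⟨⟨297963247, 0, 0, 0, 0, 0, 0, 0, 0, ⟨0, 0⟩, 0⟩, 0, 0⟩ 0 0))) (.pos 98 .mp ⟨⟨197589082, 0, 0, 0, 0, 157434562, 0, 0, 0, ⟨0, 0⟩, 0⟩, 0, 0⟩ 0 0)) (.pos 99 .mp ⟨⟨298010898, 0, 0, 0, 0, 0, 0, 0, 0, ⟨0, 0⟩, 0⟩, 0, 0⟩ 0 0))) (.pos 53 .mp ⟨⟨197797225, 0, 0, 0, 0, 157187388, 0, 0, 0, ⟨0, 0⟩, 0⟩, 0, 0⟩ 0 0)) (.pos 54 .mp ⟨⟨298095748, 0, 0, 0, 0, 0, 0, 0, 0, ⟨0, 0⟩, 0⟩, 0, 0⟩ 0 0))) (.pos 49 .mp ⟨⟨198213902, 0, 0, 0, 0, 156692880, 0, 0, 0, ⟨0, 0⟩,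 0⟩, 0, 0⟩ 0 0))) (.pos 50 .mp ⟨⟨310817282, 0, 0, 0, 0, 0, 0, 0, 0, ⟨0, 0⟩, 0⟩, 0, 0⟩ 0 0)) (.pos 45 .mp ⟨⟨199048648, 0, 0, 0, 0, 155702347, 0, 0, 0, ⟨0, 0⟩, 0⟩, 0, 0⟩ 0 0))) (.pos 46 .mp ⟨⟨311484363, 0, 0, 0, 0, 0, 0, 0, 0, ⟨0, 0⟩, 0⟩, 0, 0⟩ 0 0))) (.cut .s 11829248 (.cut .v 16809984 (.cut .d (-8192) (.cut .s 11812864 (.pos 45 .mp ⟨⟨196952600, 0, 0, 0, 0, 172321122, 0, 0, 0, ⟨0, 0⟩, 0⟩, 0, 0⟩ 0 0) (.pos 45 .mp ⟨⟨198756145, 0, 0, 0, 0, 173783315, 0, 0, 0, ⟨0, 0⟩, 0⟩, 0, 0⟩ 0 0)) (.cut .s 11812864 (.cut .l 108558 (.cut .d (-4096) (.pos 45 .mp ⟨⟨197549477, 0, 0, 0, 0, 171779498, 0, 0, 0, ⟨0, 0⟩, 0⟩, 0, 0⟩ 0 0) (.cut .s 11804672 (.pos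 45 .mp ⟨⟨200470899, 0, 0, 0, 0, 162005744, 0, 0, 0, ⟨0, 0⟩, 0⟩, 0, 0⟩ 0 0) (.pos 45 .mp ⟨⟨201456104, 0, 0, 0, 0, 162589548, 0, 0, 0, ⟨0, 0⟩, 0⟩, 0, 0⟩ 0 0))) (.pos 45 .mp ⟨⟨200870076, 0, 0, 0, 0, 160261012, 0, 0, 0, ⟨0, 0⟩, 0⟩, 0, 0⟩ 0 0)) (.cut .l 108558 (.cut .d (-4096) (.pos 45 .mp ⟨⟨199348672, 0, 0, 0, 0, 173252175, 0, 0, 0, ⟨0, 0⟩, 0⟩, 0, 0⟩ 0 0) (.cut .s 11821056 (.pos 45 .mp ⟨⟨202379496, 0, 0, 0, 0, 163306025, 0, 0, 0, ⟨0, 0⟩, 0⟩, 0, 0⟩ 0 0) (.pos 45 .mp ⟨⟨203298363, 0, 0, 0, 0, 164049743, 0, 0, 0, ⟨0, 0⟩, 0⟩, 0, 0⟩ 0 0))) (.pos 45 .mp ⟨⟨202707991, 0, 0, 0, 0, 161810611, 0, 0, 0, ⟨0, 0⟩, 0⟩, 0, 0⟩ 0 0)))) (.pos 46 .mp ⟨⟨316976322,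 0, 0, 0, 0, 0, 0, 0, 0, ⟨0, 0⟩, 0⟩, 0, 0⟩ 0 0)) (.cut .v 16809984 (.cut .d (-8192) (.cut .s 11845632 (.pos 45 .mp ⟨⟨200575822, 0, 0, 0, 0, 175309430, 0, 0, 0, ⟨0, 0⟩, 0⟩, 0, 0⟩ 0 0) (.pos 45 .mp ⟨⟨202411784, 0, 0, 0, 0, 176900193, 0, 0, 0, ⟨0, 0⟩, 0⟩, 0, 0⟩ 0 0)) (.cut .s 11845632 (.cut .l 108558 (.cut .d (-4096) (.pos 45 .mp ⟨⟨201164012, 0, 0, 0, 0, 174788816, 0, 0, 0, ⟨0, 0⟩, 0⟩, 0, 0⟩ 0 0) (.cut .s 11837440 (.pos 45 .mp ⟨⟨204221393, 0, 0, 0, 0, 164804736, 0, 0, 0, ⟨0, 0⟩, 0⟩, 0, 0⟩ 0 0) (.cut .s 11841536 (.pos 45 .mp ⟨⟨204623451, 0, 0, 0, 0, 166072457, 0, 0, 0, ⟨0, 0⟩, 0⟩, 0, 0⟩ 0 0) (.pos 45 .mp ⟨⟨205048030, 0, 0, 0, 0, 166517966,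 0, 0, 0, ⟨0, 0⟩, 0⟩, 0, 0⟩ 0 0)))) (.pos 45 .mp ⟨⟨204562550, 0, 0, 0, 0, 163378542, 0, 0, 0, ⟨0, 0⟩, 0⟩, 0, 0⟩ 0 0)) (.cut .l 108558 (.cut .d (-4096) (.pos 45 .mp ⟨⟨202995649, 0, 0, 0, 0, 176390148, 0, 0, 0, ⟨0, 0⟩, 0⟩, 0, 0⟩ 0 0) (.cut .v 16793600 (.cut .l 54279 (.cut .d (-2048) (.pos 49 .mp ⟨⟨202894579, 0, 0, 0, 0, 176015410, 0, 0, 0, ⟨0, 0⟩, 0⟩, 0, 0⟩ 0 0) (.cut .s 11853824 (.pos 49 .mp ⟨⟨204837293, 0, 0, 0, 0, 168255671, 0, 0, 0, ⟨0, 0⟩, 0⟩, 0, 0⟩ 0 0) (.pos 49 .mp ⟨⟨205797913, 0, 0, 0, 0, 168996796, 0, 0, 0, ⟨0, 0⟩, 0⟩, 0, 0⟩ 0 0))) (.pos 49 .mp ⟨⟨205531580, 0, 0, 0, 0, 166044404, 0, 0, 0, ⟨0, 0⟩, 0⟩, 0, 0⟩ 0 0)) (.pos 50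 .mp ⟨⟨309153498, 0, 0, 0, 0, 0, 0, 0, 0, ⟨0, 0⟩, 0⟩, 0, 0⟩ 0 0))) (.pos 45 .mp ⟨⟨206433911, 0, 0, 0, 0, 164964279, 0, 0, 0, ⟨0, 0⟩, 0⟩, 0, 0⟩ 0 0)))) (.pos 46 .mp ⟨⟨322577421, 0, 0, 0, 0, 0, 0, 0, 0, ⟨0, 0⟩, 0⟩, 0, 0⟩ 0 0)))) (.cut .s 11927552 (.cut .s 11894784 (.cut .v 16809984 (.cut .d (-8192) (.cut .s 11878400 (.pos 45 .mp ⟨⟨204264186, 0, 0, 0, 0, 178556339, 0, 0, 0, ⟨0, 0⟩, 0⟩, 0, 0⟩ 0 0) (.pos 45 .mp ⟨⟨206133187, 0, 0, 0, 0, 180278613, 0, 0, 0, ⟨0, 0⟩, 0⟩, 0, 0⟩ 0 0)) (.cut .s 11878400 (.cut .l 108558 (.cut .d (-4096) (.pos 45 .mp ⟨⟨204843739, 0, 0, 0, 0, 178056906, 0, 0, 0, ⟨0, 0⟩, 0⟩, 0, 0⟩ 0 0) (.cut .v 16793600 (.cut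 .l 54279 (.cut .d (-2048) (.pos 49 .mp ⟨⟨204737125, 0, 0, 0, 0, 177686089, 0, 0, 0, ⟨0, 0⟩, 0⟩, 0, 0⟩ 0 0) (.cut .s 11870208 (.pos 49 .mp ⟨⟨206754787, 0, 0, 0, 0, 169763920, 0, 0, 0, ⟨0, 0⟩, 0⟩, 0, 0⟩ 0 0) (.pos 49 .mp ⟨⟨207691290, 0, 0, 0, 0, 170587814, 0, 0, 0, ⟨0, 0⟩, 0⟩, 0, 0⟩ 0 0))) (.pos 49 .mp ⟨⟨207402512, 0, 0, 0, 0, 167670518, 0, 0, 0, ⟨0, 0⟩, 0⟩, 0, 0⟩ 0 0)) (.pos 50 .mp ⟨⟨311880775, 0, 0, 0, 0, 0, 0, 0, 0, ⟨0, 0⟩, 0⟩, 0, 0⟩ 0 0))) (.pos 45 .mp ⟨⟨208322236, 0, 0, 0, 0, 166567295, 0, 0, 0, ⟨0, 0⟩, 0⟩, 0, 0⟩ 0 0)) (.cut .l 108558 (.cut .d (-4096) (.pos 45 .mp ⟨⟨206708440, 0, 0, 0, 0, 179789836, 0, 0, 0, ⟨0, 0⟩, 0⟩, 0,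 0⟩ 0 0) (.cut .v 16793600 (.cut .l 54279 (.cut .d (-2048) (.pos 49 .mp ⟨⟨206596257, 0, 0, 0, 0, 179422898, 0, 0, 0, ⟨0, 0⟩, 0⟩, 0, 0⟩ 0 0) (.cut .s 11886592 (.pos 49 .mp ⟨⟨208632025, 0, 0, 0, 0, 171423096, 0, 0, 0, ⟨0, 0⟩, 0⟩, 0, 0⟩ 0 0) (.pos 49 .mp ⟨⟨209577014, 0, 0, 0, 0, 172269768, 0, 0, 0, ⟨0, 0⟩, 0⟩, 0, 0⟩ 0 0))) (.pos 49 .mp ⟨⟨209290370, 0, 0, 0, 0, 169313678, 0, 0, 0, ⟨0, 0⟩, 0⟩, 0, 0⟩ 0 0)) (.pos 50 .mp ⟨⟨314662488, 0, 0, 0, 0, 0, 0, 0, 0, ⟨0, 0⟩, 0⟩, 0, 0⟩ 0 0))) (.pos 45 .mp ⟨⟨210227687, 0, 0, 0, 0, 168187060, 0, 0, 0, ⟨0, 0⟩, 0⟩, 0, 0⟩ 0 0)))) (.pos 46 .mp ⟨⟨328285613, 0, 0, 0, 0, 0, 0, 0, 0, ⟨0, 0⟩, 0⟩, 0, 0⟩ 0 0))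 (.cut .v 16809984 (.cut .d (-8192) (.cut .s 11911168 (.pos 45 .mp ⟨⟨208018947, 0, 0, 0, 0, 182067768, 0, 0, 0, ⟨0, 0⟩, 0⟩, 0, 0⟩ 0 0) (.pos 45 .mp ⟨⟨209921626, 0, 0, 0, 0, 183924570, 0, 0, 0, ⟨0, 0⟩, 0⟩, 0, 0⟩ 0 0)) (.cut .s 11911168 (.cut .l 108558 (.cut .d (-4096) (.pos 45 .mp ⟨⟨208589913, 0, 0, 0, 0, 181589693, 0, 0, 0, ⟨0, 0⟩, 0⟩, 0, 0⟩ 0 0) (.cut .v 16793600 (.cut .l 54279 (.cut .d (-2048) (.pos 49 .mp ⟨⟨208472137, 0, 0, 0, 0, 181226590, 0, 0, 0, ⟨0, 0⟩, 0⟩, 0, 0⟩ 0 0) (.cut .s 11902976 (.pos 49 .mp ⟨⟨210526277, 0, 0, 0, 0, 173127836, 0, 0, 0, ⟨0, 0⟩, 0⟩, 0, 0⟩ 0 0) (.pos 49 .mp ⟨⟨211479834, 0, 0, 0, 0, 173997301, 0, 0, 0,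 ⟨0, 0⟩, 0⟩, 0, 0⟩ 0 0))) (.pos 49 .mp ⟨⟨211195315, 0, 0, 0, 0, 170973354, 0, 0, 0, ⟨0, 0⟩, 0⟩, 0, 0⟩ 0 0)) (.pos 50 .mp ⟨⟨317499120, 0, 0, 0, 0, 0, 0, 0, 0, ⟨0, 0⟩, 0⟩, 0, 0⟩ 0 0))) (.pos 45 .mp ⟨⟨212150431, 0, 0, 0, 0, 169823040, 0, 0, 0, ⟨0, 0⟩, 0⟩, 0, 0⟩ 0 0)) (.cut .l 108558 (.cut .d (-4096) (.pos 45 .mp ⟨⟨210488318, 0, 0, 0, 0, 183457240, 0, 0, 0, ⟨0, 0⟩, 0⟩, 0, 0⟩ 0 0) (.cut .v 16793600 (.cut .l 54279 (.cut .d (-2048) (.pos 49 .mp ⟨⟨210364926, 0, 0, 0, 0, 183097930, 0, 0, 0, ⟨0, 0⟩, 0⟩, 0, 0⟩ 0 0) (.cut .s 11919360 (.pos 49 .mp ⟨⟨212437706, 0, 0, 0, 0, 174878167, 0, 0, 0, ⟨0, 0⟩, 0⟩, 0, 0⟩ 0 0) (.pos 49 .mp ⟨⟨213373636,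 0, 0, 0, 0, 175819090, 0, 0, 0, ⟨0, 0⟩, 0⟩, 0, 0⟩ 0 0))) (.pos 49 .mp ⟨⟨213117514, 0, 0, 0, 0, 172649011, 0, 0, 0, ⟨0, 0⟩, 0⟩, 0, 0⟩ 0 0)) (.pos 50 .mp ⟨⟨320391164, 0, 0, 0, 0, 0, 0, 0, 0, ⟨0, 0⟩, 0⟩, 0, 0⟩ 0 0))) (.pos 45 .mp ⟨⟨214090634, 0, 0, 0, 0, 171474697, 0, 0, 0, ⟨0, 0⟩, 0⟩, 0, 0⟩ 0 0)))) (.pos 46 .mp ⟨⟨334098884, 0, 0, 0, 0, 0, 0, 0, 0, ⟨0, 0⟩, 0⟩, 0, 0⟩ 0 0))) (.cut .d (-8192) (.cut .d (-12288) (.void 33 ⟨⟨0, 0, 0, 0, 0, 100000, 0, 0, 0, ⟨0, 0⟩, 0⟩, 0, 0⟩ 0 0) (.cut .v 16809984 (.cut .l 108558 (.void 45 ⟨⟨0, 0, 0, 0, 0, 100000, 0, 0, 0, ⟨0, 0⟩, 0⟩, 0, 0⟩ 0 0) (.cut .s 11960320 (.pos 45 .mp ⟨⟨211841391, 0, 0, 0, 0, 187725230,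 0, 0, 0, ⟨0, 0⟩, 0⟩, 0, 0⟩ 0 0) (.pos 45 .mp ⟨⟨215732841, 0, 0, 0, 0, 191606827, 0, 0, 0, ⟨0, 0⟩, 0⟩, 0, 0⟩ 0 0))) (.pos 46 .mp ⟨⟨339837878, 0, 0, 0, 0, 0, 0, 0, 0, ⟨0, 0⟩, 0⟩, 0, 0⟩ 0 0))) (.cut .v 16809984 (.cut .s 11960320 (.cut .s 11943936 (.cut .l 108558 (.cut .d (-4096) (.pos 45 .mp ⟨⟨212403821, 0, 0, 0, 0, 185393254, 0, 0, 0, ⟨0, 0⟩, 0⟩, 0, 0⟩ 0 0) (.cut .v 16793600 (.cut .s 11935744 (.cut .s 11931648 (.pos 49 .mp ⟨⟨216165881, 0, 0, 0, 0, 173516587, 0, 0, 0, ⟨0, 0⟩, 0⟩, 0, 0⟩ 0 0) (.pos 49 .mp ⟨⟨216717623, 0, 0, 0, 0, 173869327, 0, 0, 0, ⟨0, 0⟩, 0⟩, 0, 0⟩ 0 0)) (.pos 49 .mp ⟨⟨216193015, 0, 0, 0, 0, 176297131, 0, 0, 0, ⟨0,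 0⟩, 0⟩, 0, 0⟩ 0 0)) (.pos 50 .mp ⟨⟨323339117, 0, 0, 0, 0, 0, 0, 0, 0, ⟨0, 0⟩, 0⟩, 0, 0⟩ 0 0))) (.pos 45 .mp ⟨⟨216048467, 0, 0, 0, 0, 173141491, 0, 0, 0, ⟨0, 0⟩, 0⟩, 0, 0⟩ 0 0)) (.cut .l 108558 (.cut .d (-4096) (.pos 45 .mp ⟨⟨214336588, 0, 0, 0, 0, 187398520, 0, 0, 0, ⟨0, 0⟩, 0⟩, 0, 0⟩ 0 0) (.cut .s 11952128 (.pos 45 .mp ⟨⟨217592385, 0, 0, 0, 0, 176560605, 0, 0, 0, ⟨0, 0⟩, 0⟩, 0, 0⟩ 0 0) (.pos 45 .mp ⟨⟨218580329, 0, 0, 0, 0, 177485138, 0, 0, 0, ⟨0, 0⟩, 0⟩, 0, 0⟩ 0 0))) (.pos 45 .mp ⟨⟨218024101, 0, 0, 0, 0, 174822878, 0, 0, 0, ⟨0, 0⟩, 0⟩, 0, 0⟩ 0 0))) (.cut .s 11976704 (.cut .l 108558 (.cut .d (-4096) (.pos 45 .mp ⟨⟨216286787, 0,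 0, 0, 0, 189473831, 0, 0, 0, ⟨0, 0⟩, 0⟩, 0, 0⟩ 0 0) (.cut .s 11968512 (.pos 45 .mp ⟨⟨219572770, 0, 0, 0, 0, 178420992, 0, 0, 0, ⟨0, 0⟩, 0⟩, 0, 0⟩ 0 0) (.pos 45 .mp ⟨⟨220569731, 0, 0, 0, 0, 179368169, 0, 0, 0, ⟨0, 0⟩, 0⟩, 0, 0⟩ 0 0))) (.pos 45 .mp ⟨⟨220017711, 0, 0, 0, 0, 176518309, 0, 0, 0, ⟨0, 0⟩, 0⟩, 0, 0⟩ 0 0)) (.cut .l 108558 (.cut .d (-4096) (.pos 45 .mp ⟨⟨218254591, 0, 0, 0, 0, 191619996, 0, 0, 0, ⟨0, 0⟩, 0⟩, 0, 0⟩ 0 0) (.cut .s 11984896 (.pos 45 .mp ⟨⟨221501313, 0, 0, 0, 0, 180456424, 0, 0, 0, ⟨0, 0⟩, 0⟩, 0, 0⟩ 0 0) (.pos 45 .mp ⟨⟨222415740, 0, 0, 0, 0, 181596414, 0, 0, 0, ⟨0, 0⟩, 0⟩, 0, 0⟩ 0 0))) (.pos 45 .mp ⟨⟨222029475,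 0, 0, 0, 0, 178227232, 0, 0, 0, ⟨0, 0⟩, 0⟩, 0, 0⟩ 0 0)))) (.pos 46 .mp ⟨⟨330474248, 0, 0, 0, 0, 0, 0, 0, 0, ⟨0, 0⟩, 0⟩, 0, 0⟩ 0 0))))) (.pos 34 .mp ⟨⟨328529933, 0, 0, 0, 0, 0, 0, 0, 0, ⟨0, 0⟩, 0⟩, 0, 0⟩ 0 0)) (.pos 30 .mp ⟨⟨334841492, 0, 0, 0, 0, 0, 0, 0, 0, ⟨0, 0⟩, 0⟩, 0, 0⟩ 0 0)) (.void 28 ⟨⟨100000, 0, 0, 0, 0, 0, 0, 0, 0, ⟨0, 0⟩, 0⟩, 0, 0⟩ 0 0)) (.void 26 ⟨⟨100000, 0, 0, 0, 0, 0, 0, 0, 0, ⟨0, 0⟩, 0⟩, 0, 0⟩ 0 0)))))))) (.void 24 ⟨⟨100000, 0, 0, 0, 0, 0, 0, 0, 0, ⟨0, 0⟩, 0⟩, 0, 0⟩ 0 0))) (.void 22 ⟨⟨100000, 0, 0, 0, 0, 0, 0, 0, 0, ⟨0, 0⟩, 0⟩, 0, 0⟩ 0 0)))) (.void 20 ⟨⟨100000, 0, 0, 0, 0, 0, 0, 0, 0, ⟨0, 0⟩, 0⟩, 0, 0⟩ 0 0))) (.void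 18 ⟨⟨100000, 0, 0, 0, 0, 0, 0, 0, 0, ⟨0, 0⟩, 0⟩, 0, 0⟩ 0 0)) (.void 97 ⟨⟨100000, 0, 0, 0, 0, 0, 0, 0, 0, ⟨0, 0⟩, 0⟩, 0, 0⟩ 0 0)) (.void 120 ⟨⟨100000, 0, 0, 0, 0, 0, 0, 0, 0, ⟨0, 0⟩, 0⟩, 0, 0⟩ 0 0)) (.void 125 ⟨⟨96192, 0, 0, 3808, 0, 0, 0, 0, 0, ⟨0, 0⟩, 0⟩, 0, 0⟩ 0 0))) (.cut .v 16777216 (.cut .v 8388608 (.cut .v 4194304 (.cut .v 2097152 (.cut .v 1048576 (.pos 121 .pm ⟨⟨0, 0, 23804970, 0, 0, 0, 0, 0, 0, ⟨0, 0⟩, 0⟩, 0, 8835⟩ 0 0) (.pos 122 .pm ⟨⟨0, 0, 26577731, 0, 0, 0, 0, 0, 0, ⟨0, 0⟩, 0⟩, 0, 24542⟩ 0 0)) (.pos 7 .pm ⟨⟨0, 0, 32962096, 0, 0, 0, 0, 0, 0, ⟨0, 0⟩, 0⟩, 0, 31554⟩ 0 0)) (.pos 5 .pm ⟨⟨0, 0, 5644800, 0, 0, 0, 0, 0, 0, ⟨0,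 0⟩, 0⟩, 0, 0⟩ 0 0)) (.pos 3 .pm ⟨⟨0, 0, 0, 0, 0, 0, 0, 0, 0, ⟨0, 0⟩, 0⟩, 0, 0⟩ 0 0)) (.cut .v 268435456 (.cut .v 67108864 (.cut .d 3608508 (.cut .d 1804254 (.cut .v 33554432 (.cut .d 902127 (.cut .v 25165824 (.cut .d 451063 (.cut .v 20971520 (.cut .v 18874368 (.pos 21 .pp ⟨⟨209516764, 0, 0, 0, 0, 0, 0, 0, 0, ⟨0, 0⟩, 0⟩, 7898763, 0⟩ 0 0) (.pos 22 .pp ⟨⟨358315589, 0, 0, 0, 0, 0, 0, 0, 0, ⟨0, 0⟩, 0⟩, 0, 0⟩ 0 0)) (.pos 20 .pp ⟨⟨0, 0, 0, 0, 0, 0, 0, 0, 0, ⟨0, 0⟩, 0⟩, 42614976, 0⟩ 0 0)) (.pos 17 .pp ⟨⟨0, 0, 0, 0, 0, 0, 0, 0, 0, ⟨0, 0⟩, 0⟩, 19872312, 64426⟩ 0 0)) (.pos 18 .pp ⟨⟨0, 0, 0, 0, 0, 0, 0, 0, 0, ⟨0, 0⟩, 0⟩, 55266778, 0⟩ 0 0))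 (.pos 16 .pp ⟨⟨0, 0, 0, 0, 0, 0, 0, 0, 0, ⟨0, 0⟩, 0⟩, 21815875, 56757⟩ 0 0)) (.cut .d 902127 (.void 97 ⟨⟨0, 0, 0, 0, 0, 0, 0, 0, 0, ⟨0, 0⟩, 0⟩, 100000, 0⟩ 0 0) (.pos 97 .pp ⟨⟨0, 0, 0, 0, 0, 0, 0, 0, 0, ⟨0, 0⟩, 0⟩, 65747944, 0⟩ 0 0))) (.pos 96 .pp ⟨⟨0, 0, 0, 0, 0, 0, 0, 0, 0, ⟨0, 0⟩, 0⟩, 16921962, 76068⟩ 0 0)) (.pos 96 .pp ⟨⟨0, 0, 0, 0, 0, 0, 0, 0, 0, ⟨0, 0⟩, 0⟩, 0, 142840⟩ 0 0)) (.void 120 ⟨⟨0, 93450, 0, 0, 0, 0, 0, 0, 0, ⟨0, 0⟩, 0⟩, 6550, 0⟩ 0 0)) (.void 125 ⟨⟨0, 0, 0, 0, 0, 0, 0, 0, 0, ⟨0, 0⟩, 0⟩, 100000, 0⟩ 0 0)))),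
    by decide +kernel⟩

end Vale.Agent.P237.Petty.Cor.Grid.Tiny.N17
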